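import Vale.Agent.P073.H345.WildF
import Vale.Agent.P073.H193.EdgCx
import Vale.Agent.P073.H244.CxMesh

/-!
# P073, H345, ROUND T, **STAGE 2**: insertion of thin bands at the levels of the boxes

`h : ConHomeo Ω Λ` (the output of STAGE 1), a mesh of `Ω`, a locally finite family of boxes `B`
with levels which are regular for the family of faces, edges and vertices.  For all sufficiently
small thicknesses the insertion map `κ` has a lift `g`, `g '' X = κ ⁻¹ (h '' X)` for all cells,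
faces, edges and vertices; on the active faces and edges `g` is good, in any prescribed sense.
-/

open Set Metric Topology Filter

namespace P073.H345

open P073 P073.TR P073.H936 P073.H236 P073.H579 P073.H212
open Vale.Agent.P073.H73 (Mesh)
open Vale.Agent.P073.H193 (Edges)

variable {γ : Type*} {Ω Λ : Set (Fin 3 → ℝ)} {B : γ → BX 3} {κ : (Fin 3 → ℝ) → Fin 3 → ℝ}

/-- the family of faces, edges and vertices -/
def fam (M : Mesh Ω) (E : Edges M) : M.κ ⊕ (E.ε ⊕ E.verts) → Set (Fin 3 → ℝ)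
  | Sum.inl k => M.F k
  | Sum.inr (Sum.inl e) => E.seg e
  | Sum.inr (Sum.inr x) => {x.1}

/-- the levels of the boxes are regular on the faces which meet them -/
def RegB (M : Mesh Ω) (E : Edges M) (h : ConHomeo Ω Λ) (B : γ → BX 3) : Prop :=
  ∀ k g, ((B g).K ∩ h.toFun '' M.F k).Nonempty → ∀ m < (B g).N, ∀ x ∈ M.F k,
    h.toFun x (B g).j = (B g).a m → H805.Reg (fun x => h.toFun x (B g).j) (fam M E) x

/-- the output of STAGE 2 -/
structure Out2 (M : Mesh Ω) (E : Edges M) (h : ConHomeo Ω Λ) (κ : (Fin 3 → ℝ) → Fin 3 → ℝ)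
    (Act : Set M.κ) (GE : E.ε → ((Fin 3 → ℝ) → Fin 3 → ℝ) → Prop)
    (GF : M.κ → ((Fin 3 → ℝ) → Fin 3 → ℝ) → Prop) (g : ConHomeo Ω Λ) : Prop where
  /-- good on the active faces -/
  face : ∀ k ∈ Act, ∃ Φ : ConHomeo (M.F k) (Pre κ Λ h (M.F k)), GF k Φ.toFun ∧
    EqOn g.toFun Φ.toFun (M.F k)
  /-- good on the edges of the active faces -/
  edge : ∀ k ∈ Act, ∀ e, E.seg e ⊆ M.F k → ∃ f, GE e f ∧ EqOn g.toFun f (E.seg e)
  img_edge : ∀ e, g.toFun '' E.seg e = Pre κ Λ h (E.seg e)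
  vert : ∀ x ∈ E.verts, κ (g.toFun x) = h.toFun x
  img_face : ∀ k, g.toFun '' M.F k = Pre κ Λ h (M.F k)
  img_cell : ∀ i, g.toFun '' M.Q i = Pre κ Λ h (M.Q i)

theorem exists_face_of_vert {M : Mesh Ω} (E : Edges M) {x : Fin 3 → ℝ} (hx : x ∈ E.verts) :
    ∃ k, x ∈ M.F k := by
  rcases hx with ⟨e, rfl⟩ | ⟨e, rfl⟩
  · obtain ⟨k, hk⟩ := E.own e
    exact ⟨k, hk (left_mem_segment ℝ _ _)⟩
  · obtain ⟨k, hk⟩ := E.own e
    exact ⟨k, hk (right_mem_segment ℝ _ _)⟩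

/-- vertices are not on levels -/
theorem RegB.vert {M : Mesh Ω} {E : Edges M} {h : ConHomeo Ω Λ} (H : RegB M E h B)
    {x : Fin 3 → ℝ} (hx : x ∈ E.verts) {g : γ} (hg : h.toFun x ∈ (B g).K) {m : ℕ}
    (hm : m < (B g).N) : h.toFun x (B g).j ≠ (B g).a m := by
  intro h1
  obtain ⟨k, hk⟩ := exists_face_of_vert E hx
  exact not_reg_singleton (M := fam M E) (t := Sum.inr (Sum.inr ⟨x, hx⟩)) rfl
    (H k g ⟨_, hg, x, hk, rfl⟩ m hm x hk h1)

/-- the faces whose images miss all boxes -/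
def Miss (M : Mesh Ω) (h : ConHomeo Ω Λ) (B : γ → BX 3) : Set M.κ :=
  {k | ∀ g, Disjoint ((B g).K) (h.toFun '' M.F k)}

/-- away from the boxes, the preimage is the image -/
theorem IsQ.pre_eq_off (hκ : IsQ B κ) (H : Fam Λ B) {Ω X : Set (Fin 3 → ℝ)} (h : ConHomeo Ω Λ)
    (hX : X ⊆ Ω) (hd : ∀ g, Disjoint ((B g).K) (h.toFun '' X)) : H579.Pre κ Λ h X = h.toFun '' X := by
  rw [hκ.pre_eq H h hX]
  ext y
  constructor
  · intro hy
    have h1 : ∀ g, y ∉ (B g).K := fun g hg =>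
      Set.disjoint_left.1 (hd g) (hκ.mapsK hg) hy
    rwa [mem_preimage, hκ.off y h1] at hy
  · intro hy
    rw [mem_preimage, hκ.off y fun g hg => Set.disjoint_left.1 (hd g) hg hy]
    exact hy

/-- **STAGE 2** -/
theorem exists_stage2 (hΩ : IsOpen Ω) (M : Mesh Ω) (E : Edges M) (h : ConHomeo Ω Λ)
    (H : Fam Λ B) (hreg : RegB M E h B) (Act : Set M.κ)
    (hA1 : ∀ k ∈ Act, k ∉ Miss M h B)
    (hA2 : ∀ k ∈ Act, ∀ e, E.seg e ⊆ M.F k → ∀ l ∈ Miss M h B, ¬ E.seg e ⊆ M.F l) :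
    ∃ c₀ : γ → ℝ, (∀ g, 0 < c₀ g) ∧ ∀ (c : γ → ℝ) (h0 : ∀ g, 0 < c g) (h1 : ∀ g, c g ≤ (B g).c),
      (∀ g, c g ≤ c₀ g) → ∀ κ, IsQ (fun g => thin (B g) (c g) (h0 g) (h1 g)) κ →
      InsMap κ Λ Λ →
      ∀ (GE : E.ε → ((Fin 3 → ℝ) → Fin 3 → ℝ) → Prop) (GF : M.κ → ((Fin 3 → ℝ) → Fin 3 → ℝ) → Prop),
      (∀ k ∈ Act, ∀ e, E.seg e ⊆ M.F k → ∃ Φ : ConHomeo (E.seg e) (Pre κ Λ h (E.seg e)),
        GE e Φ.toFun ∧ ∀ x ∈ E.seg e, x ∈ E.verts → κ (Φ.toFun x) = h.toFun x) →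
      (∀ k ∈ Act, ∀ Φe : ∀ e, E.seg e ⊆ M.F k → ConHomeo (E.seg e) (Pre κ Λ h (E.seg e)),
        (∀ e he, GE e (Φe e he).toFun) →
        (∀ e he e' he', EqOn (Φe e he).toFun (Φe e' he').toFun (E.seg e ∩ E.seg e')) →
        (∀ e he, ∀ x ∈ E.seg e, x ∈ E.verts → κ ((Φe e he).toFun x) = h.toFun x) →
        ∃ Φ : ConHomeo (M.F k) (Pre κ Λ h (M.F k)), GF k Φ.toFun ∧
          ∀ e he, EqOn Φ.toFun (Φe e he).toFun (E.seg e)) →
      ∃ g : ConHomeo Ω Λ, Out2 M E h κ Act GE GF g ∧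
        ∀ k ∈ Miss M h B, EqOn g.toFun h.toFun (M.F k) := by
  classical
  have hFc : ∀ k, IsCompact (M.F k) := fun k => (Vale.Agent.P073.H193.pgn_of_fat (M.fat k)).cpt
  have hFΩ : ∀ k, M.F k ⊆ Ω := Vale.Agent.P073.H193.mesh_sub M
  obtain ⟨c₀, hc₀, hmain⟩ := exists_passed_all H h hFc
    (fun k => (Vale.Agent.P073.H244.conBall_face M k).conicalSet) hFΩ M.ffin (M := fam M E)
    (fun k => Sum.inl k) (fun k => rfl) (fun k g hg m hm x hx hxa => hreg k g hg m hm x hx hxa)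
  refine ⟨c₀, hc₀, fun c h0 h1 hc κ hκ hI GE GF hedge hface => ?_⟩
  have Hth : Fam Λ fun g => thin (B g) (c g) (h0 g) (h1 g) := H.thin h0 h1
  have hpass : ∀ k, ∃ (Φ : ConHomeo (M.F k) (Pre κ Λ h (M.F k))) (γ' : (Fin 3 → ℝ) → Fin 3 → ℝ),
      (∀ x ∈ M.F k, κ (Φ.toFun x) = h.toFun (γ' x)) ∧
      (∀ t, ∀ x ∈ M.F k, (γ' x ∈ fam M E t ↔ x ∈ fam M E t)) ∧
      ∀ e, E.seg e ⊆ M.F k → Φ.toFun '' E.seg e = Pre κ Λ h (E.seg e) := by
    intro k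
    obtain ⟨Φ, γ', hP⟩ := hmain c h0 h1 hc κ hκ k
    refine ⟨Φ.cast rfl (hκ.pre_eq Hth h (hFΩ k)).symm, γ', hP.eq, hP.iff, fun e he => ?_⟩
    have h2 := hP.img (Sum.inr (Sum.inl e))
    have h3 : fam M E (Sum.inr (Sum.inl e)) ∩ M.F k = E.seg e := inter_eq_left.2 he
    rw [h3] at h2
    rw [hκ.pre_eq Hth h (he.trans (hFΩ k))]
    exact h2
  choose Ψ γ' hΨ1 hΨ2 hΨ3 using hpass
  have hN : ∀ x ∈ E.verts, (Pre κ Λ h {x}).Subsingleton := by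
    intro x hx y hy y' hy'
    obtain ⟨hyΛ, z, hz, hzy⟩ := hy
    obtain ⟨hyΛ', z', hz', hzy'⟩ := hy'
    rw [mem_singleton_iff] at hz hz'
    subst hz; subst hz'
    exact hκ.inj_off Hth hzy.symm hzy'.symm fun g hg m hm => hreg.vert hx hg hm
  have hsc : ∀ e, IsCompact (E.seg e) := E.isCompact_seg
  have hsΩ : ∀ e, E.seg e ⊆ Ω := E.seg_sub_Ω
  -- the faces which miss the boxes
  have hmiss : ∀ k ∈ Miss M h B, ∀ X ⊆ M.F k, h.toFun '' X = Pre κ Λ h X := by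
    intro k hk X hX
    exact (hκ.pre_eq_off Hth h (hX.trans (hFΩ k)) fun g =>
      (hk g).mono_right (image_mono hX)).symm
  have hmisspt : ∀ k ∈ Miss M h B, ∀ x ∈ M.F k, κ (h.toFun x) = h.toFun x := fun k hk x hx =>
    hκ.off _ fun g hg => Set.disjoint_left.1 (hk g) hg ⟨x, hx, rfl⟩
  obtain ⟨g, g0, g1, g2, g3, g4, g5, g6⟩ := exists_round (s := E.seg) (N := E.verts)
    (Vale.Agent.P073.H244.cellCx M hΩ) E.edgeCx h hI hN
    (fun e f => (∃ k ∈ Act, E.seg e ⊆ M.F k) → GE e f) (fun k f => k ∈ Act → GF k f)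
    (Miss M h B)
    (fun k hk => (h.restr (Vale.Agent.P073.H244.conBall_face M k).conicalSet (hFΩ k)).cast rfl
      (hmiss k hk _ Subset.rfl))
    (fun k hk l hl x hx => rfl)
    (fun k hk e he => hmiss k hk _ he)
    (fun k hk x hx hxk => hmisspt k hk x hxk)
    (by
      rintro k hk e he - ⟨l, hl, hel⟩
      exact absurd he (hA2 l hl e hel k hk))
    (by
      rintro e - ⟨k, hk⟩
      by_cases hA : ∃ k ∈ Act, E.seg e ⊆ M.F k
      · obtain ⟨k', hk', hek'⟩ := hA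
        obtain ⟨Φ, a1, a2⟩ := hedge k' hk' e hek'
        exact ⟨Φ, fun _ => a1, a2⟩
      · refine ⟨((Ψ k).restr (E.edgeCx.con e) hk).cast rfl (hΨ3 k e hk), fun h => absurd h hA,
          fun x hx hxN => ?_⟩
        show κ ((Ψ k).toFun x) = h.toFun x
        rw [hΨ1 k x (hk hx)]
        have h2 := (hΨ2 k (Sum.inr (Sum.inr ⟨x, hxN⟩)) x (hk hx)).2 rfl
        rw [show γ' k x = x from h2])
    (by
      intro k _ Φe a1 a2 a3
      by_cases hk : k ∈ Act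
      · obtain ⟨Φ, b1, b2⟩ := hface k hk Φe (fun e he => a1 e he ⟨k, hk, he⟩) a2 a3
        exact ⟨Φ, fun _ => b1, b2⟩
      · have hball : ConBall 2 (M.F k) (⋃ e ∈ {e | E.seg e ⊆ M.F k}, E.seg e) := by
          rw [← E.fr_eq k]; exact Vale.Agent.P073.H244.conBall_face M k
        obtain ⟨Φ, b1⟩ := exists_wild_face E.edgeCx h hI hsc hsΩ (E.fin_face k) hN hball (Ψ k)
          (hΨ3 k) Φe a2 a3
        exact ⟨Φ, fun h => absurd h hk, b1⟩)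
  refine ⟨g, ⟨fun k hk => ?_, fun k hk e he => ?_, fun e => ?_, fun x hx => ?_, g5, g6⟩,
    fun k hk => g0 k hk⟩
  · obtain ⟨Φ, b1, b2⟩ := g1 k (hA1 k hk)
    exact ⟨Φ, b1 hk, b2⟩
  · obtain ⟨f, b1, b2⟩ := g2 k k (hA1 k hk) e he he
    exact ⟨f, b1 ⟨k, hk, he⟩, b2⟩
  · obtain ⟨k, hk⟩ := E.own e
    exact g3 e k hk
  · obtain ⟨k, hk⟩ := exists_face_of_vert E hx
    exact g4 x hx k hk

end P073.H345
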