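import Vale.Agent.P073.H236.TOutDefs
import Vale.Agent.P073.H236.BoxData
import Vale.Agent.P073.H805.PIn
import Vale.Agent.P073.H345.Stage2
import Vale.Agent.P073.H579.BoxPar

/-!
# P073, H345, ROUND P: the boxes of the insertion

`PLev`: levels in both tangential directions of all squares; `PLev.bx β s`: the box of the square
`s` in the direction `tg s β`.  The two families are disjoint; the insertion map of round P is
`κ true ∘ κ false`; near the plate it is the product map `prodK (L.kP s)`.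
-/

open Set Metric Topology Filter

namespace P073.H345

open _root_.P073 _root_.P073.Net _root_.P073.PA691 _root_.P073.H236 _root_.P073.H579
open _root_.P073.PR720 (LF)
open Vale.Agent.P073.St (V)
open Vale.Agent.P073.H471 Vale.Agent.P073.H267
open Vale.Agent.P073.H805 (t1 t2 t1_ne t2_ne t1_ne_t2 t_cases lvs)
open Vale.Agent.P073.H73 (Mesh)
open Vale.Agent.P073.H193 (Edges)

variable {Ω Λ : Set V} {v : V} {K : BoxCx Λ v} {S : Rad K} {W : Wid K S} {B : Boxes W}

/-- tangential directions of a square -/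
def tg (s : K.S) (β : Bool) : Fin 3 := bif β then t2 (K.nrm s) else t1 (K.nrm s)

theorem tg_ne (s : K.S) (β : Bool) : tg s β ≠ K.nrm s := by
  cases β
  · exact t1_ne _
  · exact t2_ne _

theorem tg_ne_not (s : K.S) (β : Bool) : tg s β ≠ tg s (!β) := by
  cases β
  · exact t1_ne_t2 _
  · exact (t1_ne_t2 _).symm

theorem tg_cases (s : K.S) (β : Bool) {j : Fin 3} (hj : j ≠ K.nrm s) :
    j = tg s β ∨ j = tg s (!β) := by
  rcases t_cases hj with h | h <;> cases β
  · exact Or.inl h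
  · exact Or.inr h
  · exact Or.inr h
  · exact Or.inl h

/-- the flag of a tangential direction -/
def bt (s : K.S) (j : Fin 3) : Bool := decide (j = tg s true)

theorem bt_tg (s : K.S) (β : Bool) : bt s (tg s β) = β := by
  cases β
  · exact decide_eq_false (tg_ne_not s false)
  · exact decide_eq_true rfl

theorem tg_bt (s : K.S) {j : Fin 3} (hj : j ≠ K.nrm s) : tg s (bt s j) = j := by
  rcases tg_cases s true hj with h | h
  · rw [h, bt_tg]
  · rw [h, bt_tg]

/-- levels of round P, in both tangential directions of all squares -/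
structure PLev (G : Geo B) where
  N : K.S → Bool → ℕ
  a : K.S → Bool → ℕ → ℝ
  c : K.S → Bool → ℝ
  lvs : ∀ s β, Lvs (N s β) (a s β) (c s β) (K.slo s (tg s β) + G.a s) (K.shi s (tg s β) - G.a s)

/-- the support of the maps at the square `s` -/
def PK (G : Geo B) (s : K.S) : Set V :=
  {y | (∀ j, j ≠ K.nrm s → K.slo s j + 3 / 4 * G.p s ≤ y j ∧ y j ≤ K.shi s j - 3 / 4 * G.p s) ∧
    |y (K.nrm s) - K.slo s (K.nrm s)| ≤ 3 / 2 * B.τ s}

variable {G : Geo B} {y z : V}

theorem PB_sub_PK {c : ℝ} (hc : 3 / 4 ≤ c) (s : K.S) : G.PB c s ⊆ PK G s := by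
  intro y hy
  obtain ⟨h1, h2⟩ := Geo.mem_PB.1 hy
  have hp := Geo.p_pos (G := G) s
  have hτ := B.τ_pos s
  have h3 : 3 / 4 * G.p s ≤ c * G.p s := mul_le_mul_of_nonneg_right hc hp.le
  refine ⟨fun j hj => ?_, by linarith⟩
  have := h1 j hj
  constructor <;> linarith

theorem τ_as_PK {s : K.S} (hy : y ∈ PK G s) : B.τ s ≤ W.as s y := by
  refine le_marg (B.τ_le s) fun k hk => ?_
  have h1 := hy.1 k (by simpa using hk)
  have h2 := G.τ_p s
  have h3 := Geo.p_pos (G := G) s
  constructor <;> linarith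

theorem PK_sub_ss (s : K.S) : PK G s ⊆ W.ss s := by
  intro y hy
  have h1 := τ_as_PK hy
  have hτ := B.τ_pos s
  show nJ {K.nrm s} (K.slo s) y < 2 * W.as s y
  have h2 : nJ {K.nrm s} (K.slo s) y ≤ 3 / 2 * B.τ s :=
    (nJ_le_iff (by linarith)).2 fun k hk => by rw [Finset.mem_singleton.1 hk]; exact hy.2
  linarith

theorem PK_unique {s s' : K.S} (hy : y ∈ PK G s) (hy' : y ∈ PK G s') : s = s' := by
  by_contra hne
  exact (disjoint_ss (W := W) hne).notMem_of_mem_left (PK_sub_ss s hy) (PK_sub_ss s' hy')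

namespace PLev

variable (L : PLev G)

/-- the box of the square `s` in the direction `tg s β` -/
noncomputable def bx (β : Bool) (s : K.S) : BX 3 where
  j := tg s β
  N := L.N s β
  a := L.a s β
  c := L.c s β
  al := K.slo s (tg s β) + G.a s
  be := K.shi s (tg s β) - G.a s
  lvs := L.lvs s β
  lo := fun i => if i = K.nrm s then K.slo s i - B.τ s else K.slo s i + 7 / 8 * G.p s
  hi := fun i => if i = K.nrm s then K.slo s i + B.τ s else K.shi s i - 7 / 8 * G.p s
  r := fun i => if i = K.nrm s then B.τ s / 2 else G.p s / 8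
  hr := fun i => by
    have hp := Geo.p_pos (G := G) s
    have hτ := B.τ_pos s
    split_ifs <;> positivity

variable {L}

/-- the levels are in the window, with their cells -/
theorem win (L : PLev G) (s : K.S) (β : Bool) {n : ℕ} (hn : n < L.N s β) :
    K.slo s (tg s β) + G.a s < L.a s β n - 2 * L.c s β ∧
      L.a s β n + 2 * L.c s β < K.shi s (tg s β) - G.a s :=
  ⟨(L.lvs s β).first_le hn, (L.lvs s β).le_last hn⟩

theorem mem_bxK {β : Bool} {s : K.S} : y ∈ (L.bx β s).K ↔ y ∈ PK G s ∧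
    (K.slo s (tg s β) + G.a s ≤ y (tg s β) ∧ y (tg s β) ≤ K.shi s (tg s β) - G.a s) := by
  have hp := Geo.p_pos (G := G) s
  have hpa := Geo.p_a (G := G) s
  rw [mem_K]
  constructor
  · rintro ⟨h1, h2⟩
    change K.slo s (tg s β) + G.a s ≤ y (tg s β) ∧ y (tg s β) ≤ K.shi s (tg s β) - G.a s at h1
    refine ⟨⟨fun j hj => ?_, ?_⟩, h1⟩
    · rcases tg_cases s β hj with rfl | hj'
      · constructor <;> linarith [h1.1, h1.2]
      · have h3 := h2 j (by rw [hj']; exact (tg_ne_not s β).symm)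
        change (if j = K.nrm s then K.slo s j - B.τ s else K.slo s j + 7 / 8 * G.p s) -
          (if j = K.nrm s then B.τ s / 2 else G.p s / 8) ≤ y j ∧ y j ≤
          (if j = K.nrm s then K.slo s j + B.τ s else K.shi s j - 7 / 8 * G.p s) +
          (if j = K.nrm s then B.τ s / 2 else G.p s / 8) at h3
        rw [if_neg hj, if_neg hj, if_neg hj] at h3
        constructor <;> linarith [h3.1, h3.2]
    · have h3 := h2 (K.nrm s) (tg_ne s β).symm
      change (if K.nrm s = K.nrm s then K.slo s (K.nrm s) - B.τ s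
          else K.slo s (K.nrm s) + 7 / 8 * G.p s) -
          (if K.nrm s = K.nrm s then B.τ s / 2 else G.p s / 8) ≤ y (K.nrm s) ∧ y (K.nrm s) ≤
          (if K.nrm s = K.nrm s then K.slo s (K.nrm s) + B.τ s
            else K.shi s (K.nrm s) - 7 / 8 * G.p s) +
          (if K.nrm s = K.nrm s then B.τ s / 2 else G.p s / 8) at h3
      rw [if_pos rfl, if_pos rfl, if_pos rfl] at h3
      rw [abs_le]
      constructor <;> linarith [h3.1, h3.2]
  · rintro ⟨⟨h1, h2⟩, h0⟩
    refine ⟨h0, fun j hj => ?_⟩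
    have h2' := abs_le.1 h2
    show (if j = K.nrm s then K.slo s j - B.τ s else K.slo s j + 7 / 8 * G.p s) -
        (if j = K.nrm s then B.τ s / 2 else G.p s / 8) ≤ y j ∧ y j ≤
        (if j = K.nrm s then K.slo s j + B.τ s else K.shi s j - 7 / 8 * G.p s) +
        (if j = K.nrm s then B.τ s / 2 else G.p s / 8)
    by_cases hjn : j = K.nrm s
    · rw [if_pos hjn, if_pos hjn, if_pos hjn, hjn]
      constructor <;> linarith [h2'.1, h2'.2]
    · rw [if_neg hjn, if_neg hjn, if_neg hjn]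
      have := h1 j hjn
      constructor <;> linarith [this.1, this.2]

theorem full_iff {β : Bool} {s : K.S} : (L.bx β s).Full y ↔
    (K.slo s (tg s (!β)) + 7 / 8 * G.p s ≤ y (tg s (!β)) ∧
      y (tg s (!β)) ≤ K.shi s (tg s (!β)) - 7 / 8 * G.p s) ∧
    |y (K.nrm s) - K.slo s (K.nrm s)| ≤ B.τ s := by
  constructor
  · intro h
    have h1 := h (tg s (!β)) (tg_ne_not s β).symm
    have h2 := h (K.nrm s) (tg_ne s β).symm
    change (if tg s (!β) = K.nrm s then _ else _) ≤ _ ∧ _ ≤ (if tg s (!β) = K.nrm s then _ else _) at h1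
    change (if K.nrm s = K.nrm s then _ else _) ≤ _ ∧ _ ≤ (if K.nrm s = K.nrm s then _ else _) at h2
    rw [if_neg (tg_ne s _), if_neg (tg_ne s _)] at h1
    rw [if_pos rfl, if_pos rfl] at h2
    refine ⟨h1, ?_⟩
    rw [abs_le]
    constructor <;> linarith [h2.1, h2.2]
  · rintro ⟨h1, h2⟩ i hi
    have h2' := abs_le.1 h2
    show (if i = K.nrm s then K.slo s i - B.τ s else K.slo s i + 7 / 8 * G.p s) ≤ y i ∧ y i ≤
      (if i = K.nrm s then K.slo s i + B.τ s else K.shi s i - 7 / 8 * G.p s)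
    by_cases hin : i = K.nrm s
    · rw [if_pos hin, if_pos hin, hin]
      constructor <;> linarith [h2'.1, h2'.2]
    · rw [if_neg hin, if_neg hin]
      rcases tg_cases s β hin with h | h
      · exact absurd h hi
      · rw [h]; exact h1

/-- the two families -/
theorem fam (L : PLev G) (hΛ : IsOpen Λ) (β : Bool) : Fam Λ (L.bx β) where
  op := hΛ
  sub := fun s y hy => ss_subset (W := W) s (PK_sub_ss s (mem_bxK.1 hy).1)
  dis := fun s s' hne y hy hy' => absurd (PK_unique (mem_bxK.1 hy).1 (mem_bxK.1 hy').1) hne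
  lf := fun z hz => by
    obtain ⟨U, hU, h⟩ := lf_ss W z hz
    refine ⟨U, hU, h.subset ?_⟩
    rintro s ⟨x, hx, hxU⟩
    exact ⟨x, PK_sub_ss s (mem_bxK.1 hx).1, hxU⟩

/-- the map of one variable -/
noncomputable def kP (L : PLev G) (s : K.S) (j : Fin 3) : ℝ → ℝ :=
  if j = K.nrm s then id else kQ (L.bx (bt s j) s) j

/-- the levels -/
noncomputable def lv (L : PLev G) (s : K.S) (j : Fin 3) : Finset ℝ :=
  if j = K.nrm s then ∅ else LQ (L.bx (bt s j) s) j

/-- lower end of the flat -/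
noncomputable def loP (L : PLev G) (s : K.S) (j : Fin 3) : ℝ → ℝ := loQ (L.bx (bt s j) s) j

/-- upper end of the flat -/
noncomputable def hiP (L : PLev G) (s : K.S) (j : Fin 3) : ℝ → ℝ := hiQ (L.bx (bt s j) s) j

/-- weight -/
noncomputable def omP (L : PLev G) (s : K.S) (j : Fin 3) : ℝ → ℝ := omQ (L.bx (bt s j) s) j

theorem kP_nrm (L : PLev G) (s : K.S) : L.kP s (K.nrm s) = id := if_pos rfl

theorem kP_tg (L : PLev G) (s : K.S) (β : Bool) :
    L.kP s (tg s β) = kQ (L.bx β s) (tg s β) := by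
  unfold kP
  rw [if_neg (tg_ne s β), bt_tg]

theorem lv_nrm (L : PLev G) (s : K.S) : L.lv s (K.nrm s) = ∅ := if_pos rfl

theorem lv_tg (L : PLev G) (s : K.S) (β : Bool) : L.lv s (tg s β) = (L.lvs s β).L := by
  unfold lv
  rw [if_neg (tg_ne s β), bt_tg]
  exact LQ_self _

theorem lvs_lv (L : PLev G) (s : K.S) : Vale.Agent.P073.H805.lvs L.lv s = L.lv s := by
  funext l
  unfold Vale.Agent.P073.H805.lvs
  by_cases hl : l = K.nrm s
  · rw [if_pos hl, hl, lv_nrm]
  · rw [if_neg hl]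

theorem mem_lv {s : K.S} {j : Fin 3} {t : ℝ} :
    t ∈ L.lv s j ↔ j ≠ K.nrm s ∧ ∃ n < L.N s (bt s j), L.a s (bt s j) n = t := by
  by_cases h : j = K.nrm s
  · rw [h, lv_nrm]; simp
  · unfold lv
    rw [if_neg h, mem_LQ]
    constructor
    · rintro ⟨-, h2⟩; exact ⟨h, h2⟩
    · rintro ⟨-, h2⟩; exact ⟨(tg_bt s h).symm, h2⟩

theorem ins1P (L : PLev G) (s : K.S) (j : Fin 3) :
    Ins1 (L.kP s j) (L.lv s j : Set ℝ) (L.loP s j) (L.hiP s j) := by
  by_cases h : j = K.nrm s
  · unfold kP lv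
    rw [if_pos h, if_pos h]
    exact ins1_id _ _
  · unfold kP lv
    rw [if_neg h, if_neg h]
    exact ins1_Q _ _

theorem omP_pos (L : PLev G) (s : K.S) (j : Fin 3) (t : ℝ) : 0 < L.omP s j t := omQ_pos _ _

theorem omP_tg (L : PLev G) (s : K.S) (β : Bool) (t : ℝ) : L.omP s (tg s β) t =
    stp (L.N s β) (K.slo s (tg s β) + G.a s) (K.shi s (tg s β) - G.a s) := by
  unfold omP
  rw [bt_tg]
  rfl

theorem hiP_sub_loP (L : PLev G) (s : K.S) (β : Bool) (t : ℝ) :
    L.hiP s (tg s β) t - L.loP s (tg s β) t = 2 * L.c s β := by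
  unfold hiP loP
  rw [bt_tg]
  exact hiQ_sub_loQ _ _

/-- composition of the product maps -/
theorem prodK_P (L : PLev G) (s : K.S) (β : Bool) (y : V) :
    prodK (kQ (L.bx (!β) s)) (prodK (kQ (L.bx β s)) y) = prodK (L.kP s) y := by
  ext j
  show kQ (L.bx (!β) s) j (kQ (L.bx β s) j (y j)) = L.kP s j (y j)
  by_cases h : j = K.nrm s
  · rw [h, kP_nrm, kQ_ne _ (tg_ne s _).symm, kQ_ne _ (tg_ne s _).symm]; rfl
  · rcases tg_cases s β h with h | h
    · rw [h, kP_tg, kQ_ne _ (show tg s β ≠ (L.bx (!β) s).j from tg_ne_not s β)]; rfl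
    · rw [h, kP_tg, kQ_ne (L.bx β s) (show tg s (!β) ≠ (L.bx β s).j from (tg_ne_not s β).symm)]
      rfl

/-- the map of one variable is the identity outside of the window -/
theorem qm_id (L : PLev G) (s : K.S) (β : Bool) {t : ℝ}
    (ht : t ≤ K.slo s (tg s β) + G.a s ∨ K.shi s (tg s β) - G.a s ≤ t) :
    qm (L.lvs s β).L (L.c s β) t = t := by
  exact (L.lvs s β).qm_out ht

theorem le_qm_iff (L : PLev G) (s : K.S) (β : Bool) {t x : ℝ}
    (hx : x ≤ K.slo s (tg s β) + G.a s) : x ≤ qm (L.lvs s β).L (L.c s β) t ↔ x ≤ t := by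
  have hm := qm_monotone (L.lvs s β).c0.le (L.lvs s β).sepd
  constructor
  · intro h
    by_contra hcon
    push Not at hcon
    rw [L.qm_id s β (Or.inl (hcon.le.trans hx))] at h
    linarith
  · intro h
    have := hm h
    rwa [L.qm_id s β (Or.inl hx)] at this

theorem qm_le_iff (L : PLev G) (s : K.S) (β : Bool) {t x : ℝ}
    (hx : K.shi s (tg s β) - G.a s ≤ x) : qm (L.lvs s β).L (L.c s β) t ≤ x ↔ t ≤ x := by
  have hm := qm_monotone (L.lvs s β).c0.le (L.lvs s β).sepd
  constructor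
  · intro h
    by_contra hcon
    push Not at hcon
    rw [L.qm_id s β (Or.inr (hx.trans hcon.le))] at h
    linarith
  · intro h
    have := hm h
    rwa [L.qm_id s β (Or.inr hx)] at this

/-- the product map of the square preserves the plates and their complements -/
theorem prodK_mem_PB {c : ℝ} (hc : c ≤ 2) {s : K.S} :
    prodK (L.kP s) y ∈ G.PB c s ↔ y ∈ G.PB c s := by
  have hp := Geo.p_pos (G := G) s
  have hpa := Geo.p_a (G := G) s
  have hcp : c * G.p s ≤ 2 * G.p s := mul_le_mul_of_nonneg_right hc hp.le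
  rw [Geo.mem_PB, Geo.mem_PB]
  have h1 : prodK (L.kP s) y (K.nrm s) = y (K.nrm s) := by
    show L.kP s (K.nrm s) _ = _
    rw [kP_nrm]; rfl
  rw [h1]
  refine and_congr_left fun _ => forall_congr' fun k => imp_congr_right fun hk => ?_
  obtain ⟨β, rfl⟩ : ∃ β, k = tg s β := ⟨bt s k, (tg_bt s hk).symm⟩
  have h2 : prodK (L.kP s) y (tg s β) = qm (L.lvs s β).L (L.c s β) (y (tg s β)) := by
    show L.kP s (tg s β) _ = _
    rw [kP_tg]
    show kQ (L.bx β s) (L.bx β s).j _ = _
    rw [kQ_self]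
    rfl
  rw [h2, L.le_qm_iff s β (by linarith), L.qm_le_iff s β (by linarith)]

/-- the maps of one family preserve the support of a plate -/
theorem mem_PK_iff {β : Bool} {κ : V → V} (hκ : IsQ (L.bx β) κ) {s : K.S} :
    κ y ∈ PK G s ↔ y ∈ PK G s := by
  by_cases h : ∃ s', y ∈ (L.bx β s').K
  · obtain ⟨s', hs'⟩ := h
    have h1 := hκ.mapsK hs'
    constructor
    · intro h2
      rw [PK_unique h2 (mem_bxK.1 h1).1]; exact (mem_bxK.1 hs').1
    · intro h2
      rw [PK_unique h2 (mem_bxK.1 hs').1]; exact (mem_bxK.1 h1).1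
  · push Not at h
    rw [hκ.off y h]

/-- only one coordinate changes -/
theorem κ_ne {β : Bool} {κ : V → V} (hκ : IsQ (L.bx β) κ) {s : K.S} (hy : y ∈ PK G s)
    {i : Fin 3} (hi : i ≠ tg s β) : κ y i = y i := by
  by_cases h : ∃ s', y ∈ (L.bx β s').K
  · obtain ⟨s', hs'⟩ := h
    have h1 := PK_unique (mem_bxK.1 hs').1 hy
    subst h1
    rw [hκ.on _ y hs']
    exact (L.bx β s').Q_ne hi y
  · push Not at h
    rw [hκ.off y h]

/-- in the full zone one family acts by the product map -/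
theorem κ_full {β : Bool} {κ : V → V} (hκ : IsQ (L.bx β) κ) {s : K.S} (hy : y ∈ PK G s)
    (hf : (L.bx β s).Full y) : κ y = prodK (kQ (L.bx β s)) y := by
  by_cases h : ∃ s', y ∈ (L.bx β s').K
  · obtain ⟨s', hs'⟩ := h
    have h1 := PK_unique (mem_bxK.1 hs').1 hy
    subst h1
    rw [hκ.on _ y hs', Q_eq_prodK hf]
  · push Not at h
    rw [hκ.off y h, prodK_Q]
    have h1 : y (tg s β) ≤ K.slo s (tg s β) + G.a s ∨ K.shi s (tg s β) - G.a s ≤ y (tg s β) := by
      by_contra hcon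
      push Not at hcon
      exact h s (mem_bxK.2 ⟨hy, hcon.1.le, hcon.2.le⟩)
    have h2 : qm (L.bx β s).lvs.L (L.bx β s).c (y (L.bx β s).j) = y (L.bx β s).j :=
      L.qm_id s β h1
    rw [h2, Function.update_eq_self]

theorem PB_full {β : Bool} {s : K.S} (hy : y ∈ G.PB (7 / 8) s) : (L.bx β s).Full y := by
  obtain ⟨h1, h2⟩ := Geo.mem_PB.1 hy
  exact full_iff.2 ⟨h1 _ (tg_ne s _), h2⟩

/-- the product map of one direction preserves the plate -/
theorem prodQ_mem_PB {c : ℝ} (hc : c ≤ 2) {s : K.S} {β : Bool} :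
    prodK (kQ (L.bx β s)) y ∈ G.PB c s ↔ y ∈ G.PB c s := by
  have hp := Geo.p_pos (G := G) s
  have hpa := Geo.p_a (G := G) s
  have hcp : c * G.p s ≤ 2 * G.p s := mul_le_mul_of_nonneg_right hc hp.le
  rw [Geo.mem_PB, Geo.mem_PB]
  have h1 : ∀ i, i ≠ tg s β → prodK (kQ (L.bx β s)) y i = y i := fun i hi => by
    show kQ (L.bx β s) i _ = _
    rw [kQ_ne _ hi]; rfl
  rw [h1 _ (tg_ne s β).symm]
  refine and_congr_left fun _ => forall_congr' fun k => imp_congr_right fun hk => ?_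
  by_cases hkb : k = tg s β
  · subst hkb
    have h2 : prodK (kQ (L.bx β s)) y (tg s β) = qm (L.lvs s β).L (L.c s β) (y (tg s β)) := by
      show kQ (L.bx β s) (L.bx β s).j _ = _
      rw [kQ_self]
      rfl
    rw [h2, L.le_qm_iff s β (by linarith), L.qm_le_iff s β (by linarith)]
  · rw [h1 k hkb]

/-- **the zone of a plate** -/
theorem zone {κ₀ κ₁ : V → V} {β : Bool} (h₀ : IsQ (L.bx β) κ₀)
    (h₁ : IsQ (L.bx (!β)) κ₁) {s : K.S} {h : ConHomeo Ω Λ} {C : Set V}
    (hC : h.toFun '' C ⊆ G.PB (7 / 8) s) : Zone (κ₁ ∘ κ₀) Λ h (L.kP s) C where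
  z1 := fun y hy => by
    have h2 : y ∈ G.PB (7 / 8) s := (prodK_mem_PB (by norm_num)).1 (hC hy)
    have h3 : prodK (kQ (L.bx β s)) y ∈ G.PB (7 / 8) s := (prodQ_mem_PB (by norm_num)).2 h2
    have h4 : κ₀ y = prodK (kQ (L.bx β s)) y :=
      κ_full h₀ (PB_sub_PK (by norm_num) s h2) (PB_full h2)
    have h5 : κ₁ (κ₀ y) = prodK (L.kP s) y := by
      rw [h4, κ_full h₁ (PB_sub_PK (by norm_num) s h3) (PB_full h3), prodK_P]
    exact ⟨ss_subset (W := W) s (PK_sub_ss s (PB_sub_PK (by norm_num) s h2)), h5⟩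
  z2 := fun y _ hy => by
    have hz := hC hy
    have hzK : κ₁ (κ₀ y) ∈ PK G s := PB_sub_PK (by norm_num) s hz
    have huK : κ₀ y ∈ PK G s := (mem_PK_iff h₁).1 hzK
    have hyK : y ∈ PK G s := (mem_PK_iff h₀).1 huK
    have huf : (L.bx (!β) s).Full (κ₀ y) := fun i hi => by
      have h2 := (PB_full (L := L) (β := !β) hz) i hi
      rwa [show (κ₁ ∘ κ₀) y i = κ₀ y i from κ_ne h₁ huK hi] at h2
    have h3 : κ₁ (κ₀ y) = prodK (kQ (L.bx (!β) s)) (κ₀ y) := κ_full h₁ huK huf
    have hu : κ₀ y ∈ G.PB (7 / 8) s := by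
      have h4 : κ₁ (κ₀ y) ∈ G.PB (7 / 8) s := hz
      rw [h3] at h4
      exact (prodQ_mem_PB (by norm_num)).1 h4
    have hyf : (L.bx β s).Full y := fun i hi => by
      have h2 := (PB_full (L := L) (β := β) hu) i hi
      rwa [κ_ne h₀ hyK hi] at h2
    have h4 : κ₀ y = prodK (kQ (L.bx β s)) y := κ_full h₀ hyK hyf
    show κ₁ (κ₀ y) = _
    rw [h3, h4, prodK_P]

end PLev

end P073.H345
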