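import Vale.Agent.P073.H345.PassD
import Vale.Agent.P073.H236.StairBox
import Vale.Agent.P073.H212.Round

/-!
# P073, H345, ROUND T: the insertion map `κ` of a locally finite family of boxes (H236 `BX`) with
small thickness; preimages of compact sets under `κ`
-/

open Set Metric Topology Filter

namespace P073.H345

open P073 P073.TR P073.H936 P073.H236

/-! ### the map `Q` of one box is `kap` on the cells -/

theorem ph_eq_tri {c m r : ℝ} (hc : 0 ≤ c) (h0 : 0 ≤ m) (hm : m ≤ c) (hr : |r| ≤ 2 * c) :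
    ph (2 * c) m r = r + max (-m) (min m (-tri c r)) := by
  wlog h : 0 ≤ r generalizing r
  · have h1 := this (r := -r) (by rwa [abs_neg]) (by linarith)
    rw [ph_neg, tri_neg, neg_neg] at h1
    have h2 : max (-m) (min m (-tri c r)) = - max (-m) (min m (tri c r)) := by
      rcases le_total (tri c r) m with h3 | h3
      · rcases le_total (-m) (tri c r) with h4 | h4
        · rw [min_eq_right h3, max_eq_right h4, min_eq_right (by linarith), max_eq_right (by linarith)]
        · rw [min_eq_right h3, max_eq_left h4, min_eq_left (by linarith), max_eq_right (by linarith)]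
          ring
      · rw [min_eq_left h3, max_eq_right (a := -m) (b := m) (by linarith),
          min_eq_right (a := m) (b := -tri c r) (by linarith),
          max_eq_left (a := -m) (b := -tri c r) (by linarith)]
    rw [h2]; linarith
  · rw [abs_of_nonneg h] at hr
    rw [ph_of_nonneg h]
    rcases le_total r c with h1 | h1
    · rw [tri_of_le h h1, min_eq_right (by linarith : -r ≤ m)]
      rw [max_eq_left (by linarith : 2 * r - 2 * c ≤ r - m)]
      rcases le_total r m with h2 | h2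
      · rw [max_eq_left (by linarith : r - m ≤ 0), min_eq_right h, max_eq_right (by linarith)]
        ring
      · rw [max_eq_right (by linarith : 0 ≤ r - m), min_eq_right (by linarith),
          max_eq_left (by linarith)]
        ring
    · rw [tri_of_mem hc h1 hr, min_eq_right (by linarith : -(2 * c - r) ≤ m)]
      rcases le_total (r - m) (2 * r - 2 * c) with h2 | h2
      · rw [max_eq_right h2, max_eq_right (by linarith : 0 ≤ 2 * r - 2 * c),
          min_eq_right (by linarith), max_eq_right (by linarith)]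
        ring
      · rw [max_eq_left h2, max_eq_right (by linarith : 0 ≤ r - m),
          min_eq_right (by linarith), max_eq_left (by linarith)]
        ring

/-- the thickness function of a box -/
noncomputable def mu (B : BX 3) : (Fin 3 → ℝ) → ℝ := bmp B.j B.lo B.hi B.r B.c

theorem mu_nonneg (B : BX 3) (y : Fin 3 → ℝ) : 0 ≤ mu B y := bmp_nonneg B.lvs.c0.le y
theorem mu_le (B : BX 3) (y : Fin 3 → ℝ) : mu B y ≤ B.c := bmp_le B.lvs.c0.le y

theorem thk_mu (B : BX 3) : Thk B.j (2 * B.c) (mu B) where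
  nonneg := mu_nonneg B
  le := fun y => by have := mu_le B y; linarith
  cc := ⟨bmp_con.2, bmp_con.1⟩
  indep := fun y t => bmp_update y t

theorem Q_self (B : BX 3) (y : Fin 3 → ℝ) : B.Q y B.j = y B.j + max (-mu B y) (min (mu B y)
    (qm B.lvs.L B.c (y B.j) - y B.j)) := by
  unfold BX.Q
  rw [vc_same, cl_eq_add]
  rfl

theorem Q_eq_kap (B : BX 3) {k : ℕ} (hk : k < B.N) {y : Fin 3 → ℝ}
    (hy : |y B.j - B.a k| ≤ 2 * B.c) : B.Q y = kap B.j (B.a k) (2 * B.c) (mu B) y := by
  ext i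
  by_cases hi : i = B.j
  · subst hi
    rw [Q_self, kap_self, qm_cell B.lvs.c0.le B.lvs.sepd (B.lvs.mem_L.2 ⟨k, hk, rfl⟩) hy,
      ph_eq_tri B.lvs.c0.le (mu_nonneg B y) (mu_le B y) hy]
    ring_nf
  · rw [B.Q_ne hi, kap_ne hi]

theorem Q_eq_self (B : BX 3) {y : Fin 3 → ℝ}
    (hy : ∀ k < B.N, 2 * B.c ≤ |y B.j - B.a k|) : B.Q y = y := by
  ext i
  by_cases hi : i = B.j
  · subst hi
    rw [Q_self, qm_off B.lvs.c0.le (fun a ha => by
      obtain ⟨k, hk, rfl⟩ := B.lvs.mem_L.1 ha; exact hy k hk), sub_self,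
      min_eq_right (mu_nonneg B y), max_eq_right (by linarith [mu_nonneg B y]), add_zero]
  · rw [B.Q_ne hi]

/-- the lateral cylinder -/
def cyl (B : BX 3) : Set (Fin 3 → ℝ) :=
  {y | ∀ i, i ≠ B.j → B.lo i - B.r i ≤ y i ∧ y i ≤ B.hi i + B.r i}

theorem isClosed_cyl (B : BX 3) : IsClosed (cyl B) := by
  have : cyl B = ⋂ i, ⋂ (_ : i ≠ B.j), {y | B.lo i - B.r i ≤ y i ∧ y i ≤ B.hi i + B.r i} := by
    ext y; simp [cyl]
  rw [this]
  refine isClosed_iInter fun i => isClosed_iInter fun _ => ?_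
  have h1 : IsClosed {y : Fin 3 → ℝ | B.lo i - B.r i ≤ y i} :=
    isClosed_le continuous_const (continuous_apply i)
  have h2 : IsClosed {y : Fin 3 → ℝ | y i ≤ B.hi i + B.r i} :=
    isClosed_le (continuous_apply i) continuous_const
  exact h1.inter h2

theorem mu_zero (B : BX 3) {y : Fin 3 → ℝ} (hy : y ∉ cyl B) : mu B y = 0 := by
  simp only [cyl, mem_ofPred_eq, not_forall] at hy
  obtain ⟨i, hi, h1⟩ := hy
  refine bmp_zero B.hr hi ?_
  by_contra h2
  push Not at h2
  exact h1 ⟨h2.1.le, h2.2.le⟩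

theorem mem_K (B : BX 3) {y : Fin 3 → ℝ} :
    y ∈ B.K ↔ (B.al ≤ y B.j ∧ y B.j ≤ B.be) ∧ y ∈ cyl B := Iff.rfl

/-- the same box with smaller thickness -/
def thin (B : BX 3) (c : ℝ) (h0 : 0 < c) (h1 : c ≤ B.c) : BX 3 where
  j := B.j
  N := B.N
  a := B.a
  c := c
  al := B.al
  be := B.be
  lvs :=
    { pos := B.lvs.pos
      c0 := h0
      first := by have := B.lvs.first; linarith
      sep := fun k hk => by have := B.lvs.sep k hk; linarith
      last := by have := B.lvs.last; linarith }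
  lo := B.lo
  hi := B.hi
  r := B.r
  hr := B.hr

/-! ### families of boxes -/

variable {γ : Type*} {Λ : Set (Fin 3 → ℝ)}

theorem Q_mem_cell (B : BX 3) {k : ℕ} (hk : k < B.N) {y : Fin 3 → ℝ}
    (h1 : |y B.j - B.a k| < 2 * B.c) : |B.Q y B.j - B.a k| < 2 * B.c := by
  rw [Q_eq_kap B hk h1.le, kap_self]
  have h3 : B.a k + ph (2 * B.c) (mu B y) (y B.j - B.a k) - B.a k =
    ph (2 * B.c) (mu B y) (y B.j - B.a k) := by ring
  rw [h3]
  exact lt_of_le_of_lt abs_ph_le h1

/-- at the ends and outside, only trivial fibres -/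
theorem eq_Q_of_end (B : BX 3) {y : Fin 3 → ℝ} (h : B.Q y B.j ≤ B.al ∨ B.be ≤ B.Q y B.j) :
    B.Q y = y := by
  by_cases h1 : ∃ k < B.N, |y B.j - B.a k| < 2 * B.c
  · obtain ⟨k, hk, hy⟩ := h1
    obtain ⟨a1, a2⟩ := abs_lt.1 (Q_mem_cell B hk hy)
    have e1 := B.lvs.first_le hk
    have e2 := B.lvs.le_last hk
    rcases h with h | h <;> linarith
  · push Not at h1
    exact Q_eq_self B h1

theorem Q_eq_self_of_end (B : BX 3) {y : Fin 3 → ℝ} (h : y B.j ≤ B.al ∨ B.be ≤ y B.j) :
    B.Q y = y := by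
  refine Q_eq_self B fun k hk => ?_
  have e1 := B.lvs.first_le hk
  have e2 := B.lvs.le_last hk
  have hc := B.lvs.c0
  rcases h with h | h
  · rw [abs_of_nonpos (by linarith)]; linarith
  · rw [abs_of_nonneg (by linarith)]; linarith

/-- a locally finite family of boxes in `Λ`, two of which meet only in end planes -/
structure Fam (Λ : Set (Fin 3 → ℝ)) (B : γ → BX 3) : Prop where
  op : IsOpen Λ
  sub : ∀ g, (B g).K ⊆ Λ
  dis : ∀ g g', g ≠ g' → ∀ y ∈ (B g).K, y ∈ (B g').K →
    y (B g).j ≤ (B g).al ∨ (B g).be ≤ y (B g).j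
  lf : ∀ z ∈ Λ, ∃ U ∈ 𝓝 z, {g | ((B g).K ∩ U).Nonempty}.Finite

/-- the insertion map of the family -/
structure IsQ (B : γ → BX 3) (κ : (Fin 3 → ℝ) → Fin 3 → ℝ) : Prop where
  on : ∀ g, ∀ x ∈ (B g).K, κ x = (B g).Q x
  off : ∀ x, (∀ g, x ∉ (B g).K) → κ x = x

theorem Fam.thin {B : γ → BX 3} (H : Fam Λ B) {c : γ → ℝ} (h0 : ∀ g, 0 < c g)
    (h1 : ∀ g, c g ≤ (B g).c) : Fam Λ fun g => thin (B g) (c g) (h0 g) (h1 g) :=
  ⟨H.op, H.sub, H.dis, H.lf⟩

theorem Fam.exists_isQ {B : γ → BX 3} (H : Fam Λ B) :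
    ∃ κ, IsQ B κ ∧ H579.InsMap κ Λ Λ ∧ ConicalOn κ Λ := by
  obtain ⟨κ, h1, h2, h3, h4, -⟩ := exists_glue_maps H.op (fun g => (B g).Q) (fun g => (B g).K)
    (fun g => (B g).suppQ) (fun g => (B g).isCompact_K) H.sub H.lf
    (fun g g' hg x hx hx' => Q_eq_self_of_end _ (H.dis g g' hg x hx hx'))
  exact ⟨κ, ⟨h1, h2⟩, h3, h4⟩

section

variable {B : γ → BX 3} {κ : (Fin 3 → ℝ) → Fin 3 → ℝ}

theorem IsQ.mapsK (hκ : IsQ B κ) {g : γ} {y : Fin 3 → ℝ} (hy : y ∈ (B g).K) : κ y ∈ (B g).K := by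
  rw [hκ.on g y hy]; exact (B g).suppQ.maps hy

/-- a box contains a point iff it contains its image -/
theorem IsQ.mem_iff (hκ : IsQ B κ) (H : Fam Λ B) {g : γ} {y : Fin 3 → ℝ} :
    κ y ∈ (B g).K ↔ y ∈ (B g).K := by
  refine ⟨fun h => ?_, hκ.mapsK⟩
  by_cases h1 : ∃ g', y ∈ (B g').K
  · obtain ⟨g', hg'⟩ := h1
    by_cases h2 : g' = g
    · subst h2; exact hg'
    · have h3 := H.dis g' g h2 _ (hκ.mapsK hg') h
      rw [hκ.on g' y hg'] at h3 h
      rwa [eq_Q_of_end _ h3] at h
  · push Not at h1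
    rwa [hκ.off y h1] at h

theorem IsQ.mem_Λ (hκ : IsQ B κ) (H : Fam Λ B) {y : Fin 3 → ℝ} (hy : κ y ∈ Λ) : y ∈ Λ := by
  by_cases h1 : ∃ g', y ∈ (B g').K
  · obtain ⟨g', hg'⟩ := h1
    exact H.sub g' hg'
  · push Not at h1
    rwa [hκ.off y h1] at hy

theorem IsQ.pre_eq (hκ : IsQ B κ) (H : Fam Λ B) {Ω X : Set (Fin 3 → ℝ)} (h : ConHomeo Ω Λ)
    (hX : X ⊆ Ω) : H579.Pre κ Λ h X = κ ⁻¹' (h.toFun '' X) := by
  ext y
  refine ⟨fun h1 => h1.2, fun h1 => ⟨hκ.mem_Λ H ?_, h1⟩⟩
  obtain ⟨x, hx, hxy⟩ := h1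
  rw [← hxy]
  exact h.mapsTo (hX hx)

theorem kap_inj_off {i : Fin 3} {b η : ℝ} {μ : (Fin 3 → ℝ) → ℝ} (hμ : Thk i η μ)
    {y y' w : Fin 3 → ℝ} (hy : kap i b η μ y = w) (hy' : kap i b η μ y' = w) (hw : w i ≠ b)
    (h1 : |y i - b| ≤ η) (h2 : |y' i - b| ≤ η) : y = y' := by
  have key : ∀ y : Fin 3 → ℝ, kap i b η μ y = w → |y i - b| ≤ η →
      (b < w i → y i - b = min (w i - b + μ w) ((w i - b + η) / 2)) ∧
      (w i < b → y i - b = - min (b - w i + μ w) ((b - w i + η) / 2)) := by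
    intro y hy hyη
    have hμy : μ y = μ w := by rw [← hy]; exact (hμ.indep _ _).symm
    have hp : ph η (μ y) (y i - b) = w i - b := by
      have := congrFun hy i
      rw [kap_self] at this
      linarith
    have hne : ¬ |y i - b| ≤ μ y := by
      intro h
      rw [(ph_zero_iff (hμ.nonneg _) (hμ.le _)).2 h] at hp
      exact hw (by linarith)
    obtain ⟨a1, a2⟩ := abs_le.1 hyη
    constructor
    · intro hwb
      have h3 : μ y < y i - b := by
        by_contra h4
        push Not at h4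
        have h5 : y i - b < - μ y := by
          by_contra h6
          push Not at h6
          exact hne (abs_le.2 ⟨h6, h4⟩)
        have h7 := ph_nonneg (η := η) (m := μ y) (r := -(y i - b)) (by linarith [hμ.nonneg y])
        rw [ph_neg] at h7
        linarith
      have h4 := branch_ph (η := η) (hμ.nonneg y) (hμ.le y) h3 a2
      rw [hp, hμy] at h4
      exact h4.symm
    · intro hwb
      have h3 : μ y < -(y i - b) := by
        by_contra h4
        push Not at h4
        have h5 : -(y i - b) < - μ y := by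
          by_contra h6
          push Not at h6
          exact hne (abs_le.2 ⟨by linarith, by linarith⟩)
        have h7 := ph_nonneg (η := η) (m := μ y) (r := y i - b) (by linarith [hμ.nonneg y])
        linarith
      have h4 := branch_ph (η := η) (hμ.nonneg y) (hμ.le y) h3 (by linarith)
      rw [ph_neg, hp, hμy] at h4
      have e : -(w i - b) = b - w i := by ring
      rw [e] at h4
      linarith
  have hi : y i = y' i := by
    rcases lt_or_gt_of_ne hw with h | h
    · have e1 := (key y hy h1).2 h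
      have e2 := (key y' hy' h2).2 h
      linarith
    · have e1 := (key y hy h1).1 h
      have e2 := (key y' hy' h2).1 h
      linarith
  ext l
  by_cases hl : l = i
  · rw [hl]; exact hi
  · have e1 := congrFun hy l
    have e2 := congrFun hy' l
    rw [kap_ne hl] at e1 e2
    rw [e1, e2]

/-- the fibres of `Q` over points which are not on a level are trivial -/
theorem Q_inj_off (B : BX 3) {y y' w : Fin 3 → ℝ} (hy : B.Q y = w) (hy' : B.Q y' = w)
    (hw : ∀ k < B.N, w B.j ≠ B.a k) : y = y' := by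
  have cell : ∀ y, B.Q y = w → ∀ k < B.N, |y B.j - B.a k| < 2 * B.c →
      |w B.j - B.a k| < 2 * B.c := by
    intro y hy k hk h1
    rw [← hy]
    exact Q_mem_cell B hk h1
  have off : ∀ y, B.Q y = w → (∀ k < B.N, 2 * B.c ≤ |y B.j - B.a k|) → y = w := by
    intro y hy h1
    rwa [Q_eq_self B h1] at hy
  by_cases h1 : ∃ k < B.N, |y B.j - B.a k| < 2 * B.c
  · obtain ⟨k, hk, hyk⟩ := h1
    have hwk := cell y hy k hk hyk
    by_cases h2 : ∃ k' < B.N, |y' B.j - B.a k'| < 2 * B.c
    · obtain ⟨k', hk', hyk'⟩ := h2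
      have hwk' := cell y' hy' k' hk' hyk'
      have hkk : k = k' := by
        by_contra hne
        have hcon : ∀ p q, p < q → q < B.N → |w B.j - B.a p| < 2 * B.c →
            |w B.j - B.a q| < 2 * B.c → False := by
          intro p q hpq hq h3 h4
          have h5 := B.lvs.add_le hpq hq
          obtain ⟨c1, c2⟩ := abs_lt.1 h3
          obtain ⟨d1, d2⟩ := abs_lt.1 h4
          linarith
        rcases lt_or_gt_of_ne hne with h | h
        · exact hcon k k' h hk' hwk hwk'
        · exact hcon k' k h hk hwk' hwk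
      subst hkk
      rw [Q_eq_kap B hk hyk.le] at hy
      rw [Q_eq_kap B hk hyk'.le] at hy'
      exact kap_inj_off (thk_mu B) hy hy' (hw k hk) hyk.le hyk'.le
    · push Not at h2
      have h3 := off y' hy' h2
      subst h3
      exact absurd hwk (not_lt.2 (h2 k hk))
  · push Not at h1
    have h3 := off y hy h1
    by_cases h2 : ∃ k' < B.N, |y' B.j - B.a k'| < 2 * B.c
    · obtain ⟨k', hk', hyk'⟩ := h2
      have hwk' := cell y' hy' k' hk' hyk'
      subst h3
      exact absurd hwk' (not_lt.2 (h1 k' hk'))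
    · push Not at h2
      rw [h3, off y' hy' h2]

/-- trivial fibres of `κ` -/
theorem IsQ.inj_off (hκ : IsQ B κ) (H : Fam Λ B) {y y' w : Fin 3 → ℝ} (hy : κ y = w)
    (hy' : κ y' = w) (hw : ∀ g, w ∈ (B g).K → ∀ k < (B g).N, w (B g).j ≠ (B g).a k) : y = y' := by
  by_cases h1 : ∃ g, w ∈ (B g).K
  · obtain ⟨g, hg⟩ := h1
    have h2 : y ∈ (B g).K := (hκ.mem_iff H).1 (hy.symm ▸ hg)
    have h3 : y' ∈ (B g).K := (hκ.mem_iff H).1 (hy'.symm ▸ hg)
    rw [hκ.on g y h2] at hy
    rw [hκ.on g y' h3] at hy'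
    exact Q_inj_off (B g) hy hy' (hw g hg)
  · push Not at h1
    have h2 : ∀ y, κ y = w → y = w := by
      intro y hy
      rwa [hκ.off y fun g hg => h1 g (hy ▸ hκ.mapsK hg)] at hy
    rw [h2 y hy, h2 y' hy']

end

end P073.H345
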