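import Vale.Agent.P073.H345.PPres
import Vale.Agent.P073.H579.ActS
import Vale.Agent.P073.H155.Shared
import Vale.Agent.P073.H212.Round
import Vale.Agent.P073.H193.EdgCx
import Vale.Agent.P073.H244.CxMesh

/-!
# P073, H345, **ROUND P, the insertion step**

`h1`: the output of round T; `h2`: the output of the exchange (H805 `ROut`); `κ₁ ∘ κ₀`: the
insertion map of the two families of boxes of `PLev`.  The faces which meet no plate keep the map
`h1`; on the other faces (`Peel`) the lift is good, in any prescribed sense.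
-/

open Set Metric Topology Filter

namespace P073.H345

open _root_.P073 _root_.P073.Net _root_.P073.PA691 _root_.P073.H236 _root_.P073.H579
open Vale.Agent.P073.St (V)
open Vale.Agent.P073.H471 Vale.Agent.P073.H267 Vale.Agent.P073.H267.Geo
open Vale.Agent.P073.H805 (RIn ROut)
open Vale.Agent.P073.H73 (Mesh)
open Vale.Agent.P073.H193 (Edges Cyc)

variable {Ω Λ : Set V} {v : V} {K : BoxCx Λ v} {S : Rad K} {W : Wid K S} {B : Boxes W}
  {G : Geo B} {L : PLev G} {M : Mesh Ω} {E : Edges M} {h1 h2 : ConHomeo Ω Λ}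

/-- the faces which meet a plate -/
def Peel (G : Geo B) (M : Mesh Ω) (h1 : ConHomeo Ω Λ) : Set M.κ :=
  {k | ∃ s, AkP G M h1 univ s k}

theorem not_peel {k : M.κ} (hk : k ∉ Peel G M h1) {x : V} (hx : x ∈ M.F k) (s : K.S) :
    h1.toFun x ∉ G.PB 1 s := fun h => hk ⟨s, mem_univ k, x, hx, h⟩

theorem BandP.band {sl : TBx K → Finset (ℝ × ℝ)} (h : H155.BandP L sl) : Band L sl := by
  intro s β n hn b hb r hr p hp hrp
  have hb' : H155.RelT s (tg s β) b := by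
    cases b with
    | inl e => exact hb
    | inr H => exact hb
  have hr' := abs_le.1 hr
  rcases h s β n hn b hb' p hp with h1 | h1
  · linarith [hrp.2, hr'.1]
  · linarith [hrp.1, hr'.2]

/-- the facts on round T which are used for the faces off the plates -/
structure PPre (G : Geo B) (M : Mesh Ω) (E : Edges M) (h1 : ConHomeo Ω Λ)
    (sl : TBx K → Finset (ℝ × ℝ)) : Prop where
  ends : Ends G sl
  face : ∀ k, VI G sl (h1.toFun '' M.F k)
  edge : ∀ e, VI G sl (h1.toFun '' E.seg e)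
  vert : ∀ x ∈ E.verts, VI G sl (h1.toFun '' {x})
  nrm : ∀ k, ∀ x ∈ M.F k, ∀ s, h1.toFun x ∈ PK G s →
    |h1.toFun x (K.nrm s) - K.slo s (K.nrm s)| ≤ B.τ s / 4

theorem ppre_of {h : ConHomeo Ω Λ} {ω : TBx K → ℝ} {O : M.κ → V} {LaT : E.ε → ℝ}
    {Lf : M.κ → E.ε → ℝ} {Lam1 : M.κ → ℝ} {sl : TBx K → Finset (ℝ × ℝ)}
    (T : T3Out G M E h h1 ω O LaT Lf Lam1 sl) (hends : Ends G sl)
    (hn : ∀ k, ∀ x ∈ M.F k, ∀ s, h1.toFun x ∈ PK G s →
      |h1.toFun x (K.nrm s) - K.slo s (K.nrm s)| ≤ B.τ s / 4) : PPre G M E h1 sl where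
  ends := hends
  face := fun k => fun b y hy hb t ht hr => T.vi _ (Or.inl ⟨k, rfl⟩) b y hy hb t ht hr
  edge := fun e => fun b y hy hb t ht hr => T.vi _ (Or.inr (Or.inl ⟨e, rfl⟩)) b y hy hb t ht hr
  vert := by
    rintro x hx b _ ⟨x', rfl, rfl⟩ hb t _ hr
    exact absurd (hr _ left_mem_uIcc) (T.vert x' hx b hb)
  nrm := hn

theorem PPre.offP {sl : TBx K → Finset (ℝ × ℝ)} (H : PPre G M E h1 sl) {k : M.κ}
    (hk : k ∉ Peel G M h1) : OffP G (h1.toFun '' M.F k) where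
  nrm := by rintro _ ⟨x, hx, rfl⟩ s hs; exact H.nrm k x hx s hs
  off := by rintro _ ⟨x, hx, rfl⟩ s; exact not_peel hk hx s

/-- the cells of the complex -/
def CSet (M : Mesh Ω) (E : Edges M) (X : Set V) : Prop :=
  (∃ k, X = M.F k) ∨ (∃ e, X = E.seg e) ∨ ∃ x ∈ E.verts, X = {x}

theorem PPre.pres {sl : TBx K → Finset (ℝ × ℝ)} (H : PPre G M E h1 sl) (hband : Band L sl)
    {κ₀ κ₁ : V → V} (i₀ : IsQ (L.bx false) κ₀) (i₁ : IsQ (L.bx true) κ₁) {k : M.κ}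
    (hk : k ∉ Peel G M h1) {X : Set V} (hX : X ⊆ M.F k) (hc : CSet M E X) (y : V) :
    (κ₁ ∘ κ₀) y ∈ h1.toFun '' X ↔ y ∈ h1.toFun '' X := by
  have hvi : VI G sl (h1.toFun '' X) := by
    rcases hc with ⟨k', rfl⟩ | ⟨e, rfl⟩ | ⟨x, hx, rfl⟩
    · exact H.face k'
    · exact H.edge e
    · exact H.vert x hx
  exact H345.pres ((H.offP hk).mono (image_mono hX)) hvi H.ends hband i₀ i₁ y

/-- the map `h2` is `h1` on the faces off the plates -/
theorem eq_off {Pr : Set M.ι} {Act : Set M.κ} {Lv : K.S → Fin 3 → Finset ℝ}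
    (O : ROut G M h1 h2 Pr Act Lv E) {k : M.κ} (hk : k ∉ Peel G M h1) :
    EqOn h2.toFun h1.toFun (M.F k) := fun x hx =>
  O.off x (Vale.Agent.P073.H193.mesh_sub M k hx) fun s => not_peel hk hx s

theorem PPre.pre_eq {sl : TBx K → Finset (ℝ × ℝ)} (H : PPre G M E h1 sl) (hband : Band L sl)
    {Pr : Set M.ι} {Act : Set M.κ} {Lv : K.S → Fin 3 → Finset ℝ}
    (O : ROut G M h1 h2 Pr Act Lv E) {κ₀ κ₁ : V → V} (i₀ : IsQ (L.bx false) κ₀)
    (i₁ : IsQ (L.bx true) κ₁) {k : M.κ} (hk : k ∉ Peel G M h1) {X : Set V} (hX : X ⊆ M.F k)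
    (hc : CSet M E X) : Pre (κ₁ ∘ κ₀) Λ h2 X = h1.toFun '' X := by
  have e1 : h2.toFun '' X = h1.toFun '' X :=
    image_congr fun x hx => eq_off O hk (hX hx)
  rw [← e1]
  refine pre_eq_of_pres (hX.trans (Vale.Agent.P073.H193.mesh_sub M k)) fun y => ?_
  rw [e1]
  exact H.pres hband i₀ i₁ hk hX hc y

/-- off the levels the fibres of the product map are points -/
theorem prodK_inj {kP : Fin 3 → ℝ → ℝ} {LP : Fin 3 → Finset ℝ} {lo hi : Fin 3 → ℝ → ℝ}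
    (hI : ∀ j, Ins1 (kP j) (LP j : Set ℝ) (lo j) (hi j)) {y y' : V}
    (h : prodK kP y = prodK kP y') (hn : ∀ j, prodK kP y j ∉ LP j) : y = y' := by
  ext j
  exact (hI j).inj _ _ (congrFun h j) (hn j)

/-- **the output of the insertion step of ROUND P** -/
structure Out3P (G : Geo B) (M : Mesh Ω) (E : Edges M) (h1 h2 : ConHomeo Ω Λ) (κ : V → V)
    (GE : E.ε → (V → V) → Prop) (GF : M.κ → (V → V) → Prop) (h3 : ConHomeo Ω Λ) : Prop where
  /-- nothing changes on the faces off the plates -/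
  off : ∀ k, k ∉ Peel G M h1 → EqOn h3.toFun h1.toFun (M.F k)
  /-- good on the other faces -/
  face : ∀ k ∈ Peel G M h1, ∃ Φ : ConHomeo (M.F k) (Pre κ Λ h2 (M.F k)), GF k Φ.toFun ∧
    EqOn h3.toFun Φ.toFun (M.F k)
  /-- good on the edges of the peeled faces -/
  edge : ∀ k ∈ Peel G M h1, ∀ e, E.seg e ⊆ M.F k → ∃ f, GE e f ∧ EqOn h3.toFun f (E.seg e)
  img_edge : ∀ e, h3.toFun '' E.seg e = Pre κ Λ h2 (E.seg e)
  vert : ∀ x ∈ E.verts, κ (h3.toFun x) = h2.toFun x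
  img_face : ∀ k, h3.toFun '' M.F k = Pre κ Λ h2 (M.F k)
  img_cell : ∀ i, h3.toFun '' M.Q i = Pre κ Λ h2 (M.Q i)

/-- **ROUND P, the insertion step** -/
theorem exists_stage2P (hΩ : IsOpen Ω) {sl : TBx K → Finset (ℝ × ℝ)} {Pr : Set M.ι}
    (H : PPre G M E h1 sl) (hband : Band L sl) (R : RIn G M h1 Pr univ L.lv E)
    (O : ROut G M h1 h2 Pr univ L.lv E) {κ₀ κ₁ : V → V} (i₀ : IsQ (L.bx false) κ₀)
    (i₁ : IsQ (L.bx true) κ₁) (hI : InsMap (κ₁ ∘ κ₀) Λ Λ)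
    (GE : E.ε → (V → V) → Prop) (GF : M.κ → (V → V) → Prop)
    (hshared : ∀ k ∈ Peel G M h1, ∀ l, l ∉ Peel G M h1 → ∀ e, E.seg e ⊆ M.F k →
      E.seg e ⊆ M.F l → GE e h1.toFun)
    (hedge : ∀ k ∈ Peel G M h1, ∀ e, E.seg e ⊆ M.F k → (∀ l, E.seg e ⊆ M.F l → l ∈ Peel G M h1) →
      ∃ Φ : ConHomeo (E.seg e) (Pre (κ₁ ∘ κ₀) Λ h2 (E.seg e)),
        GE e Φ.toFun ∧ ∀ x ∈ E.seg e, x ∈ E.verts → (κ₁ ∘ κ₀) (Φ.toFun x) = h2.toFun x)
    (hface : ∀ k ∈ Peel G M h1,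
      ∀ Φe : ∀ e, E.seg e ⊆ M.F k → ConHomeo (E.seg e) (Pre (κ₁ ∘ κ₀) Λ h2 (E.seg e)),
      (∀ e he, GE e (Φe e he).toFun) →
      (∀ e he e' he', EqOn (Φe e he).toFun (Φe e' he').toFun (E.seg e ∩ E.seg e')) →
      (∀ e he, ∀ x ∈ E.seg e, x ∈ E.verts → (κ₁ ∘ κ₀) ((Φe e he).toFun x) = h2.toFun x) →
      ∃ Φ : ConHomeo (M.F k) (Pre (κ₁ ∘ κ₀) Λ h2 (M.F k)), GF k Φ.toFun ∧
        ∀ e he, EqOn Φ.toFun (Φe e he).toFun (E.seg e)) :
    ∃ h3 : ConHomeo Ω Λ, Out3P G M E h1 h2 (κ₁ ∘ κ₀) GE GF h3 := by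
  classical
  have hFΩ : ∀ k, M.F k ⊆ Ω := Vale.Agent.P073.H193.mesh_sub M
  have hpre : ∀ k, k ∉ Peel G M h1 → ∀ X ⊆ M.F k, CSet M E X →
      Pre (κ₁ ∘ κ₀) Λ h2 X = h1.toFun '' X := fun k hk X hX hc =>
    H.pre_eq hband O i₀ i₁ hk hX hc
  -- fibres over the vertices
  have hN : ∀ x ∈ E.verts, (Pre (κ₁ ∘ κ₀) Λ h2 {x}).Subsingleton := by
    intro x hx
    obtain ⟨k, hk⟩ := exists_face_of_vert E hx
    by_cases hkP : k ∈ Peel G M h1
    · obtain ⟨s, hs⟩ := hkP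
      have P := pact_P L R O (β := false) i₀ i₁
      have hZ := P.zone s k hs
      intro y hy y' hy'
      have h3 := hZ.eq (singleton_subset_iff.2 hk) hy
      have h3' := hZ.eq (singleton_subset_iff.2 hk) hy'
      obtain ⟨-, z, rfl, hzy⟩ := hy
      obtain ⟨-, z', hz', hzy'⟩ := hy'
      rw [mem_singleton_iff] at hz'
      subst hz'
      have h4 : prodK (L.kP s) y = h2.toFun z' := by rw [← h3]; exact hzy.symm
      have h4' : prodK (L.kP s) y' = h2.toFun z' := by rw [← h3']; exact hzy'.symm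
      refine prodK_inj (P.ins s) (h4.trans h4'.symm) fun j => ?_
      rw [h4]
      exact P.vert s k hs z' hx hk j
    · rw [hpre k hkP {x} (singleton_subset_iff.2 hk) (Or.inr (Or.inr ⟨x, hx, rfl⟩)),
        image_singleton]
      exact subsingleton_singleton
  have hfix : ∀ k, k ∉ Peel G M h1 → ∀ x ∈ E.verts, x ∈ M.F k →
      (κ₁ ∘ κ₀) (h1.toFun x) = h2.toFun x := by
    intro k hk x hx hxk
    have h3 := (H.pres hband i₀ i₁ hk (singleton_subset_iff.2 hxk)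
      (Or.inr (Or.inr ⟨x, hx, rfl⟩)) (h1.toFun x)).2 ⟨x, rfl, rfl⟩
    rw [image_singleton, mem_singleton_iff] at h3
    rw [h3, eq_off O hk hxk]
  obtain ⟨g, g0, g1, g2, g3, g4, g5, g6⟩ := H212.exists_round (s := E.seg) (N := E.verts)
    (Vale.Agent.P073.H244.cellCx M hΩ) E.edgeCx h2 hI hN GE GF (Peel G M h1)ᶜ
    (fun k hk => (h1.restr (Vale.Agent.P073.H244.conBall_face M k).conicalSet (hFΩ k)).cast rfl
      (hpre k hk _ Subset.rfl (Or.inl ⟨k, rfl⟩)).symm)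
    (fun k hk l hl x hx => rfl)
    (fun k hk e he => (hpre k hk _ he (Or.inr (Or.inl ⟨e, rfl⟩))).symm)
    (fun k hk x hx hxk => hfix k hk x hx hxk)
    (by
      rintro k hk e he ⟨l, hl, hel⟩
      exact hshared l (not_not.1 hl) k hk e hel he)
    (by
      rintro e hall ⟨k, hk⟩
      have hP : ∀ l, E.seg e ⊆ M.F l → l ∈ Peel G M h1 := fun l hl => by
        by_contra hcon
        exact hall l hcon hl
      exact hedge k (hP k hk) e hk hP)
    (fun k hk => hface k (not_not.1 hk))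
  refine ⟨g, fun k hk => g0 k hk, fun k hk => g1 k (not_not.2 hk),
    fun k hk e he => g2 k k (not_not.2 hk) e he he, fun e => ?_, fun x hx => ?_, g5, g6⟩
  · obtain ⟨k, hk⟩ := E.own e
    exact g3 e k hk
  · obtain ⟨k, hk⟩ := exists_face_of_vert E hx
    exact g4 x hx k hk

end P073.H345
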