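import Vale.Agent.P073.H345.PIns
import Vale.Agent.P073.H669.PLevD
import Vale.Agent.P073.H244.PWe
import Vale.Agent.P073.H581.OutCl2

/-!
# P073, H345, **ROUND P**: levels, exchange and insertion

`exists_roundP`: from the output of round T (`T3Out`, tiles and images) and the levels `PLv` (H669):
the maps `h2` (exchange, H805) and `h3` (insertion), with the maps of the two families of boxes.
-/

open Set Metric Topology Filter
open scoped ENNReal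

namespace P073.H345

open _root_.P073 _root_.P073.Net _root_.P073.PA691 _root_.P073.H236 _root_.P073.H579
open Vale.Agent.P073.St (V)
open Vale.Agent.P073.H471 Vale.Agent.P073.H267 Vale.Agent.P073.H267.Geo
open Vale.Agent.P073.H805 (RIn ROut)
open Vale.Agent.P073.H73 (Mesh)
open Vale.Agent.P073.H193 (Edges Cyc)
open Vale.Agent.P073.H155 (vv)
open Vale.Agent.P073.H669 (PLv)
open Vale.Agent.P073.H581 (TileAt ImgAt)

/-- the output of ROUND P: exchange `h1 ↦ h2`, insertion `h2 ↦ h3` -/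
structure RPOut {Ω Λ : Set V} {v : V} {K : BoxCx Λ v} {S : Rad K} {W : Wid K S} {B : Boxes W}
    (G : Geo B) (M : Mesh Ω) (E : Edges M) (Pr : Set M.ι) (L : PLev G) (h1 : ConHomeo Ω Λ)
    (κ₀ κ₁ : V → V) (h2 : ConHomeo Ω Λ) (GE : E.ε → (V → V) → Prop)
    (GF : M.κ → (V → V) → Prop) (h3 : ConHomeo Ω Λ) : Prop where
  isQ₀ : IsQ (L.bx false) κ₀
  isQ₁ : IsQ (L.bx true) κ₁
  ins₀ : InsMap κ₀ Λ Λ
  ins₁ : InsMap κ₁ Λ Λ
  ins : InsMap (κ₁ ∘ κ₀) Λ Λ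
  rin : RIn G M h1 Pr univ L.lv E
  rout : ROut G M h1 h2 Pr univ L.lv E
  out : Out3P G M E h1 h2 (κ₁ ∘ κ₀) GE GF h3

section plv

variable {Ω Λ : Set V} {v : V} {K : BoxCx Λ v} {S : Rad K} {W : Wid K S} {B : Boxes W}
  {G : Geo B} {M : Mesh Ω} {E : Edges M} {h1 h2 : ConHomeo Ω Λ} {Pr : Set M.ι}
  {sl : TBx K → Finset (ℝ × ℝ)} {η : ℝ} {τ : Type*} {A : τ → Set V} {Cs : Set ℝ}
  {εE : E.ε → ℝ} {μ δ : K.S → ℝ}

/-- (BAND), closed slivers -/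
theorem bandP_plv (L : PLv G E h1 Pr sl η A Cs εE μ δ) : H155.BandP L.lev sl := by
  intro s β n hn b hb p hp
  have hb' : Vale.Agent.P073.H669.Rel s (tg s β) b := by
    cases b with
    | inl e => exact hb
    | inr H => exact hb
  have hδ := L.δ0 s
  have h1 := L.lt_a s β n
  have h2 := (L.cells s β).sliver n (lt_of_lt_of_le hn (L.N_le s β)) p
    (Vale.Agent.P073.H669.mem_plT.2 ⟨b, hb', hp⟩)
  show p.2 < L.a s β n - 2 * (δ s / 8) ∨ L.a s β n + 2 * (δ s / 8) < p.1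
  rcases h2 with h2 | h2
  · right; linarith [h1.2]
  · left; linarith [h1.1]

/-- the weights of the edges -/
noncomputable def We3 (L : PLv G E h1 Pr sl η A Cs εE μ δ) : E.ε → ℝ :=
  L.lev.WeP E h1 (fun i => PK G i.1) 1

theorem om_plv (L : PLv G E h1 Pr sl η A Cs εE μ δ) (s : K.S) (β : Bool) :
    L.lev.om s β = L.om s β := rfl

theorem tsum_wtP_plv (L : PLv G E h1 Pr sl η A Cs εE μ δ) (e : E.ε) :
    ∑' i, L.lev.wtP E h1 (fun i => PK G i.1) e i ≠ ⊤ :=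
  L.lev.tsum_wtP_ne_top (K₁ := 2) (δ := fun i => δ i.1) (L.crs e)
    (fun i => Vale.Agent.P073.H669.PK_convex G i.1) (fun y => PLev.encard_PK G y) (by norm_num)
    fun i => L.om_le_two i.1 i.2

theorem hWe_plv (L : PLv G E h1 Pr sl η A Cs εE μ δ) (O : ROut G M h1 h2 Pr univ L.lev.lv E)
    (s : K.S) (e : E.ε) (he : EAct E (AkP G M h1 univ) s e) (Y : Finset V)
    (hY : ∀ x ∈ Y, CrsPt (E.a e) (E.b e) h2.toFun (L.lev.lv s) x) :
    ∑ x ∈ Y, omX h2.toFun (L.lev.lv s) (L.lev.omP s) x ≤ We3 L e :=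
  L.lev.hWeP O (fun s _ => PB_sub_PK le_rfl s) le_rfl
    (fun s β => by rw [one_mul]; exact (L.om_eq s β (!β)).le) (tsum_wtP_plv L) s e he Y hY

theorem We3_nonneg (L : PLv G E h1 Pr sl η A Cs εE μ δ) (e : E.ε) : 0 ≤ We3 L e :=
  L.lev.WeP_nonneg zero_le_one e

/-- **the weights are bounded by the length** -/
theorem We3_le (L : PLv G E h1 Pr sl η A Cs εE μ δ) (hε : ∀ e, 0 ≤ εE e) (e : E.ε) :
    We3 L e ≤ 2 * ((1 - 2 * η)⁻¹ * (2 * (len (_root_.P073.Croft.onS h1.toFun (E.a e) (E.b e))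
      (Icc 0 1)).toReal) + εE e) := by
  have hη : (0:ℝ) ≤ (1 - 2 * η)⁻¹ := inv_nonneg.2 (by linarith [L.η4])
  have h := L.lev.WeP_le (K₁ := 2) (δ := fun i => δ i.1) (L.crs e) (ρ := 1) zero_le_one hη (hε e)
    (fun i => Vale.Agent.P073.H669.PK_convex G i.1) (fun y => PLev.encard_PK G y) (by norm_num)
    fun i => L.om_le_two i.1 i.2
  rw [one_mul] at h
  exact h

theorem omP_le_plv (L : PLv G E h1 Pr sl η A Cs εE μ δ) {s : K.S} {β : Bool} {t : ℝ} {x y : ℝ}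
    (hx : 0 ≤ x) (hxy : 16 * x ≤ y) : L.lev.omP s (tg s β) t * x ≤ L.lev.c s β * y := by
  rw [L.om_eq_omP]
  show L.om s β * x ≤ δ s / 8 * y
  have h1 := L.om_le_two s β
  have h2 := L.δ0 s
  calc L.om s β * x ≤ 2 * δ s * x := mul_le_mul_of_nonneg_right h1 hx
    _ = δ s / 8 * (16 * x) := by ring
    _ ≤ _ := mul_le_mul_of_nonneg_left hxy (by positivity)

end plv

/-- **ROUND P** -/
theorem exists_roundP {η₀ : ℝ} {Ω Λ : Set V} {w : V} {ρ : V → ℝ} {M : Mesh Ω}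
    {h h1 : ConHomeo Ω Λ} {P : Set M.ι} {K : BoxCx Λ w} (D : KIn η₀ w ρ M h P)
    (C : Cells ρ w K) {E : Edges M} {O : M.κ → V} {LaT : E.ε → ℝ} {Lf : M.κ → E.ε → ℝ}
    {Lam1 : M.κ → ℝ} {sl : TBx K → Finset (ℝ × ℝ)}
    (HT : T3Out (D.G C) M E h h1 (ωT η₀ C) O LaT Lf Lam1 sl) (hends : Ends (D.G C) sl)
    (htile : TileAt ρ w M P h.toFun h1.toFun) (himg : ImgAt M P h.toFun h1.toFun)
    {η : ℝ} {τ : Type*} {A : τ → Set V} {Cs : Set ℝ} {εE : E.ε → ℝ} {μ δ : K.S → ℝ}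
    (L : PLv (D.G C) E h1 P sl η A Cs εE μ δ) {La mu : E.ε → ℝ}
    (hmu : ∀ e, mu e ∈ Ioc (0:ℝ) (1 / 4)) (hLaT0 : ∀ e, 0 ≤ LaT e)
    (hLa : ∀ e, laE E (We3 L) e ≤ La e) (hLaT : ∀ e, 16 * LaT e ≤ La e)
    (GF : ConHomeo Ω Λ → M.κ → (V → V) → Prop)
    (hface : ∀ (h2 : ConHomeo Ω Λ) (κ₀ κ₁ : V → V), ROut (D.G C) M h1 h2 P univ L.lev.lv E →
      IsQ (L.lev.bx false) κ₀ → IsQ (L.lev.bx true) κ₁ →
      ∀ s k, AkP (D.G C) M h1 univ s k →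
      ∀ Φe : ∀ e, E.seg e ⊆ M.F k → ConHomeo (E.seg e) (Pre (κ₁ ∘ κ₀) Λ h2 (E.seg e)),
      (∀ e he, GEP E h2 (AkP (D.G C) M h1 univ) L.lev.kP L.lev.lv L.lev.loP L.lev.hiP L.lev.omP
        La mu e (Φe e he).toFun) →
      (∀ e he e' he', EqOn (Φe e he).toFun (Φe e' he').toFun (E.seg e ∩ E.seg e')) →
      (∀ e he, ∀ x ∈ E.seg e, x ∈ E.verts → (κ₁ ∘ κ₀) ((Φe e he).toFun x) = h2.toFun x) →
      ∃ Φ : ConHomeo (M.F k) (Pre (κ₁ ∘ κ₀) Λ h2 (M.F k)), GF h2 k Φ.toFun ∧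
        ∀ e he, EqOn Φ.toFun (Φe e he).toFun (E.seg e)) :
    ∃ (κ₀ κ₁ : V → V) (h2 h3 : ConHomeo Ω Λ), RPOut (D.G C) M E P L.lev h1 κ₀ κ₁ h2
      (GEP E h2 (AkP (D.G C) M h1 univ) L.lev.kP L.lev.lv L.lev.loP L.lev.hiP L.lev.omP La mu)
      (GF h2) h3 := by
  have hΩ : IsOpen Ω := D.bΩ.1
  have hΛ : IsOpen Λ := D.bΛ.1
  have HR : RIn (D.G C) M h1 P univ L.lev.lv E := by
    refine Vale.Agent.P073.H805.rin_of D C HT himg ?_ L.win ?_ L.reg1 L.reg2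
    · intro i hi x hx q hq
      obtain ⟨m, z, h3, h4, -⟩ := Vale.Agent.P073.H267.tile_of C q
      rw [h4] at hq ⊢
      exact htile i hi x hx m z h3 hq
    · intro s l hl t ht b hb
      refine L.hns s l hl t ht b ?_
      cases b with
      | inl e => exact hb
      | inr H => exact hb
  obtain ⟨h2, HO⟩ := Vale.Agent.P073.H805.exists_pin hΩ hΛ HR
  obtain ⟨κ₀, κ₁, i₀, i₁, j₀, j₁, hI⟩ := exists_kappaP L.lev hΛ
  obtain ⟨h3, H3⟩ := exists_insP hΩ HT hends (fun k x hx s hs => nrm_PK D C HT.near hx hs) HR HO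
    (bandP_plv L) i₀ i₁ hI hmu hLa
    (fun e s β t => omP_le_plv L (hLaT0 e) (hLaT e)) (hWe_plv L HO) (GF h2)
    (hface h2 κ₀ κ₁ HO i₀ i₁)
  exact ⟨κ₀, κ₁, h2, h3, i₀, i₁, j₀, j₁, hI, HR, HO, H3⟩

/-- **ROUND P** with the face maps `GFP` -/
theorem exists_roundP_gfp {η₀ : ℝ} {Ω Λ : Set V} {w : V} {ρ : V → ℝ} {M : Mesh Ω}
    {h h1 : ConHomeo Ω Λ} {P : Set M.ι} {K : BoxCx Λ w} (D : KIn η₀ w ρ M h P)
    (C : Cells ρ w K) {E : Edges M} {O : M.κ → V} {LaT : E.ε → ℝ} {Lf : M.κ → E.ε → ℝ}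
    {Lam1 : M.κ → ℝ} {sl : TBx K → Finset (ℝ × ℝ)}
    (HT : T3Out (D.G C) M E h h1 (ωT η₀ C) O LaT Lf Lam1 sl) (hends : Ends (D.G C) sl)
    (htile : TileAt ρ w M P h.toFun h1.toFun) (himg : ImgAt M P h.toFun h1.toFun)
    {η : ℝ} {τ : Type*} {A : τ → Set V} {Cs : Set ℝ} {εE : E.ε → ℝ} {μ δ : K.S → ℝ}
    (L : PLv (D.G C) E h1 P sl η A Cs εE μ δ) {La mu : E.ε → ℝ}
    (hmu : ∀ e, mu e ∈ Ioc (0:ℝ) (1 / 4)) (hLaT0 : ∀ e, 0 ≤ LaT e)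
    (hLa : ∀ e, laE E (We3 L) e ≤ La e) (hLaT : ∀ e, 16 * LaT e ≤ La e)
    (Cy : ∀ k, Cyc E k) {O' : M.κ → V} {r0 Rr : M.κ → ℝ}
    (hS : ∀ k, P073.H155.Star ((Cy k).n + 1) (vv (Cy k)) (O' k) (r0 k) (Rr k) (M.F k)) :
    ∃ (κ₀ κ₁ : V → V) (h2 h3 : ConHomeo Ω Λ), RPOut (D.G C) M E P L.lev h1 κ₀ κ₁ h2
      (GEP E h2 (AkP (D.G C) M h1 univ) L.lev.kP L.lev.lv L.lev.loP L.lev.hiP L.lev.omP La mu)
      (GFP E (AkP (D.G C) M h1 univ) L.lev.lv L.lev.loP L.lev.hiP L.lev.omP La (We3 L) O' r0 Rr)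
      h3 := by
  have hΩ : IsOpen Ω := D.bΩ.1
  have hΛ : IsOpen Λ := D.bΛ.1
  have HR : RIn (D.G C) M h1 P univ L.lev.lv E := by
    refine Vale.Agent.P073.H805.rin_of D C HT himg ?_ L.win ?_ L.reg1 L.reg2
    · intro i hi x hx q hq
      obtain ⟨m, z, h3, h4, -⟩ := Vale.Agent.P073.H267.tile_of C q
      rw [h4] at hq ⊢
      exact htile i hi x hx m z h3 hq
    · intro s l hl t ht b hb
      refine L.hns s l hl t ht b ?_
      cases b with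
      | inl e => exact hb
      | inr H => exact hb
  have hLa0 : ∀ e, 0 ≤ La e := fun e => by linarith [hLaT0 e, hLaT e]
  exact exists_roundP D C HT hends htile himg L hmu hLaT0 hLa hLaT
    (fun h2 => GFP E (AkP (D.G C) M h1 univ) L.lev.lv L.lev.loP L.lev.hiP L.lev.omP La (We3 L)
      O' r0 Rr)
    fun h2 κ₀ κ₁ HO i₀ i₁ => (pact_P L.lev HR HO (β := false) i₀ i₁).hface Cy hS hLa0
      (hWe_plv L HO)

end P073.H345
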