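import Vale.Agent.P073.H345.We3B
import Vale.Agent.P073.H267.K3St2
import Vale.Agent.P073.H805.Marks2

/-!
# P073, H345: **[WE3]**, part 3: the weights of the edges in ROUND P of `K3C`

`S2.cnt_all`, `S2.tsum_all`, `S2.tsum_h2_all`: the weights of the crossings, all edges of the mesh;
`S2.we3`: the weights of the edges of the peeled faces.
-/

set_option linter.unusedSectionVars false

open Set Metric Topology Filter MeasureTheory
open scoped ENNReal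

namespace Vale.Agent.P073.H345W

open _root_.P073 _root_.P073.Net _root_.P073.PA691 _root_.P073.H236 _root_.P073.H579
open Vale.Agent.P073.St (V)
open Vale.Agent.P073.H471 Vale.Agent.P073.H267 Vale.Agent.P073.H267.K3
open Vale.Agent.P073.H73 (Mesh onSeg)
open Vale.Agent.P073.H193 (Edges edges)
open Vale.Agent.P073.H926 Vale.Agent.P073.H926.KIn3
open _root_.P073.Croft (varIn onS cross levs)
open _root_.P073.H267 (tvE lenE)
open _root_.P073.H345 (tg tg_ne PK PB_sub_PK PLev)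
open Vale.Agent.P073.H190.Tvp (crK sum_h2_le)
open Vale.Agent.P073.H190.Num3
open Vale.Agent.P073.H669 (Rel rel_iff_T plT3)
open Vale.Agent.P073.H687 (Marks PLw wnd)
open Vale.Agent.P073.H238.K3 (clm)
open _root_.P073.H880.RP (ROut3)

variable {c₀ n δ : ℝ} {j : ℕ} {Ω Λ : Set V} {v w : V} {ρ : V → ℝ} {M : Mesh Ω} {h : ConHomeo Ω Λ}
  {J₀ J : Set (ℕ × (Fin 3 → ℤ))} {P Z : Set M.ι} {K : BoxCx Λ w}

section sums

variable {h1 : ConHomeo Ω Λ} {E : Edges M}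
variable (D : KIn3 c₀ n j δ v w ρ M h J₀ J P Z) (C : Cells ρ w K)
include D C

variable (hn : ∀ x ∈ Ω, ∀ q, h.toFun x ∈ K.cube q → ‖h1.toFun x - h.toFun x‖ ≤ (D.G C).om q)
include hn

/-- the sum over all plates and directions -/
theorem tsum_of (L : PLev (D.G C)) {e : E.ε} {X : ℝ≥0∞}
    (hX : ∀ s ∈ pS C J₀, ∀ β, ENNReal.ofReal (L.om s β) * cnt (crK L h1 (E.a e) (E.b e) s β) ≤ X) :
    ∑' o : (D.dat C).S₀ × Bool, ENNReal.ofReal (L.om o.1.1 o.2) *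
      cnt (crK L h1 (E.a e) (E.b e) o.1.1 o.2) ≤ 2 * X := by
  classical
  by_cases hex : ∃ s ∈ (D.dat C).S₀, ∃ x ∈ E.seg e, h1.toFun x ∈ PK (D.G C) s
  · obtain ⟨s, hs, x, hx, hxs⟩ := hex
    rw [tsum_eq_sum (s := ({(⟨s, hs⟩, true), (⟨s, hs⟩, false)} :
      Finset ((D.dat C).S₀ × Bool))) (fun i hi => ?_)]
    · rw [Finset.sum_pair (by simp), two_mul]
      exact add_le_add (hX s hs true) (hX s hs false)
    · obtain ⟨⟨s', hs'⟩, β⟩ := i
      rw [crK_empty L (fun y hy hys => hi ?_)]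
      · simp [cnt]
      · have h1 := at_PK3_unique D C hn hs hx hxs hy hys
        dsimp only at h1
        subst h1
        cases β <;> simp
  · push Not at hex
    rw [ENNReal.tsum_eq_zero.2 fun i => ?_]
    · exact zero_le
    · rw [crK_empty L (hex i.1.1 i.1.2)]
      simp [cnt]

/-- **the weights of the crossings of the map after the exchange** -/
theorem tsum_h2_of {h2 : ConHomeo Ω Λ} {L : PLev (D.G C)} {ι : Type} {F : ι → Set V} {i : ι}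
    (O : ROut3 (D.G C) E (D.dat C) h1 h2 L.lv F) {e : E.ε} (hi : F i = E.seg e) {X : ℝ≥0∞}
    (hX : ∀ s ∈ pS C J₀, ∀ β, ENNReal.ofReal (L.om s β) * cnt (crK L h1 (E.a e) (E.b e) s β) ≤ X)
    {r : ℝ} (hr : 1 ≤ r) (hom : ∀ s ∈ (D.dat C).S₀, ∀ β, L.om s β ≤ r * L.om s (!β)) :
    ∑' o : (D.dat C).S₀ × Bool, ENNReal.ofReal (L.om o.1.1 o.2) *
      cnt (cross (onS h2.toFun (E.a e) (E.b e)) (tg o.1.1 o.2)
        (levs (L.N o.1.1 o.2) (L.a o.1.1 o.2)) (PK (D.G C) o.1.1)) ≤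
      ENNReal.ofReal r * (2 * X) := by
  refine (sum_h2_le O (fun s _ β => D.dat_ht_le C s β) (E.ne e) hi (E.seg_sub_Ω e)
    (fun s hs s' _ h3 h4 => PE_unique D C hn hs h3 h4) hr hom).trans ?_
  exact mul_le_mul' le_rfl (tsum_of D C hn L hX)

end sums

variable {D : KIn3 c₀ n j δ v w ρ M h J₀ J P Z} {C : Cells ρ w K} {C₀ μT : ℝ}
  {X : S1 D C C₀ μT}

/-- the chord is at most the length -/
theorem chord_le_lenE (E : Edges M) (g : V → V) (e : E.ε) :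
    ENNReal.ofReal ‖g (E.b e) - g (E.a e)‖ ≤ lenE E g e := by
  refine le_trans ?_ (_root_.P073.H926.var_le_len _ _)
  have h3 := eVariationOn.edist_le (onSeg g (E.a e, E.b e))
    (right_mem_Icc.2 (zero_le_one : (0:ℝ) ≤ 1)) (left_mem_Icc.2 zero_le_one)
  rw [edist_dist, dist_eq_norm] at h3
  refine le_trans (ENNReal.ofReal_le_ofReal (le_of_eq ?_)) h3
  unfold onSeg
  simp

/-- **the numbers of the sub-windows** -/
structure SubW (X : S1 D C C₀ μT) (Y₂ : S2 X) (r : K.S → ℝ) : Prop where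
  rJ : ∀ s, r s ≤ Y₂.J s
  r50 : ∀ s l b, b ∈ pB C J₀ → Rel s l b → 50 * ω3T δ C b ≤ r s
  fat : ∀ s l (b : pB C J₀), Rel s l b.1 → r s ≤ X.fat b
  jn : ∀ s β, jnM (D.G C) r Y₂.Q s β ⊆ Y₂.Jn s β

/-- **the numbers of the sub-windows**, for multiples of the oscillation -/
theorem subW_of {Y₂ : S2 X} (hJ : ∀ s, Y₂.J s = 2048 * ω3S δ C s)
    (hfat : ∀ b : pB C J₀, X.fat b = 2048 * ω3T δ C b.1)
    (hJn : ∀ s β, jnM (D.G C) (fun s => 512 * ω3S δ C s) Y₂.Q s β ⊆ Y₂.Jn s β) :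
    SubW X Y₂ fun s => 512 * ω3S δ C s where
  rJ := fun s => by
    have := D.ω3S_pos C s
    rw [hJ s]; linarith
  r50 := fun s l b _ hb => by
    have h1 := (D.ω3T_le_S C hb).1
    have h2 := D.ω3T_pos C b
    linarith
  fat := fun s l b hb => by
    have h1 := (D.ω3T_le_S C hb).2
    rw [hfat b]; linarith
  jn := hJn

/-- the levels avoid the marked points -/
theorem s2_avoid {Y₂ : S2 X} {r : K.S → ℝ} (H : SubW X Y₂ r) {s : K.S} (hs : s ∈ pS C J₀)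
    {β : Bool} {m : ℕ} (hm : m < Y₂.L.N s β) :
    ∀ q ∈ Y₂.Q s β, Y₂.L.a s β m ≤ q - r s ∨ q + r s ≤ Y₂.L.a s β m := by
  classical
  intro q hq
  obtain ⟨Hg, h1, h2, h3⟩ := Y₂.marks.hang s β q hq
  have hrel : Rel s (tg s β) (.inr Hg) := ⟨h1, h2⟩
  have hb : (.inr Hg : TBx K) ∈ pB C J₀ := X.dpre.rel s hs _ _ (rel_iff_T.2 hrel)
  have hfat := H.fat s _ ⟨_, hb⟩ hrel
  have hc := (Y₂.L.lvs s β).c0
  have key : ∀ p ∈ X.slp ⟨_, hb⟩, p.2 < Y₂.L.a s β m - 2 * Y₂.L.c s β ∨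
      Y₂.L.a s β m + 2 * Y₂.L.c s β < p.1 := fun p hp =>
    Y₂.bandp s hs β m hm ⟨_, hb⟩ (rel_iff_T.2 hrel) p hp
  have e1 : (D.G C).tlo true (.inr Hg) (TBx.ax (.inr Hg : TBx K)) =
      K.w Hg.i Hg.l - (D.G C).be Hg.i := if_pos rfl
  have e2 : (D.G C).thi true (.inr Hg) (TBx.ax (.inr Hg : TBx K)) =
      K.w Hg.i Hg.l + (D.G C).be Hg.i := if_pos rfl
  rcases h3 with h3 | h3
  · have h4 := key ((D.G C).tlo true (.inr Hg) (TBx.ax (.inr Hg : TBx K)) - X.fat ⟨_, hb⟩,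
      (D.G C).tlo true (.inr Hg) (TBx.ax (.inr Hg : TBx K)) + X.fat ⟨_, hb⟩)
      (Finset.mem_union_right _ (Finset.mem_insert_self _ _))
    rw [e1, ← h3] at h4
    rcases h4 with h4 | h4
    · right
      have h4' : q + X.fat ⟨_, hb⟩ < Y₂.L.a s β m - 2 * Y₂.L.c s β := h4
      linarith
    · left
      have h4' : Y₂.L.a s β m + 2 * Y₂.L.c s β < q - X.fat ⟨_, hb⟩ := h4
      linarith
  · have h4 := key ((D.G C).thi true (.inr Hg) (TBx.ax (.inr Hg : TBx K)) - X.fat ⟨_, hb⟩,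
      (D.G C).thi true (.inr Hg) (TBx.ax (.inr Hg : TBx K)) + X.fat ⟨_, hb⟩)
      (Finset.mem_union_right _ (Finset.mem_insert_of_mem (Finset.mem_singleton_self _)))
    rw [e2, ← h3] at h4
    rcases h4 with h4 | h4
    · right
      have h4' : q + X.fat ⟨_, hb⟩ < Y₂.L.a s β m - 2 * Y₂.L.c s β := h4
      linarith
    · left
      have h4' : Y₂.L.a s β m + 2 * Y₂.L.c s β < q - X.fat ⟨_, hb⟩ := h4
      linarith

/-- 581's field `tvg` of `TOut3` -/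
def Tvg (D : KIn3 c₀ n j δ v w ρ M h J₀ J P Z) (C : Cells ρ w K) (E : Edges M) (C₀ : ℝ)
    (ε : E.ε → ℝ) (h1 : ConHomeo Ω Λ) : Prop :=
  ∀ (e₀ : E.ε) (l : Fin 3),
    (∀ b ∈ pB C J₀, (h.toFun '' E.seg e₀ ∩ (D.G C).TB false b).Nonempty → b.ax = l) →
    ∀ f : ℝ → ℝ, (∀ s t, |f s - f t| ≤ |s - t|) →
    (∀ b ∈ pB C J₀, (h.toFun '' E.seg e₀ ∩ (D.G C).TB false b).Nonempty →
      (∀ s ∈ Icc ((D.G C).tlo true b b.ax) ((D.G C).tlo true b b.ax + 50 * ω3T δ C b),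
        f s = f ((D.G C).tlo true b b.ax)) ∧
      ∀ s ∈ Icc ((D.G C).thi true b b.ax - 50 * ω3T δ C b) ((D.G C).thi true b b.ax),
        f s = f ((D.G C).thi true b b.ax)) →
    eVariationOn (fun t : ℝ => f (h1.toFun (E.a e₀ + t • (E.b e₀ - E.a e₀)) l)) (Icc 0 1) ≤
      ENNReal.ofReal C₀ * lenE E h.toFun e₀ + ENNReal.ofReal (ε e₀)

/-- the weight of a sub-window -/
theorem s2_sub {Y₂ : S2 X} {e : (edges M).ε} {s : K.S} {β : Bool} {p : ℝ × ℝ}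
    (hp : p ∈ Y₂.Jn s β) : ENNReal.ofReal (Y₂.L.om s β) *
      cnt (cross (onS X.h1.toFun ((edges M).a e) ((edges M).b e)) (tg s β)
        (levs (Y₂.L.N s β) (Y₂.L.a s β)) (PK (D.G C) s ∩ {y | p.1 ≤ y (tg s β) ∧
          y (tg s β) ≤ p.2})) ≤
      ENNReal.ofReal 5 * varIn (onS X.h1.toFun ((edges M).a e) ((edges M).b e)) (tg s β)
        (PK (D.G C) s ∩ {y | p.1 ≤ y (tg s β) ∧ y (tg s β) ≤ p.2}) 0 1 +
        ENNReal.ofReal (2 * Y₂.εE e) := by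
  have h1 : Y₂.L.om s β ≤ 2 * Y₂.dP s := Y₂.Lw.om_le_two s β
  have h2 := Y₂.Lw.crsw e s β p hp
  have h3 := Y₂.Lw.η4
  have h4 := Y₂.Lw.r7
  have h5 := Y₂.Lw.r0
  have h6 : (1 - 2 * Y₂.η)⁻¹ ≤ 2 := by
    rw [inv_le_comm₀ (by linarith) (by norm_num)]; linarith
  have h7 : 2 * ((1 - 2 * Y₂.η)⁻¹ * (1 + Y₂.r)) ≤ 5 := by
    have h8 : (1 - 2 * Y₂.η)⁻¹ * (1 + Y₂.r) ≤ 2 * (8 / 7) :=
      mul_le_mul h6 (by linarith) (by linarith) (by norm_num)
    linarith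
  calc ENNReal.ofReal (Y₂.L.om s β) *
      cnt (cross (onS X.h1.toFun ((edges M).a e) ((edges M).b e)) (tg s β)
        (levs (Y₂.L.N s β) (Y₂.L.a s β)) (PK (D.G C) s ∩ {y | p.1 ≤ y (tg s β) ∧
          y (tg s β) ≤ p.2}))
      ≤ ENNReal.ofReal (2 * Y₂.dP s) *
      cnt (cross (onS X.h1.toFun ((edges M).a e) ((edges M).b e)) (tg s β)
        (levs (Y₂.L.N s β) (Y₂.L.a s β)) (PK (D.G C) s ∩ {y | p.1 ≤ y (tg s β) ∧
          y (tg s β) ≤ p.2})) := mul_le_mul_left (ENNReal.ofReal_le_ofReal h1) _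
    _ = ENNReal.ofReal 2 * (ENNReal.ofReal (Y₂.dP s) *
      cnt (cross (onS X.h1.toFun ((edges M).a e) ((edges M).b e)) (tg s β)
        (levs (Y₂.L.N s β) (Y₂.L.a s β)) (PK (D.G C) s ∩ {y | p.1 ≤ y (tg s β) ∧
          y (tg s β) ≤ p.2}))) := by rw [ENNReal.ofReal_mul (by norm_num), mul_assoc]
    _ ≤ ENNReal.ofReal 2 * (ENNReal.ofReal ((1 - 2 * Y₂.η)⁻¹ * (1 + Y₂.r)) *
        varIn (onS X.h1.toFun ((edges M).a e) ((edges M).b e)) (tg s β)
        (PK (D.G C) s ∩ {y | p.1 ≤ y (tg s β) ∧ y (tg s β) ≤ p.2}) 0 1 +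
        ENNReal.ofReal (Y₂.εE e)) := mul_le_mul_right h2 _
    _ = ENNReal.ofReal (2 * ((1 - 2 * Y₂.η)⁻¹ * (1 + Y₂.r))) *
        varIn (onS X.h1.toFun ((edges M).a e) ((edges M).b e)) (tg s β)
        (PK (D.G C) s ∩ {y | p.1 ≤ y (tg s β) ∧ y (tg s β) ≤ p.2}) 0 1 +
        ENNReal.ofReal (2 * Y₂.εE e) := by
        rw [mul_add, ENNReal.ofReal_mul (by norm_num : (0:ℝ) ≤ 2) (q := Y₂.εE e),
          ENNReal.ofReal_mul (by norm_num : (0:ℝ) ≤ 2), mul_assoc]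
    _ ≤ _ := add_le_add (mul_le_mul' (ENNReal.ofReal_le_ofReal h7) le_rfl) le_rfl

/-- the right side -/
noncomputable def rhs3 (X : S1 D C C₀ μT) (εE : (edges M).ε → ℝ) (e : (edges M).ε) : ℝ≥0∞ :=
  25 * (ENNReal.ofReal 5 * (ENNReal.ofReal C₀ * lenE (edges M) h.toFun e +
    ENNReal.ofReal (X.εe e)) + ENNReal.ofReal (2 * εE e))

/-- **the weights of the crossings of `h1`**, one direction, all edges -/
theorem s2_cnt {Y₂ : S2 X} {r : K.S → ℝ} (H : SubW X Y₂ r)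
    (htvg : Tvg D C (edges M) C₀ X.εe X.h1) (e : (edges M).ε) {s : K.S} (hs : s ∈ pS C J₀)
    (β : Bool) : ENNReal.ofReal (Y₂.L.om s β) *
      cnt (crK Y₂.L X.h1 ((edges M).a e) ((edges M).b e) s β) ≤ rhs3 X Y₂.εE e :=
  cnt_all D C X.out.near3 hs Y₂.marks (H.rJ s) (fun b hb hbr => H.r50 s _ b hb hbr)
    (fun _ hm => s2_avoid H hs hm) (fun _ hp => s2_sub (H.jn s β hp))
    fun l hl f hf hf' => htvg e l hl f hf hf'

/-- **the weights of the crossings of `h1`**, all plates, all edges -/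
theorem s2_tsum {Y₂ : S2 X} {r : K.S → ℝ} (H : SubW X Y₂ r)
    (htvg : Tvg D C (edges M) C₀ X.εe X.h1) (e : (edges M).ε) :
    ∑' o : (D.dat C).S₀ × Bool, ENNReal.ofReal (Y₂.L.om o.1.1 o.2) *
      cnt (crK Y₂.L X.h1 ((edges M).a e) ((edges M).b e) o.1.1 o.2) ≤ 2 * rhs3 X Y₂.εE e :=
  tsum_of D C X.out.near3 Y₂.L fun _ hs β => s2_cnt H htvg e hs β

/-- the steps of the two directions -/
theorem s2_om {Y₂ : S2 X} (s : K.S) (β β' : Bool) : Y₂.L.om s β = Y₂.L.om s β' :=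
  Y₂.Lw.om_eq s β β'

theorem s2_fam {Y₂ : S2 X} (e : (edges M).ε) :
    ∃ i, (Vale.Agent.P073.H341.vFam M (edges M)) i = (edges M).seg e := by
  obtain ⟨i, hi⟩ := Y₂.ex.fam (.inr (.inl e))
  exact ⟨i, hi.symm⟩

/-- **the weights of the crossings of `h2`**, all plates, all edges -/
theorem s2_tsum_h2 {Y₂ : S2 X} {r : K.S → ℝ} (H : SubW X Y₂ r)
    (htvg : Tvg D C (edges M) C₀ X.εe X.h1) (e : (edges M).ε) :
    ∑' o : (D.dat C).S₀ × Bool, ENNReal.ofReal (Y₂.L.om o.1.1 o.2) *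
      cnt (cross (onS Y₂.h2.toFun ((edges M).a e) ((edges M).b e)) (tg o.1.1 o.2)
        (levs (Y₂.L.N o.1.1 o.2) (Y₂.L.a o.1.1 o.2)) (PK (D.G C) o.1.1)) ≤
      2 * rhs3 X Y₂.εE e := by
  obtain ⟨i, hi⟩ := s2_fam (Y₂ := Y₂) e
  have h1 := tsum_h2_of D C X.out.near3 Y₂.ex.ex hi (fun _ hs β => s2_cnt H htvg e hs β)
    (le_refl (1:ℝ)) (fun s _ β => by rw [one_mul, s2_om s β (!β)])
  rwa [ENNReal.ofReal_one, one_mul] at h1

/-- the right side, in real form -/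
theorem rhs3_eq {εE : (edges M).ε → ℝ} {e : (edges M).ε} (hε0 : 0 ≤ εE e) :
    2 * rhs3 X εE e = ENNReal.ofReal (250 * C₀) * lenE (edges M) h.toFun e +
      ENNReal.ofReal (250 * X.εe e + 100 * εE e) := by
  have h0 := (X.εe0 e).le
  unfold rhs3
  rw [show (2 : ℝ≥0∞) = ENNReal.ofReal 2 by norm_num, show (25 : ℝ≥0∞) = ENNReal.ofReal 25 by
    norm_num, mul_add, mul_add, mul_add, mul_add, mul_add, ← ENNReal.ofReal_mul (by norm_num),
    ← ENNReal.ofReal_mul (by norm_num), ← mul_assoc, ← mul_assoc, ← mul_assoc,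
    ← ENNReal.ofReal_mul (by norm_num), ← ENNReal.ofReal_mul (by norm_num),
    ← ENNReal.ofReal_mul (by norm_num), ← ENNReal.ofReal_mul (by norm_num),
    ← ENNReal.ofReal_mul (by norm_num), add_assoc, ← ENNReal.ofReal_mul (by norm_num),
    ← ENNReal.ofReal_add (by positivity) (by positivity)]
  congr 2
  · congr 1; ring
  · ring

/-- **the weights of the crossings of `h2`**, all plates, all edges (228's form) -/
theorem s2_hcnt {Y₂ : S2 X} {r : K.S → ℝ} (H : SubW X Y₂ r)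
    (htvg : Tvg D C (edges M) C₀ X.εe X.h1) (e : (edges M).ε) :
    ∑' o : (D.dat C).S₀ × Bool, ENNReal.ofReal (Y₂.L.om o.1.1 o.2) *
      cnt (cross (onS Y₂.h2.toFun ((edges M).a e) ((edges M).b e)) (tg o.1.1 o.2)
        (levs (Y₂.L.N o.1.1 o.2) (Y₂.L.a o.1.1 o.2)) (PK (D.G C) o.1.1)) ≤
      ENNReal.ofReal (250 * C₀) * lenE (edges M) h.toFun e +
        ENNReal.ofReal (250 * X.εe e + 100 * Y₂.εE e) :=
  (s2_tsum_h2 H htvg e).trans (rhs3_eq (Y₂.εE0 e).le).le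

/-- the right side against the number of the edge -/
theorem rhs3_le (hC₀ : 0 ≤ C₀) {εE : (edges M).ε → ℝ} {e : (edges M).ε}
    (hε : εE e ≤ X.εe e) :
    rhs3 X εE e ≤ ENNReal.ofReal ((250 * C₀ + 350) * X.bn e) := by
  have hb := X.num.b_pos e
  have h1 := X.len_le e
  have h2 : ENNReal.ofReal (X.εe e) ≤ ENNReal.ofReal (2 * X.bn e) :=
    (ENNReal.ofReal_le_ofReal (X.εch e)).trans ((chord_le_lenE _ _ _).trans h1)
  have h3 : ENNReal.ofReal (2 * εE e) ≤ ENNReal.ofReal (4 * X.bn e) := by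
    have h4 : X.εe e ≤ 2 * X.bn e := (ENNReal.ofReal_le_ofReal_iff (by linarith)).1 h2
    exact ENNReal.ofReal_le_ofReal (by linarith)
  unfold rhs3
  calc 25 * (ENNReal.ofReal 5 * (ENNReal.ofReal C₀ * lenE (edges M) h.toFun e +
        ENNReal.ofReal (X.εe e)) + ENNReal.ofReal (2 * εE e))
      ≤ ENNReal.ofReal 25 * (ENNReal.ofReal 5 * (ENNReal.ofReal C₀ * ENNReal.ofReal (2 * X.bn e) +
        ENNReal.ofReal (2 * X.bn e)) + ENNReal.ofReal (4 * X.bn e)) := by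
        refine mul_le_mul' (le_of_eq (by norm_num)) (add_le_add (mul_le_mul' le_rfl
          (add_le_add (mul_le_mul' le_rfl h1) h2)) h3)
    _ = _ := by
        rw [← ENNReal.ofReal_mul hC₀, ← ENNReal.ofReal_add (by positivity) (by positivity),
          ← ENNReal.ofReal_mul (by norm_num), ← ENNReal.ofReal_add (by positivity) (by positivity),
          ← ENNReal.ofReal_mul (by norm_num)]
        congr 1
        ring

/-- **[WE3]**: the weights of the edges of the peeled faces -/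
theorem we3 {Y₂ : S2 X} {r : K.S → ℝ} (H : SubW X Y₂ r)
    (htvg : Tvg D C (edges M) C₀ X.εe X.h1) (hC₀ : 0 ≤ C₀) (hε : ∀ e, Y₂.εE e ≤ X.εe e)
    (s : K.S) (e : (edges M).ε) (he : EAct (edges M) ((D.dat C).PkS (D.G C) X.h1) s e)
    (Y : Finset V)
    (hY : ∀ x ∈ Y, CrsPt ((edges M).a e) ((edges M).b e) Y₂.h2.toFun (Y₂.L.lv s) x) :
    ∑ x ∈ Y, omX Y₂.h2.toFun (Y₂.L.lv s) (Y₂.L.omP s) x ≤ (500 * C₀ + 700) * X.bn e := by
  have hs : s ∈ pS C J₀ := by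
    obtain ⟨k, hk, -⟩ := he
    exact hk.1
  have h1 := Y₂.ex.ex.sum_omX_le (P := fun q => PK (D.G C) q.1) (fun e => s2_fam (Y₂ := Y₂) e)
    (fun s _ s' _ hne => (Geo.disjoint_PB (G := D.G C) (by norm_num : (1:ℝ) / 2 ≤ 15 / 16)
      hne.symm).mono_right ((D.PE_sub_PB C s').trans
        (Vale.Agent.P073.H805.PB_mono (by norm_num) s')))
    (fun s _ => PB_sub_PK (by norm_num) s) (le_refl (1:ℝ))
    (fun β => by rw [one_mul, s2_om s β (!β)]) he Y hY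
  rw [ENNReal.ofReal_one, one_mul] at h1
  have h2 := fun β => (s2_cnt H htvg e hs β).trans (rhs3_le hC₀ (hε e))
  have hb := X.num.b_pos e
  have h3 : ENNReal.ofReal (∑ x ∈ Y, omX Y₂.h2.toFun (Y₂.L.lv s) (Y₂.L.omP s) x) ≤
      ENNReal.ofReal ((250 * C₀ + 350) * X.bn e) + ENNReal.ofReal ((250 * C₀ + 350) * X.bn e) :=
    h1.trans (add_le_add (h2 true) (h2 false))
  have h4 : 0 ≤ (250 * C₀ + 350) * X.bn e := by positivity
  rw [← ENNReal.ofReal_add h4 h4] at h3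
  have h5 := (ENNReal.ofReal_le_ofReal_iff (by linarith)).1 h3
  linarith

end Vale.Agent.P073.H345W
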