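import Mathlib

/-!
# P073, H345, PASSW: the one-dimensional maps

`ph η m` is the monotone map of the line which is constant on `[-m, m]` and the identity off
`(-η, η)`.  `dd` is the formula for the inserted coordinate.
-/

namespace P073.H345

/-- monotone map: constant on `[-m, m]`, identity off `(-η, η)` -/
noncomputable def ph (η m r : ℝ) : ℝ :=
  min (max r 0) (max 0 (max (r - m) (2 * r - η))) -
    min (max (-r) 0) (max 0 (max (-r - m) (2 * (-r) - η)))

theorem ph_neg (η m r : ℝ) : ph η m (-r) = - ph η m r := by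
  unfold ph
  rw [neg_neg]
  ring

theorem ph_of_nonneg {η m r : ℝ} (hr : 0 ≤ r) :
    ph η m r = min r (max 0 (max (r - m) (2 * r - η))) := by
  unfold ph
  rw [max_eq_left hr, max_eq_right (by linarith : -r ≤ 0)]
  rw [min_eq_left (le_max_left (0:ℝ) _)]
  ring

theorem ph_zero_iff {η m r : ℝ} (h0 : 0 ≤ m) (hm : m ≤ η / 2) :
    ph η m r = 0 ↔ |r| ≤ m := by
  have key : ∀ r, 0 ≤ r → (ph η m r = 0 ↔ r ≤ m) := by
    intro r hr
    rw [ph_of_nonneg hr]
    constructor
    · intro h
      by_contra hc
      push Not at hc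
      have h1 : 0 < max 0 (max (r - m) (2 * r - η)) :=
        lt_of_lt_of_le (by linarith : 0 < r - m) ((le_max_left _ _).trans (le_max_right _ _))
      have h2 : 0 < r := lt_of_le_of_lt h0 hc
      have := lt_min h2 h1
      linarith
    · intro h
      have h1 : max 0 (max (r - m) (2 * r - η)) = 0 :=
        max_eq_left (max_le (by linarith) (by linarith))
      rw [h1, min_eq_right hr]
  rcases le_total 0 r with hr | hr
  · rw [key r hr, abs_of_nonneg hr]
  · have := key (-r) (by linarith)
    rw [ph_neg, neg_eq_zero] at this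
    rw [this, abs_of_nonpos hr]

theorem ph_pos {η m r : ℝ} (h0 : 0 ≤ m) (hr : m < r) : 0 < ph η m r := by
  have h2 : 0 < r := lt_of_le_of_lt h0 hr
  rw [ph_of_nonneg h2.le]
  exact lt_min h2 (lt_of_lt_of_le (by linarith : 0 < r - m)
    ((le_max_left _ _).trans (le_max_right _ _)))

theorem ph_nonneg {η m r : ℝ} (hr : 0 ≤ r) : 0 ≤ ph η m r := by
  rw [ph_of_nonneg hr]
  exact le_min hr (le_max_left _ _)

theorem ph_le {η m r : ℝ} (hr : 0 ≤ r) : ph η m r ≤ r := by
  rw [ph_of_nonneg hr]; exact min_le_left _ _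

theorem abs_ph_le {η m r : ℝ} : |ph η m r| ≤ |r| := by
  rcases le_total 0 r with hr | hr
  · rw [abs_of_nonneg hr, abs_of_nonneg (ph_nonneg hr)]; exact ph_le hr
  · have h1 := ph_nonneg (η := η) (m := m) (r := -r) (by linarith)
    have h2 := ph_le (η := η) (m := m) (r := -r) (by linarith)
    rw [ph_neg] at h1 h2
    rw [abs_of_nonpos hr, abs_of_nonpos (by linarith)]
    exact h2

theorem ph_of_ge {η m r : ℝ} (hη : 0 < η) (hr : η ≤ r) : ph η m r = r := by
  rw [ph_of_nonneg (by linarith)]
  apply min_eq_left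
  exact le_trans (by linarith) ((le_max_right (r - m) _).trans (le_max_right _ _))

theorem ph_of_abs_ge {η m r : ℝ} (hη : 0 < η) (hr : η ≤ |r|) : ph η m r = r := by
  rcases le_total 0 r with h | h
  · rw [abs_of_nonneg h] at hr; exact ph_of_ge hη hr
  · rw [abs_of_nonpos h] at hr
    have := ph_of_ge (m := m) hη hr
    rw [ph_neg] at this
    linarith

theorem ph_zero_right {η r : ℝ} : ph η 0 r = r := by
  have key : ∀ r, 0 ≤ r → ph η 0 r = r := by
    intro r hr
    rw [ph_of_nonneg hr, sub_zero]
    apply min_eq_left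
    exact (le_max_left r _).trans (le_max_right _ _)
  rcases le_total 0 r with h | h
  · exact key r h
  · have := key (-r) (by linarith)
    rw [ph_neg] at this
    linarith

/-- the value of `ph` on the branch -/
theorem ph_branch {η m t : ℝ} (h0 : 0 ≤ m) (ht : 0 < t) (htη : t ≤ η) :
    ph η m (min (t + m) ((t + η) / 2)) = t := by
  have hr : 0 ≤ min (t + m) ((t + η) / 2) := le_min (by linarith) (by linarith)
  rw [ph_of_nonneg hr]
  rcases le_total (t + m) ((t + η) / 2) with h | h
  · rw [min_eq_left h]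
    have h1 : max (t + m - m) (2 * (t + m) - η) = t := by
      rw [add_sub_cancel_right]
      exact max_eq_left (by linarith)
    rw [h1, max_eq_right ht.le, min_eq_right (by linarith)]
  · rw [min_eq_right h]
    have h1 : max ((t + η) / 2 - m) (2 * ((t + η) / 2) - η) = t := by
      have : 2 * ((t + η) / 2) - η = t := by ring
      rw [this]
      exact max_eq_right (by linarith)
    rw [h1, max_eq_right ht.le, min_eq_right (by linarith)]

/-- the branch is the inverse of `ph` -/
theorem branch_ph {η m r : ℝ} (h0 : 0 ≤ m) (_hm : m ≤ η / 2) (hr : m < r) (hrη : r ≤ η) :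
    min (ph η m r + m) ((ph η m r + η) / 2) = r := by
  have hr0 : 0 < r := lt_of_le_of_lt h0 hr
  rw [ph_of_nonneg hr0.le]
  rcases le_total (r - m) (2 * r - η) with h | h
  · have h1 : max 0 (max (r - m) (2 * r - η)) = 2 * r - η := by
      rw [max_eq_right h]
      exact max_eq_right (by linarith)
    have h2 : min r (2 * r - η) = 2 * r - η := min_eq_right (by linarith)
    rw [h1, h2]
    have : (2 * r - η + η) / 2 = r := by ring
    rw [this]
    exact min_eq_right (by linarith)
  · have h1 : max 0 (max (r - m) (2 * r - η)) = r - m := by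
      rw [max_eq_left h]
      exact max_eq_right (by linarith)
    have h2 : min r (r - m) = r - m := min_eq_right (by linarith)
    rw [h1, h2, sub_add_cancel]
    exact min_eq_left (by linarith)

/-- the inserted coordinate -/
noncomputable def dd (η mz mp mn ρ R : ℝ) : ℝ :=
  max (-mz) (min mz R) +
    min ((max ρ 0 + η) / 2 - mz) (max ρ 0 + mp - mz) +
    max (-((max (-ρ) 0 + η) / 2 - mz)) (-max (-ρ) 0 + mz - mn)

theorem dd_pos {η mz mp mn ρ R : ℝ} (h0 : 0 ≤ mz) (hm : mz ≤ η / 2) (hρ : 0 < ρ) (hR : mz ≤ R)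
    (hn : mn = mz) : dd η mz mp mn ρ R = min (ρ + mp) ((ρ + η) / 2) := by
  unfold dd
  subst hn
  rw [max_eq_left hρ.le, max_eq_right (by linarith : -ρ ≤ 0), min_eq_left hR,
    max_eq_right (by linarith : -mn ≤ mn)]
  rw [max_eq_right (a := -((0 + η) / 2 - mn)) (by linarith)]
  rcases le_total ((ρ + η) / 2) (ρ + mp) with h | h
  · rw [min_eq_right h, min_eq_left (by linarith)]; ring
  · rw [min_eq_left h, min_eq_right (by linarith)]; ring

theorem dd_lt {η mz mp mn ρ R : ℝ} (h0 : 0 ≤ mz) (hm : mz ≤ η / 2) (hρ : ρ < 0) (hR : R ≤ -mz)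
    (hp : mp = mz) : dd η mz mp mn ρ R = -min (-ρ + mn) ((-ρ + η) / 2) := by
  unfold dd
  subst hp
  rw [max_eq_right hρ.le, max_eq_left (by linarith : (0:ℝ) ≤ -ρ),
    min_eq_right (by linarith : R ≤ mp), max_eq_left hR]
  rw [min_eq_right (a := (0 + η) / 2 - mp) (by linarith)]
  rcases le_total ((-ρ + η) / 2) (-ρ + mn) with h | h
  · rw [min_eq_right h, max_eq_left (by linarith)]; ring
  · rw [min_eq_left h, max_eq_right (by linarith)]; ring

theorem dd_zero {η mz R : ℝ} (hm : mz ≤ η / 2) (hR : |R| ≤ mz) :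
    dd η mz mz mz 0 R = R := by
  unfold dd
  obtain ⟨h1, h2⟩ := abs_le.1 hR
  rw [min_eq_right h2, max_eq_right h1, neg_zero, max_self]
  rw [min_eq_right (a := (0 + η) / 2 - mz) (by linarith), max_eq_right (by linarith)]
  ring

end P073.H345
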