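import Vale.Agent.P073.H936.Prod
import Vale.Agent.P073.H345.PassA

/-!
# P073, H345, PASSW: insertion of a band of variable thickness at a regular level

`kap i b η μ` is the map of the target which moves only the coordinate `i`, is constant on the
vertical segments of half length `μ` over the plane `{y i = b}`, and is the identity for
`η ≤ |y i - b|`.
-/

open Set Metric Topology Filter

namespace P073.H345

open P073 P073.TR P073.H936

variable {E F G : Type*} [NormedAddCommGroup E] [NormedSpace ℝ E]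
  [NormedAddCommGroup F] [NormedSpace ℝ F] [NormedAddCommGroup G] [NormedSpace ℝ G]

/-- continuous and conical on `X` -/
structure CC (f : E → F) (X : Set E) : Prop where
  cont : ContinuousOn f X
  con : ConicalOn f X

namespace CC

variable {X : Set E} {Y : Set F}

theorem mono {X' : Set E} {f : E → F} (h : CC f X) (hX : ConicalSet X') (hsub : X' ⊆ X) :
    CC f X' := ⟨h.cont.mono hsub, h.con.mono hX hsub⟩

theorem congr {f g : E → F} (h : CC f X) (he : EqOn g f X) : CC g X :=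
  ⟨h.cont.congr he, h.con.congr he⟩

theorem comp {g : F → G} {f : E → F} (hg : CC g Y) (hf : CC f X) (hm : MapsTo f X Y) :
    CC (fun x => g (f x)) X :=
  ⟨hg.cont.comp hf.cont hm, hg.con.comp hf.con hm hf.cont⟩

theorem const (c : F) (hX : ConicalSet X) : CC (fun _ : E => c) X :=
  ⟨continuousOn_const, conicalOn_const c hX⟩

theorem add {f g : E → F} (hf : CC f X) (hg : CC g X) : CC (fun x => f x + g x) X :=
  ⟨hf.cont.add hg.cont, hf.con.add hg.con⟩

theorem sub {f g : E → F} (hf : CC f X) (hg : CC g X) : CC (fun x => f x - g x) X :=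
  ⟨hf.cont.sub hg.cont, hf.con.sub hg.con⟩

theorem neg {f : E → F} (hf : CC f X) : CC (fun x => - f x) X :=
  ⟨hf.cont.neg, hf.con.neg⟩

theorem mul_left {f : E → ℝ} (c : ℝ) (hf : CC f X) : CC (fun x => c * f x) X :=
  ⟨continuousOn_const.mul hf.cont, hf.con.const_smul c⟩

theorem div_right {f : E → ℝ} (c : ℝ) (hf : CC f X) : CC (fun x => f x / c) X :=
  (hf.mul_left c⁻¹).congr fun x _ => by simp only; rw [div_eq_inv_mul]

theorem max {f g : E → ℝ} (hf : CC f X) (hg : CC g X) : CC (fun x => Max.max (f x) (g x)) X :=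
  ⟨hf.cont.sup hg.cont, hf.con.rmax hg.con hf.cont hg.cont⟩

theorem min {f g : E → ℝ} (hf : CC f X) (hg : CC g X) : CC (fun x => Min.min (f x) (g x)) X :=
  ⟨hf.cont.inf hg.cont, hf.con.rmin hg.con hf.cont hg.cont⟩

theorem prodMk {f : E → F} {g : E → G} (hf : CC f X) (hg : CC g X) :
    CC (fun x => (f x, g x)) X := ⟨hf.cont.prodMk hg.cont, hf.con.prodMk hg.con⟩

theorem pi {κ : Type*} [Fintype κ] {f : E → κ → ℝ} (hX : ConicalSet X)
    (h : ∀ j, CC (fun x => f x j) X) : CC f X :=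
  ⟨continuousOn_pi.2 fun j => (h j).cont, fun x hx => conicalWithinAt_pi (hX x hx)
    fun j => (h j).con x hx⟩

theorem apply {κ : Type*} [Fintype κ] {f : E → κ → ℝ} (h : CC f X) (j : κ) :
    CC (fun x => f x j) X :=
  ⟨(continuous_apply j).comp_continuousOn h.cont,
    h.con.linear_comp (LinearMap.proj j : (κ → ℝ) →ₗ[ℝ] ℝ)⟩

theorem ph {f g : E → ℝ} {η : ℝ} (hX : ConicalSet X) (hf : CC f X) (hg : CC g X) :
    CC (fun x => H345.ph η (f x) (g x)) X := by
  have h0 : CC (fun _ : E => (0:ℝ)) X := const 0 hX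
  have hη : CC (fun _ : E => η) X := const η hX
  exact ((hg.max h0).min (h0.max ((hg.sub hf).max ((hg.mul_left 2).sub hη)))).sub
    ((hg.neg.max h0).min (h0.max ((hg.neg.sub hf).max ((hg.neg.mul_left 2).sub hη))))

theorem dd {a b c d e : E → ℝ} {η : ℝ} (hX : ConicalSet X) (ha : CC a X) (hb : CC b X)
    (hc : CC c X) (hd : CC d X) (he : CC e X) :
    CC (fun x => H345.dd η (a x) (b x) (c x) (d x) (e x)) X := by
  have h0 : CC (fun _ : E => (0:ℝ)) X := const 0 hX
  have hη : CC (fun _ : E => η) X := const η hX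
  have hp : CC (fun x => Max.max (d x) 0) X := hd.max h0
  have hn : CC (fun x => Max.max (-d x) 0) X := hd.neg.max h0
  exact ((ha.neg.max (ha.min he)).add
    ((((hp.add hη).div_right 2).sub ha).min ((hp.add hb).sub ha))).add
    ((((hn.add hη).div_right 2).sub ha).neg.max ((hn.neg.add ha).sub hc))

end CC

theorem _root_.P073.ConHomeo.cc {X : Set E} {Y : Set F} (h : ConHomeo X Y) : CC h.toFun X :=
  ⟨h.cont, h.conical⟩

variable {n : ℕ}

/-- insertion map of the target: only the coordinate `i` is changed -/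
noncomputable def kap (i : Fin n) (b η : ℝ) (μ : (Fin n → ℝ) → ℝ) (y : Fin n → ℝ) : Fin n → ℝ :=
  Function.update y i (b + ph η (μ y) (y i - b))

/-- admissible thickness -/
structure Thk (i : Fin n) (η : ℝ) (μ : (Fin n → ℝ) → ℝ) : Prop where
  nonneg : ∀ y, 0 ≤ μ y
  le : ∀ y, μ y ≤ η / 2
  cc : CC μ univ
  indep : ∀ y t, μ (Function.update y i t) = μ y

theorem kap_self (i : Fin n) (b η : ℝ) (μ : (Fin n → ℝ) → ℝ) (y : Fin n → ℝ) :
    kap i b η μ y i = b + ph η (μ y) (y i - b) := Function.update_self _ _ _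

theorem kap_ne {i j : Fin n} (hj : j ≠ i) (b η : ℝ) (μ : (Fin n → ℝ) → ℝ) (y : Fin n → ℝ) :
    kap i b η μ y j = y j := Function.update_of_ne hj _ _

theorem kap_eq_self_of_far {i : Fin n} {b η : ℝ} {μ : (Fin n → ℝ) → ℝ} (hη : 0 < η)
    {y : Fin n → ℝ} (hy : η ≤ |y i - b|) : kap i b η μ y = y := by
  unfold kap
  rw [ph_of_abs_ge hη hy, add_sub_cancel, Function.update_eq_self]

theorem kap_eq_self_of_zero {i : Fin n} {b η : ℝ} {μ : (Fin n → ℝ) → ℝ}
    {y : Fin n → ℝ} (hy : μ y = 0) : kap i b η μ y = y := by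
  unfold kap
  rw [hy, ph_zero_right, add_sub_cancel, Function.update_eq_self]

section band

variable {ι : Type*} {C : Set E} {h : E → Fin n → ℝ} {i : Fin n} {b η : ℝ}
  {μ : (Fin n → ℝ) → ℝ}

/-- the level set -/
abbrev Lv (C : Set E) (h : E → Fin n → ℝ) (i : Fin n) (b : ℝ) : Set E := lev C (fun x => h x i) b

/-- the band -/
abbrev Bn (C : Set E) (h : E → Fin n → ℝ) (i : Fin n) (b η : ℝ) : Set E :=
  band C (fun x => h x i) b η

/-- the product of the level set and the interval -/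
abbrev Pr (C : Set E) (h : E → Fin n → ℝ) (i : Fin n) (b : ℝ) : Set (E × ℝ) :=
  Lv C h i b ×ˢ Icc (-1:ℝ) 1

/-- signed position after the collapse -/
noncomputable def rr (h : E → Fin n → ℝ) (η : ℝ) (μ : (Fin n → ℝ) → ℝ) (q : E × ℝ) : ℝ :=
  ph η (μ (h q.1)) (η * q.2)

/-- the collapsed point -/
noncomputable def cc (h : E → Fin n → ℝ) (η : ℝ) (μ : (Fin n → ℝ) → ℝ) (Γ : E × ℝ → E)
    (q : E × ℝ) : E := Γ (q.1, rr h η μ q / η)

/-- the inserted coordinate -/
noncomputable def dq (h : E → Fin n → ℝ) (η : ℝ) (μ : (Fin n → ℝ) → ℝ) (Γ : E × ℝ → E)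
    (q : E × ℝ) : ℝ :=
  dd η (μ (h q.1)) (μ (h (Γ (q.1, max (rr h η μ q) 0 / η))))
    (μ (h (Γ (q.1, min (rr h η μ q) 0 / η)))) (rr h η μ q) (η * q.2)

/-- the inserted map on the product -/
noncomputable def yy (h : E → Fin n → ℝ) (i : Fin n) (b η : ℝ) (μ : (Fin n → ℝ) → ℝ)
    (Γ : E × ℝ → E) (q : E × ℝ) : Fin n → ℝ :=
  Function.update (h (cc h η μ Γ q)) i (b + dq h η μ Γ q)

/-- the chart of the band -/
structure Cht (C : Set E) (h : E → Fin n → ℝ) (i : Fin n) (b η : ℝ)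
    (Γ : ConHomeo (Pr C h i b) (Bn C h i b η)) : Prop where
  lev : ∀ z ∈ Lv C h i b, ∀ s ∈ Icc (-1:ℝ) 1, h (Γ.toFun (z, s)) i = b + η * s
  zero : ∀ z ∈ Lv C h i b, Γ.toFun (z, 0) = z

variable {Γ : ConHomeo (Pr C h i b) (Bn C h i b η)}

omit [NormedAddCommGroup E] [NormedSpace ℝ E] in
theorem abs_rr_le (hη : 0 < η) {q : E × ℝ} (hq : q.2 ∈ Icc (-1:ℝ) 1) : |rr h η μ q| ≤ η := by
  unfold rr
  refine abs_ph_le.trans ?_
  rw [abs_mul, abs_of_pos hη]
  have := abs_le.2 hq
  nlinarith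

omit [NormedAddCommGroup E] [NormedSpace ℝ E] in
theorem rr_div_mem (hη : 0 < η) {q : E × ℝ} (hq : q.2 ∈ Icc (-1:ℝ) 1) :
    rr h η μ q / η ∈ Icc (-1:ℝ) 1 := by
  have h1 := abs_le.1 (abs_rr_le (h := h) (μ := μ) hη hq)
  constructor
  · rw [le_div_iff₀ hη]; linarith [h1.1]
  · rw [div_le_iff₀ hη]; linarith [h1.2]

omit [NormedAddCommGroup E] [NormedSpace ℝ E] in
theorem maxrr_div_mem (hη : 0 < η) {q : E × ℝ} (hq : q.2 ∈ Icc (-1:ℝ) 1) :
    max (rr h η μ q) 0 / η ∈ Icc (-1:ℝ) 1 := by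
  have h1 := abs_le.1 (abs_rr_le (h := h) (μ := μ) hη hq)
  constructor
  · rw [le_div_iff₀ hη]; linarith [le_max_right (rr h η μ q) 0]
  · rw [div_le_iff₀ hη]
    exact max_le (by linarith [h1.2]) (by linarith)

omit [NormedAddCommGroup E] [NormedSpace ℝ E] in
theorem minrr_div_mem (hη : 0 < η) {q : E × ℝ} (hq : q.2 ∈ Icc (-1:ℝ) 1) :
    min (rr h η μ q) 0 / η ∈ Icc (-1:ℝ) 1 := by
  have h1 := abs_le.1 (abs_rr_le (h := h) (μ := μ) hη hq)
  constructor
  · rw [le_div_iff₀ hη]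
    exact le_min (by linarith [h1.1]) (by linarith)
  · rw [div_le_iff₀ hη]; linarith [min_le_right (rr h η μ q) 0]

/-- the collapse on the product is continuous and conical -/
theorem cc_cc (hη : 0 < η) (hh : CC h C) (hμ : Thk i η μ) :
    CC (cc h η μ Γ.toFun) (Pr C h i b) := by
  have hu : CC (fun x => h x i) C := hh.apply i
  have hLcon : ConicalSet (Lv C h i b) := conicalSet_lev hu.con
  have hPcon : ConicalSet (Pr C h i b) := conicalSet_prod_Icc hLcon _ _
  have hfst : CC (fun q : E × ℝ => q.1) (Pr C h i b) :=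
    ⟨continuous_fst.continuousOn, conicalOn_linear (LinearMap.fst ℝ E ℝ) hPcon⟩
  have hsnd : CC (fun q : E × ℝ => q.2) (Pr C h i b) :=
    ⟨continuous_snd.continuousOn, conicalOn_linear (LinearMap.snd ℝ E ℝ) hPcon⟩
  have hz : CC (fun q : E × ℝ => μ (h q.1)) (Pr C h i b) :=
    hμ.cc.comp (hh.comp hfst fun q hq => hq.1.1) (mapsTo_univ _ _)
  have hrr : CC (rr h η μ) (Pr C h i b) := CC.ph hPcon hz (hsnd.mul_left η)
  have key : CC (fun q : E × ℝ => Γ.toFun (q.1, rr h η μ q / η)) (Pr C h i b) :=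
    CC.comp (Y := Pr C h i b) Γ.cc (hfst.prodMk (hrr.div_right η))
      fun q hq => ⟨hq.1, rr_div_mem hη hq.2⟩
  exact key

/-- the map on the product is continuous and conical -/
theorem yy_cc (hη : 0 < η) (hh : CC h C) (hμ : Thk i η μ) :
    CC (yy h i b η μ Γ.toFun) (Pr C h i b) := by
  have hu : CC (fun x => h x i) C := hh.apply i
  have hLcon : ConicalSet (Lv C h i b) := conicalSet_lev hu.con
  have hPcon : ConicalSet (Pr C h i b) := conicalSet_prod_Icc hLcon _ _
  have hfst : CC (fun q : E × ℝ => q.1) (Pr C h i b) :=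
    ⟨continuous_fst.continuousOn, conicalOn_linear (LinearMap.fst ℝ E ℝ) hPcon⟩
  have hsnd : CC (fun q : E × ℝ => q.2) (Pr C h i b) :=
    ⟨continuous_snd.continuousOn, conicalOn_linear (LinearMap.snd ℝ E ℝ) hPcon⟩
  have hμh : ∀ {f : E × ℝ → E}, CC f (Pr C h i b) → MapsTo f (Pr C h i b) C → CC (fun q => μ (h (f q))) (Pr C h i b) :=
    fun hf hm => hμ.cc.comp (hh.comp hf hm) (mapsTo_univ _ _)
  have hz : CC (fun q : E × ℝ => μ (h q.1)) (Pr C h i b) := hμh hfst fun q hq => hq.1.1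
  have hR : CC (fun q : E × ℝ => η * q.2) (Pr C h i b) := hsnd.mul_left η
  have hrr : CC (rr h η μ) (Pr C h i b) := CC.ph hPcon hz hR
  have h0 : CC (fun _ : E × ℝ => (0:ℝ)) (Pr C h i b) := CC.const 0 hPcon
  have hG : ∀ {t : E × ℝ → ℝ}, CC t (Pr C h i b) → (∀ q ∈ Pr C h i b, t q ∈ Icc (-1:ℝ) 1) →
      CC (fun q => Γ.toFun (q.1, t q)) (Pr C h i b) := fun ht hm =>
    CC.comp (Y := Pr C h i b) Γ.cc (hfst.prodMk ht) fun q hq => ⟨hq.1, hm q hq⟩
  have hGC : ∀ {t : E × ℝ → ℝ}, (∀ q ∈ Pr C h i b, t q ∈ Icc (-1:ℝ) 1) →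
      MapsTo (fun q : E × ℝ => Γ.toFun (q.1, t q)) (Pr C h i b) C := fun {t} hm q hq =>
    (Γ.mapsTo (x := (q.1, t q)) ⟨hq.1, hm q hq⟩).1
  have m0 : ∀ q ∈ Pr C h i b, rr h η μ q / η ∈ Icc (-1:ℝ) 1 := fun q hq => rr_div_mem hη hq.2
  have m1 : ∀ q ∈ Pr C h i b, max (rr h η μ q) 0 / η ∈ Icc (-1:ℝ) 1 := fun q hq => maxrr_div_mem hη hq.2
  have m2 : ∀ q ∈ Pr C h i b, min (rr h η μ q) 0 / η ∈ Icc (-1:ℝ) 1 := fun q hq => minrr_div_mem hη hq.2
  have hc : CC (cc h η μ Γ.toFun) (Pr C h i b) := hG (hrr.div_right η) m0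
  have hcC : MapsTo (cc h η μ Γ.toFun) (Pr C h i b) C := hGC m0
  have hp : CC (fun q => μ (h (Γ.toFun (q.1, max (rr h η μ q) 0 / η)))) (Pr C h i b) :=
    hμh (hG ((hrr.max h0).div_right η) m1) (hGC m1)
  have hn : CC (fun q => μ (h (Γ.toFun (q.1, min (rr h η μ q) 0 / η)))) (Pr C h i b) :=
    hμh (hG ((hrr.min h0).div_right η) m2) (hGC m2)
  have hdq : CC (dq h η μ Γ.toFun) (Pr C h i b) := CC.dd hPcon hz hp hn hrr hR
  refine CC.pi hPcon fun j => ?_
  by_cases hj : j = i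
  · subst hj
    refine ((CC.const b hPcon).add hdq).congr fun q _ => ?_
    simp only [yy, Function.update_self]
  · refine ((hh.comp hc hcC).apply j).congr fun q _ => ?_
    simp only [yy, Function.update_of_ne hj]

/-! ### Pointwise facts -/

/-- the three cases: position of the inserted point -/
structure Fct (C : Set E) (h : E → Fin n → ℝ) (i : Fin n) (b η : ℝ) (μ : (Fin n → ℝ) → ℝ)
    (Γ : E × ℝ → E) (q : E × ℝ) : Prop where
  mem : cc h η μ Γ q ∈ C
  lev : h (cc h η μ Γ q) i = b + rr h η μ q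
  pos : 0 < rr h η μ q → dq h η μ Γ q =
    min (rr h η μ q + μ (h (cc h η μ Γ q))) ((rr h η μ q + η) / 2)
  neg : rr h η μ q < 0 → dq h η μ Γ q =
    - min (- rr h η μ q + μ (h (cc h η μ Γ q))) ((- rr h η μ q + η) / 2)
  zero : rr h η μ q = 0 → cc h η μ Γ q = q.1 ∧ dq h η μ Γ q = η * q.2 ∧ |η * q.2| ≤ μ (h q.1)

theorem fct (hη : 0 < η) (hμ : Thk i η μ) (hΓ : Cht C h i b η Γ) {q : E × ℝ}
    (hq : q ∈ Pr C h i b) : Fct C h i b η μ Γ.toFun q := by
  have m0 := rr_div_mem (h := h) (μ := μ) hη hq.2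
  have hz0 := hμ.nonneg (h q.1)
  have hz1 := hμ.le (h q.1)
  have hcase : ∀ r : ℝ, 0 < ph η (μ (h q.1)) r → μ (h q.1) ≤ r := by
    intro r hr
    by_contra hc
    push Not at hc
    rcases le_total (-μ (h q.1)) r with h1 | h1
    · have := (ph_zero_iff hz0 hz1).2 (abs_le.2 ⟨h1, hc.le⟩)
      linarith
    · have := ph_nonneg (η := η) (m := μ (h q.1)) (r := -r) (by linarith)
      rw [ph_neg] at this
      linarith
  refine ⟨(Γ.mapsTo (x := (q.1, rr h η μ q / η)) ⟨hq.1, m0⟩).1, ?_, ?_, ?_, ?_⟩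
  · rw [cc, hΓ.lev _ hq.1 _ m0]
    field_simp
  · intro hρ
    have h1 : μ (h q.1) ≤ η * q.2 := hcase _ hρ
    have h2 : Γ.toFun (q.1, min (rr h η μ q) 0 / η) = q.1 := by
      rw [min_eq_right hρ.le, zero_div]; exact hΓ.zero _ hq.1
    rw [dq, h2, max_eq_left hρ.le]
    exact dd_pos hz0 hz1 hρ h1 rfl
  · intro hρ
    have h1 : η * q.2 ≤ - μ (h q.1) := by
      have h3 : 0 < ph η (μ (h q.1)) (-(η * q.2)) := by
        rw [ph_neg]; exact neg_pos.2 hρ
      linarith [hcase _ h3]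
    have h2 : Γ.toFun (q.1, max (rr h η μ q) 0 / η) = q.1 := by
      rw [max_eq_right hρ.le, zero_div]; exact hΓ.zero _ hq.1
    rw [dq, h2, min_eq_left hρ.le]
    exact dd_lt hz0 hz1 hρ h1 rfl
  · intro hρ
    have h1 : |η * q.2| ≤ μ (h q.1) := (ph_zero_iff hz0 hz1).1 hρ
    have h2 : cc h η μ Γ.toFun q = q.1 := by
      rw [cc, hρ, zero_div]; exact hΓ.zero _ hq.1
    refine ⟨h2, ?_, h1⟩
    rw [dq, hρ, max_self, min_self, zero_div, hΓ.zero _ hq.1]
    exact dd_zero hz1 h1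

omit [NormedAddCommGroup E] [NormedSpace ℝ E] in
theorem mu_yy (hμ : Thk i η μ) (Γ : E × ℝ → E) (q : E × ℝ) :
    μ (yy h i b η μ Γ q) = μ (h (cc h η μ Γ q)) := hμ.indep _ _

omit [NormedAddCommGroup E] [NormedSpace ℝ E] in
theorem yy_self (Γ : E × ℝ → E) (q : E × ℝ) : yy h i b η μ Γ q i = b + dq h η μ Γ q :=
  Function.update_self _ _ _

/-- the collapse of the inserted point -/
theorem kap_yy (hη : 0 < η) (hμ : Thk i η μ) (hΓ : Cht C h i b η Γ) {q : E × ℝ}
    (hq : q ∈ Pr C h i b) : kap i b η μ (yy h i b η μ Γ.toFun q) = h (cc h η μ Γ.toFun q) := by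
  have hf := fct hη hμ hΓ hq
  have habs := abs_le.1 (abs_rr_le (h := h) (μ := μ) hη hq.2)
  have key : ph η (μ (h (cc h η μ Γ.toFun q))) (dq h η μ Γ.toFun q) = rr h η μ q := by
    rcases lt_trichotomy (rr h η μ q) 0 with hρ | hρ | hρ
    · rw [hf.neg hρ, ph_neg, ph_branch (hμ.nonneg _) (by linarith) (by linarith [habs.1])]
      ring
    · obtain ⟨h1, h2, h3⟩ := hf.zero hρ
      rw [h1, h2, hρ]
      exact (ph_zero_iff (hμ.nonneg _) (hμ.le _)).2 h3
    · rw [hf.pos hρ, ph_branch (hμ.nonneg _) hρ habs.2]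
  unfold kap
  rw [mu_yy hμ, yy_self, add_sub_cancel_left, key, ← hf.lev, yy, Function.update_idem,
    Function.update_eq_self]

theorem yy_injOn (hη : 0 < η) (hμ : Thk i η μ) (hΓ : Cht C h i b η Γ) (hinj : InjOn h C) :
    InjOn (yy h i b η μ Γ.toFun) (Pr C h i b) := by
  intro q hq q' hq' he
  have hf := fct hη hμ hΓ hq
  have hf' := fct hη hμ hΓ hq'
  have h1 : cc h η μ Γ.toFun q = cc h η μ Γ.toFun q' := by
    apply hinj hf.mem hf'.mem
    rw [← kap_yy hη hμ hΓ hq, he, kap_yy hη hμ hΓ hq']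
  have e1 : ((q.1, rr h η μ q / η) : E × ℝ) ∈ Pr C h i b := ⟨hq.1, rr_div_mem hη hq.2⟩
  have e2 : ((q'.1, rr h η μ q' / η) : E × ℝ) ∈ Pr C h i b := ⟨hq'.1, rr_div_mem hη hq'.2⟩
  have h2 : ((q.1, rr h η μ q / η) : E × ℝ) = (q'.1, rr h η μ q' / η) := Γ.injOn e1 e2 h1
  obtain ⟨h3, h4⟩ := Prod.mk.inj h2
  have h5 : rr h η μ q = rr h η μ q' := by
    have := hη.ne'
    field_simp at h4
    exact h4
  have h6 : η * q.2 = η * q'.2 := by
    rcases lt_trichotomy (rr h η μ q) 0 with hρ | hρ | hρ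
    · -- invert the branch
      have key : ∀ q : E × ℝ, q ∈ Pr C h i b → rr h η μ q < 0 →
          η * q.2 = - min (- rr h η μ q + μ (h q.1)) ((- rr h η μ q + η) / 2) := by
        intro q hq hρ
        have hz0 := hμ.nonneg (h q.1)
        have hlt : μ (h q.1) < -(η * q.2) := by
          by_contra hc
          push Not at hc
          rcases le_total (-(η * q.2)) (-μ (h q.1)) with h7 | h7
          · have := ph_nonneg (η := η) (m := μ (h q.1)) (r := η * q.2) (by linarith)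
            unfold rr at hρ; linarith
          · have : ph η (μ (h q.1)) (-(η * q.2)) = 0 :=
              (ph_zero_iff hz0 (hμ.le _)).2 (abs_le.2 ⟨h7, hc⟩)
            rw [ph_neg] at this
            unfold rr at hρ; linarith
        have h8 := branch_ph (η := η) hz0 (hμ.le _) hlt (by nlinarith [hq.2.1])
        rw [ph_neg] at h8
        unfold rr
        linarith
      rw [key q hq hρ, key q' hq' (h5 ▸ hρ), h5, h3]
    · obtain ⟨-, h7, -⟩ := hf.zero hρ
      obtain ⟨-, h8, -⟩ := hf'.zero (h5 ▸ hρ)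
      rw [← h7, ← h8]
      have := congrFun he i
      rw [yy_self, yy_self] at this
      linarith
    · have key : ∀ q : E × ℝ, q ∈ Pr C h i b → 0 < rr h η μ q →
          η * q.2 = min (rr h η μ q + μ (h q.1)) ((rr h η μ q + η) / 2) := by
        intro q hq hρ
        have hz0 := hμ.nonneg (h q.1)
        have hlt : μ (h q.1) < η * q.2 := by
          by_contra hc
          push Not at hc
          rcases le_total (η * q.2) (-μ (h q.1)) with h7 | h7
          · have := ph_nonneg (η := η) (m := μ (h q.1)) (r := -(η * q.2)) (by linarith)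
            rw [ph_neg] at this
            unfold rr at hρ; linarith
          · have : ph η (μ (h q.1)) (η * q.2) = 0 :=
              (ph_zero_iff hz0 (hμ.le _)).2 (abs_le.2 ⟨h7, hc⟩)
            unfold rr at hρ; linarith
        exact (branch_ph (η := η) hz0 (hμ.le _) hlt (by nlinarith [hq.2.2])).symm
      rw [key q hq hρ, key q' hq' (h5 ▸ hρ), h5, h3]
  exact Prod.ext h3 (mul_left_cancel₀ hη.ne' h6)

/-- surjectivity onto the preimage of the band -/
theorem exists_yy (hη : 0 < η) (hμ : Thk i η μ) (hΓ : Cht C h i b η Γ) {y : Fin n → ℝ} {x : E}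
    (hx : x ∈ Bn C h i b η) (hy : kap i b η μ y = h x) :
    ∃ q ∈ Pr C h i b, yy h i b η μ Γ.toFun q = y ∧ cc h η μ Γ.toFun q = x := by
  obtain ⟨⟨z, τ⟩, ⟨hz, hτ⟩, rfl⟩ : x ∈ Γ.toFun '' Pr C h i b := by rw [Γ.image_eq]; exact hx
  simp only at hz hτ
  have hlev := hΓ.lev z hz τ hτ
  have hμy : μ y = μ (h (Γ.toFun (z, τ))) := by
    rw [← hy]; exact (hμ.indep _ _).symm
  have hyi : ph η (μ y) (y i - b) = η * τ := by
    have := congrFun hy i
    rw [kap_self, hlev] at this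
    linarith
  have hz0 := hμ.nonneg (h z)
  have hz1 := hμ.le (h z)
  have hfin : ∀ s ∈ Icc (-1:ℝ) 1, rr h η μ (z, s) = η * τ →
      dq h η μ Γ.toFun (z, s) = y i - b → ∃ q ∈ Pr C h i b, yy h i b η μ Γ.toFun q = y ∧
        cc h η μ Γ.toFun q = Γ.toFun (z, τ) := by
    intro s hs h1 h2
    have h3 : cc h η μ Γ.toFun (z, s) = Γ.toFun (z, τ) := by
      rw [cc, h1, mul_div_cancel_left₀ _ hη.ne']
    refine ⟨(z, s), ⟨hz, hs⟩, ?_, h3⟩
    rw [yy, h3, h2, add_sub_cancel, ← hy, kap, Function.update_idem, Function.update_eq_self]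
  rcases lt_trichotomy τ 0 with ht | ht | ht
  · -- negative side
    have hητ : η * τ < 0 := mul_neg_of_pos_of_neg hη ht
    have hητ1 : -(η * τ) ≤ η := by nlinarith [hτ.1]
    set R := min (-(η * τ) + μ (h z)) ((-(η * τ) + η) / 2) with hR
    have hR0 : 0 ≤ R := le_min (by linarith) (by linarith)
    have hR1 : R ≤ η := (min_le_right _ _).trans (by linarith)
    have hs : -R / η ∈ Icc (-1:ℝ) 1 := by
      constructor
      · rw [le_div_iff₀ hη]; linarith
      · rw [div_le_iff₀ hη]; linarith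
    have h1 : rr h η μ (z, -R / η) = η * τ := by
      unfold rr
      simp only
      rw [mul_div_cancel₀ _ hη.ne', ph_neg, hR, ph_branch hz0 (by linarith) hητ1]
      ring
    refine hfin _ hs h1 ?_
    have hf := fct hη hμ hΓ (q := (z, -R / η)) ⟨hz, hs⟩
    have h3 : cc h η μ Γ.toFun (z, -R / η) = Γ.toFun (z, τ) := by
      rw [cc, h1, mul_div_cancel_left₀ _ hη.ne']
    rw [hf.neg (by rw [h1]; exact hητ), h1, h3, ← hμy]
    have hlt : μ y < -(y i - b) := by
      by_contra hc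
      push Not at hc
      rcases le_total (-(y i - b)) (-μ y) with h7 | h7
      · have := ph_nonneg (η := η) (m := μ y) (r := y i - b) (by linarith [hμ.nonneg y])
        linarith
      · have : ph η (μ y) (-(y i - b)) = 0 :=
          (ph_zero_iff (hμ.nonneg _) (hμ.le _)).2 (abs_le.2 ⟨h7, hc⟩)
        rw [ph_neg] at this
        linarith
    have hle : -(y i - b) ≤ η := by
      by_contra hc
      push Not at hc
      have := ph_of_ge (m := μ y) hη hc.le
      rw [ph_neg] at this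
      linarith
    have h8 := branch_ph (η := η) (hμ.nonneg y) (hμ.le y) hlt hle
    rw [ph_neg, hyi] at h8
    linarith
  · subst ht
    rw [mul_zero] at hyi
    have h1 : |y i - b| ≤ μ y := (ph_zero_iff (hμ.nonneg _) (hμ.le _)).1 hyi
    have hzz : Γ.toFun (z, 0) = z := hΓ.zero z hz
    rw [hzz] at hμy
    obtain ⟨h2, h3⟩ := abs_le.1 h1
    have hμη := hμ.le y
    have hs : (y i - b) / η ∈ Icc (-1:ℝ) 1 := by
      constructor
      · rw [le_div_iff₀ hη]; linarith
      · rw [div_le_iff₀ hη]; linarith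
    have h4 : rr h η μ (z, (y i - b) / η) = 0 := by
      unfold rr
      simp only
      rw [mul_div_cancel₀ _ hη.ne']
      exact (ph_zero_iff hz0 hz1).2 (hμy ▸ h1)
    refine hfin _ hs (by rw [h4, mul_zero]) ?_
    have hf := fct hη hμ hΓ (q := (z, (y i - b) / η)) ⟨hz, hs⟩
    rw [(hf.zero h4).2.1]
    exact mul_div_cancel₀ _ hη.ne'
  · have hητ : 0 < η * τ := mul_pos hη ht
    have hητ1 : η * τ ≤ η := by nlinarith [hτ.2]
    set R := min (η * τ + μ (h z)) ((η * τ + η) / 2) with hR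
    have hR0 : 0 ≤ R := le_min (by linarith) (by linarith)
    have hR1 : R ≤ η := (min_le_right _ _).trans (by linarith)
    have hs : R / η ∈ Icc (-1:ℝ) 1 := by
      constructor
      · rw [le_div_iff₀ hη]; linarith
      · rw [div_le_iff₀ hη]; linarith
    have h1 : rr h η μ (z, R / η) = η * τ := by
      unfold rr
      simp only
      rw [mul_div_cancel₀ _ hη.ne', hR, ph_branch hz0 hητ hητ1]
    refine hfin _ hs h1 ?_
    have hf := fct hη hμ hΓ (q := (z, R / η)) ⟨hz, hs⟩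
    have h3 : cc h η μ Γ.toFun (z, R / η) = Γ.toFun (z, τ) := by
      rw [cc, h1, mul_div_cancel_left₀ _ hη.ne']
    rw [hf.pos (by rw [h1]; exact hητ), h1, h3, ← hμy]
    have hlt : μ y < y i - b := by
      by_contra hc
      push Not at hc
      rcases le_total (y i - b) (-μ y) with h7 | h7
      · have := ph_nonneg (η := η) (m := μ y) (r := -(y i - b)) (by linarith [hμ.nonneg y])
        rw [ph_neg] at this
        linarith
      · have : ph η (μ y) (y i - b) = 0 :=
          (ph_zero_iff (hμ.nonneg _) (hμ.le _)).2 (abs_le.2 ⟨h7, hc⟩)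
        linarith
    have hle : y i - b ≤ η := by
      by_contra hc
      push Not at hc
      have := ph_of_ge (m := μ y) hη hc.le
      linarith
    have h8 := branch_ph (η := η) (hμ.nonneg y) (hμ.le y) hlt hle
    rw [hyi] at h8
    exact h8

end band

end P073.H345
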