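import Vale.Agent.P073.H190.TvSlot

/-!
# P073, H345, **[TV-ROW]**: 190's estimate of the edges, with the weights of the crossings, over the
slots of `H880.TopN`

`row_tvn`: if the stages respect the slots, then a function `g` on an edge, with the local control
`CtlAt3` at all points, has variation at most `c * ∑ TV (f i) + c' * len (h, e) + dl e + ee`.
-/

open Set Metric Topology Filter
open scoped ENNReal

set_option linter.unusedSectionVars false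

namespace Vale.Agent.P073.H345W

open _root_.P073 _root_.P073.Net _root_.P073.PA691 _root_.P073.H236 _root_.P073.H579
open _root_.P073.H345 (PK tg PLev)
open _root_.P073.H880.RP
open _root_.P073.H190 (IsS2 PT2)
open Vale.Agent.P073.St (V)
open Vale.Agent.P073.H471 Vale.Agent.P073.H267
open Vale.Agent.P073.H73 (Mesh)
open Vale.Agent.P073.H193 (Edges Cyc edges)
open Vale.Agent.P073.H926
open Vale.Agent.P073.H238.K3
open Vale.Agent.P073.H267.K3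
open Vale.Agent.P073.H190.Tvp
open Vale.Agent.P073.Top880
open _root_.P073.Croft (levs onS cross)
open _root_.P073.Net (cnt)
open _root_.P073.H267 (tvE lenE)

variable {c₀ n δ : ℝ} {j : ℕ} {Ω Λ : Set V} {v w : V} {ρ : V → ℝ} {M : Mesh Ω} {h : ConHomeo Ω Λ}
  {J₀ J : Set (ℕ × (Fin 3 → ℤ))} {P Z : Set M.ι} {K : BoxCx Λ w}
  {D : KIn3 c₀ n j δ v w ρ M h J₀ J P Z} {C : Cells ρ w K} {C₀ μT : ℝ}

/-- the field of ROUND T -/
theorem tvg_of (X : S1 D C C₀ μT) : Tvg D C (edges M) C₀ X.εe X.h1 := X.out.tvg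

/-- the sub-windows, from the slots -/
theorem subW_of_ok {Ys : Set M.κ} {sc : Sharp} {S : Slots D C C₀ μT Ys sc} {N : RTn M C J₀}
    {X : S1 D C C₀ μT} {Y₂ : S2 X} {Y₃ : S3 Y₂ Ys sc} (O : Ok3 S N Y₃) :
    SubW X Y₂ fun s => 512 * ω3S δ C s :=
  subW_of O.J O.fat fun s β => by rw [O.Jn]

/-- **the estimate of the edges**: all edges, all functions with the local control -/
def TvRow {X : S1 D C C₀ μT} {Y₂ : S2 X} {Ys : Set M.κ} {sc : Sharp} (Y₃ : S3 Y₂ Ys sc)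
    (A A' : ℝ) (ι₀ dl : (edges M).ε → ℝ) : Prop :=
  ∃ (γ : (edges M).ε → ℝ → ℝ) (c₁ : (edges M).ε → ℝ), ∀ e,
    ArcP Y₂.L (D.dat C).S₀ Y₃.c Y₃.c0 Y₃.c1 Y₃.F Y₃.T3 Y₃.κ
      (fun s => (D.dat C).PE (D.G C) s.1)
      (onS Y₂.h2.toFun ((edges M).a e) ((edges M).b e))
      (onS X.h1.toFun ((edges M).a e) ((edges M).b e))
      (onS Y₃.h3.toFun ((edges M).a e) ((edges M).b e)) (γ e) (c₁ e) ∧
    ∀ i' ee : ℝ, 0 ≤ i' → i' ≤ ι₀ e → 0 ≤ ee →
    ∀ {ζ : Type} (I : Finset ζ) (f : ζ → ℝ → ℝ) (g : ℝ → ℝ),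
    (∀ t ∈ Icc (0:ℝ) 1, CtlAt3 (D.G C) Y₃.F (fun _ s => Y₂.muP s.1)
      (fun s => 4096 * Y₂.muP s.1 / (D.B C).τ s.1)
      (fun s : (D.dat C).S₀ => (D.dat C).PE (D.G C) s.1)
      (onS Y₂.h2.toFun ((edges M).a e) ((edges M).b e))
      (onS X.h1.toFun ((edges M).a e) ((edges M).b e))
      (onS Y₃.h3.toFun ((edges M).a e) ((edges M).b e)) (γ e)
      (ArcP.H Y₃.T2 (onS Y₃.h3.toFun ((edges M).a e) ((edges M).b e))) A A' i' ee I f g t) →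
    eVariationOn g (Icc 0 1) ≤
      ENNReal.ofReal (20 + 10 * A + 18 * A') * ∑ i ∈ I, eVariationOn (f i) (Icc 0 1) +
      ENNReal.ofReal ((A + A' + 2) * (250 * C₀)) * lenE (edges M) h.toFun e +
      ENNReal.ofReal (dl e + ee)

/-- 190's estimate and the weights -/
theorem tvRow_of {X : S1 D C C₀ μT} {Y₂ : S2 X} {A A' : ℝ} {dl : (edges M).ε → ℝ}
    (H : SubW X Y₂ fun s => 512 * ω3S δ C s) (hA : 0 ≤ A) (hA' : 0 ≤ A')
    (hdl : ∀ e, 0 < dl e)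
    (hεE : ∀ e, Y₂.εE e ≤ X.εe e) (hεe : ∀ e, X.εe e ≤ dl e / (700 * (A + A' + 2)))
    {ι₀ : (edges M).ε → ℝ}
    {Ys : Set M.κ} {sc : Sharp} (Y₃ : S3 Y₂ Ys sc)
    (HT : ∃ (γ : (edges M).ε → ℝ → ℝ) (c₁ : (edges M).ε → ℝ), ∀ e,
      S3.TvE Y₂ Y₃ A A' (ι₀ e) (dl e / 2) (γ e) (c₁ e) e) : TvRow Y₃ A A' ι₀ dl := by
  obtain ⟨γ, c₁, H1⟩ := HT
  refine ⟨γ, c₁, fun e => ⟨(H1 e).1, ?_⟩⟩
  intro i' ee hi0 hi1 hee ζ I f g hg
  have h1 := (H1 e).2 i' ee hi0 hi1 hee I f g hg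
  refine h1.trans ?_
  have h2 := s2_hcnt H (tvg_of X) e
  have hdle := hdl e
  have hpos : 0 < 700 * (A + A' + 2) := by positivity
  have hεe0 : 0 ≤ X.εe e := (X.εe0 e).le
  have hEE0 : 0 ≤ Y₂.εE e := (Y₂.εE0 e).le
  have h3 : ENNReal.ofReal (A + A' + 2) * ∑' o : (D.dat C).S₀ × Bool,
        ENNReal.ofReal (Y₂.L.om o.1.1 o.2) *
          cnt (cross (onS Y₂.h2.toFun ((edges M).a e) ((edges M).b e))
          (tg o.1.1 o.2) (levs (Y₂.L.N o.1.1 o.2) (Y₂.L.a o.1.1 o.2)) (PK (D.G C) o.1.1)) ≤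
      ENNReal.ofReal ((A + A' + 2) * (250 * C₀)) * lenE (edges M) h.toFun e +
        ENNReal.ofReal (dl e / 2) := by
    refine (mul_le_mul' le_rfl h2).trans ?_
    rw [mul_add, ← mul_assoc, ← ENNReal.ofReal_mul (by positivity),
      ← ENNReal.ofReal_mul (by positivity)]
    refine add_le_add le_rfl (ENNReal.ofReal_le_ofReal ?_)
    have h4 : X.εe e * (700 * (A + A' + 2)) ≤ dl e := by
      rw [← le_div_iff₀ hpos]
      exact hεe e
    have h5 := hεE e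
    have h6 : (A + A' + 2) * Y₂.εE e ≤ (A + A' + 2) * X.εe e :=
      mul_le_mul_of_nonneg_left h5 (by positivity)
    nlinarith
  have h7 : ENNReal.ofReal (dl e / 2 + ee) = ENNReal.ofReal (dl e / 2) + ENNReal.ofReal ee :=
    ENNReal.ofReal_add (by linarith) hee
  have h8 : ENNReal.ofReal (dl e + ee) = ENNReal.ofReal (dl e / 2) + (ENNReal.ofReal (dl e / 2) +
      ENNReal.ofReal ee) := by
    rw [← h7, ← ENNReal.ofReal_add (by linarith) (by linarith)]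
    congr 1
    ring
  rw [h8, h7]
  refine (add_le_add (add_le_add le_rfl h3) le_rfl).trans (le_of_eq ?_)
  ring

/-- **[TV-ROW]** -/
theorem row_tvn (D : KIn3 c₀ n j δ v w ρ M h J₀ J P Z) (C : Cells ρ w K) (C₀ μT : ℝ)
    (Ys : Set M.κ) (sc : Sharp) {A A' : ℝ} (hA : 0 ≤ A) (hA' : 0 ≤ A')
    {dl : (edges M).ε → ℝ} (hdl : ∀ e, 0 < dl e) :
    ∃ (S : Slots D C C₀ μT Ys sc) (ι₀ : ∀ {X : S1 D C C₀ μT}, S2 X → (edges M).ε → ℝ),
      (∀ {X : S1 D C C₀ μT} (Y₂ : S2 X) e, 0 < ι₀ Y₂ e) ∧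
      ∀ {N : RTn M C J₀} {X : S1 D C C₀ μT} {Y₂ : S2 X} {Y₃ : S3 Y₂ Ys sc}, Ok3 S N Y₃ →
        TvRow Y₃ A A' (ι₀ Y₂) dl := by
  have hdl2 : ∀ e, 0 < dl e / 2 := fun e => half_pos (hdl e)
  have hpos : 0 < 700 * (A + A' + 2) := by positivity
  obtain ⟨S, HS⟩ := row_tv D C C₀ μT Ys sc hA hA' hdl2
  let S' : Slots D C C₀ μT Ys sc :=
    { (Slots.one : Slots D C C₀ μT Ys sc) with
      εe := fun e => dl e / (700 * (A + A' + 2))
      εe0 := fun e => div_pos (hdl e) hpos }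
  refine ⟨S.inf S', fun Y₂ => Y₂.tvι A A' fun e => dl e / 2,
    fun Y₂ e => Y₂.tvι_pos A A' _ e, ?_⟩
  intro N X Y₂ Y₃ O
  exact tvRow_of (subW_of_ok O) hA hA' hdl O.εE' (O.mono (S.inf_right S')).εe Y₃
    (HS (O.mono (S.inf_left S')))

end Vale.Agent.P073.H345W
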