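import Vale.Agent.P073.H687.PL4D

/-!
# P073, H345: **[WE3]**, the sub-windows of the levels of ROUND P

`jnM G r Q s β`: all pairs of a left end (`slo + a` or `q + r s`) and a right end (`shi - a` or
`q - r s`), `q` a marked point.
-/

open Set Metric Topology Filter

namespace Vale.Agent.P073.H345W

open _root_.P073 _root_.P073.Net _root_.P073.PA691
open Vale.Agent.P073.St (V)
open Vale.Agent.P073.H471 (Rad Wid Boxes)
open Vale.Agent.P073.H267
open _root_.P073.H345 (tg)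

variable {Λ : Set V} {v : V} {K : BoxCx Λ v} {S₀ : Rad K} {Wd : Wid K S₀} {B : Boxes Wd}

open Classical in
/-- the sub-windows between the marked points -/
noncomputable def jnM (G : Geo B) (r : K.S → ℝ) (Q : K.S → Bool → Finset ℝ) (s : K.S) (β : Bool) :
    Finset (ℝ × ℝ) :=
  (insert (K.slo s (tg s β) + G.a s) ((Q s β).image fun q => q + r s)) ×ˢ
    (insert (K.shi s (tg s β) - G.a s) ((Q s β).image fun q => q - r s))

variable {G : Geo B} {r : K.S → ℝ} {Q : K.S → Bool → Finset ℝ} {s : K.S} {β : Bool}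

theorem card_jnM {m : ℕ} (hQ : (Q s β).card ≤ m) : (jnM G r Q s β).card ≤ (m + 1) ^ 2 := by
  classical
  unfold jnM
  rw [Finset.card_product, pow_two]
  have h1 : ∀ f : ℝ → ℝ, ∀ a : ℝ, (insert a ((Q s β).image f)).card ≤ m + 1 := fun f a =>
    (Finset.card_insert_le _ _).trans (by
      have := Finset.card_image_le (s := Q s β) (f := f)
      omega)
  exact Nat.mul_le_mul (h1 _ _) (h1 _ _)

/-- **the sub-window of a point** which avoids the marked points -/
theorem exists_jnM {t : ℝ} (h1 : K.slo s (tg s β) + G.a s ≤ t)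
    (h2 : t ≤ K.shi s (tg s β) - G.a s)
    (hq : ∀ q ∈ Q s β, t ≤ q - r s ∨ q + r s ≤ t) :
    ∃ p ∈ jnM G r Q s β, p.1 ≤ t ∧ t ≤ p.2 ∧ K.slo s (tg s β) + G.a s ≤ p.1 ∧
      p.2 ≤ K.shi s (tg s β) - G.a s ∧ ∀ q ∈ Q s β, q + r s ≤ p.1 ∨ p.2 ≤ q - r s := by
  classical
  set A := (insert (K.slo s (tg s β) + G.a s) ((Q s β).image fun q => q + r s)).filter
    (fun x => x ≤ t) with hA
  set A' := (insert (K.shi s (tg s β) - G.a s) ((Q s β).image fun q => q - r s)).filter
    (fun x => t ≤ x) with hA'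
  have hAne : (K.slo s (tg s β) + G.a s) ∈ A :=
    Finset.mem_filter.2 ⟨Finset.mem_insert_self _ _, h1⟩
  have hA'ne : (K.shi s (tg s β) - G.a s) ∈ A' :=
    Finset.mem_filter.2 ⟨Finset.mem_insert_self _ _, h2⟩
  have hm := Finset.max'_mem A ⟨_, hAne⟩
  have hm' := Finset.min'_mem A' ⟨_, hA'ne⟩
  refine ⟨(A.max' ⟨_, hAne⟩, A'.min' ⟨_, hA'ne⟩), Finset.mem_product.2
    ⟨(Finset.mem_filter.1 hm).1, (Finset.mem_filter.1 hm').1⟩, (Finset.mem_filter.1 hm).2,
    (Finset.mem_filter.1 hm').2, Finset.le_max' _ _ hAne, Finset.min'_le _ _ hA'ne, ?_⟩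
  intro q hqQ
  rcases hq q hqQ with h3 | h3
  · right
    have h4 : q - r s ∈ A' := Finset.mem_filter.2
      ⟨Finset.mem_insert_of_mem (Finset.mem_image.2 ⟨q, hqQ, rfl⟩), h3⟩
    exact Finset.min'_le A' _ h4
  · left
    have h4 : q + r s ∈ A := Finset.mem_filter.2
      ⟨Finset.mem_insert_of_mem (Finset.mem_image.2 ⟨q, hqQ, rfl⟩), h3⟩
    exact Finset.le_max' A _ h4

end Vale.Agent.P073.H345W
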