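import Vale.Agent.P073.H345.PStage2
import Vale.Agent.P073.H805.RinT

/-!
# P073, H345, **ROUND P, the insertion step** with the good maps of H579 and H155

`exists_insP`: `exists_stage2P` with `GEP`; the shared edges are H155's `ge_shared`, the own edges
H579's `PAct.hedge`.  `exists_insP_gfp`: with `GFP` (H579's `PAct.hface`).
`nrm_PK`: the position of the faces near the plates, from the output of round T.
-/

open Set Metric Topology Filter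

namespace P073.H345

open _root_.P073 _root_.P073.Net _root_.P073.PA691 _root_.P073.H236 _root_.P073.H579
open Vale.Agent.P073.St (V)
open Vale.Agent.P073.H471 Vale.Agent.P073.H267 Vale.Agent.P073.H267.Geo
open Vale.Agent.P073.H805 (RIn ROut)
open Vale.Agent.P073.H73 (Mesh)
open Vale.Agent.P073.H193 (Edges Cyc)
open Vale.Agent.P073.H155 (vv)

section

variable {Ω Λ : Set V} {v : V} {K : BoxCx Λ v} {S : Rad K} {W : Wid K S} {B : Boxes W}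
  {G : Geo B} {L : PLev G} {M : Mesh Ω} {E : Edges M} {h h1 h2 : ConHomeo Ω Λ}

/-- the insertion map of round P -/
theorem exists_kappaP (L : PLev G) (hΛ : IsOpen Λ) : ∃ κ₀ κ₁ : V → V, IsQ (L.bx false) κ₀ ∧
    IsQ (L.bx true) κ₁ ∧ InsMap κ₀ Λ Λ ∧ InsMap κ₁ Λ Λ ∧ InsMap (κ₁ ∘ κ₀) Λ Λ := by
  obtain ⟨κ₀, h0, i0, -⟩ := (L.fam hΛ false).exists_isQ
  obtain ⟨κ₁, h1, i1, -⟩ := (L.fam hΛ true).exists_isQ
  exact ⟨κ₀, κ₁, h0, h1, i0, i1, insMap_comp i1 i0⟩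

/-- **shared edges** -/
theorem gep_shared {ω : TBx K → ℝ} {O : M.κ → V} {LaT : E.ε → ℝ} {Lf : M.κ → E.ε → ℝ}
    {Lam1 : M.κ → ℝ} {sl : TBx K → Finset (ℝ × ℝ)} {Pr : Set M.ι}
    (HT : T3Out G M E h h1 ω O LaT Lf Lam1 sl) (HR : RIn G M h1 Pr univ L.lv E)
    (HO : ROut G M h1 h2 Pr univ L.lv E) (hband : H155.BandP L sl) {l : M.κ}
    (hl : l ∉ Peel G M h1) {e : E.ε} (hel : E.seg e ⊆ M.F l) {La mu : E.ε → ℝ}
    (hLa : ∀ s β t, L.omP s (tg s β) t * LaT e ≤ L.c s β * La e) :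
    GEP E h2 (AkP G M h1 univ) L.kP L.lv L.loP L.hiP L.omP La mu e h1.toFun := by
  rintro s ⟨k, hk, hek⟩
  obtain ⟨s1, s2, s3, s4, h3⟩ := H155.ge_shared HT HR HO hband (mem_univ k) hk.2
    (fun x hx s' => not_peel hl hx s') hek hel (hLa s)
  refine ⟨s1, s2, s3, s4, h3, fun hown => ?_⟩
  obtain ⟨s', hs'⟩ := hown l hel
  exact absurd ⟨s', hs'⟩ hl

/-- **ROUND P, the insertion step**; `GF`: any good face maps -/
theorem exists_insP (hΩ : IsOpen Ω) {ω : TBx K → ℝ} {O : M.κ → V} {LaT : E.ε → ℝ}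
    {Lf : M.κ → E.ε → ℝ} {Lam1 : M.κ → ℝ} {sl : TBx K → Finset (ℝ × ℝ)} {Pr : Set M.ι}
    (HT : T3Out G M E h h1 ω O LaT Lf Lam1 sl) (hends : Ends G sl)
    (hn : ∀ k, ∀ x ∈ M.F k, ∀ s, h1.toFun x ∈ PK G s →
      |h1.toFun x (K.nrm s) - K.slo s (K.nrm s)| ≤ B.τ s / 4)
    (HR : RIn G M h1 Pr univ L.lv E) (HO : ROut G M h1 h2 Pr univ L.lv E)
    (hband : H155.BandP L sl) {κ₀ κ₁ : V → V} (i₀ : IsQ (L.bx false) κ₀)
    (i₁ : IsQ (L.bx true) κ₁) (hI : InsMap (κ₁ ∘ κ₀) Λ Λ) {La We mu : E.ε → ℝ}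
    (hmu : ∀ e, mu e ∈ Ioc (0:ℝ) (1 / 4)) (hLa : ∀ e, laE E We e ≤ La e)
    (hLaT : ∀ e s β t, L.omP s (tg s β) t * LaT e ≤ L.c s β * La e)
    (hWe : ∀ s e, EAct E (AkP G M h1 univ) s e → ∀ Y : Finset V,
      (∀ x ∈ Y, CrsPt (E.a e) (E.b e) h2.toFun (L.lv s) x) →
        ∑ x ∈ Y, omX h2.toFun (L.lv s) (L.omP s) x ≤ We e)
    (GF : M.κ → (V → V) → Prop)
    (hface : ∀ s k, AkP G M h1 univ s k →
      ∀ Φe : ∀ e, E.seg e ⊆ M.F k → ConHomeo (E.seg e) (Pre (κ₁ ∘ κ₀) Λ h2 (E.seg e)),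
      (∀ e he, GEP E h2 (AkP G M h1 univ) L.kP L.lv L.loP L.hiP L.omP La mu e
        (Φe e he).toFun) →
      (∀ e he e' he', EqOn (Φe e he).toFun (Φe e' he').toFun (E.seg e ∩ E.seg e')) →
      (∀ e he, ∀ x ∈ E.seg e, x ∈ E.verts → (κ₁ ∘ κ₀) ((Φe e he).toFun x) = h2.toFun x) →
      ∃ Φ : ConHomeo (M.F k) (Pre (κ₁ ∘ κ₀) Λ h2 (M.F k)), GF k Φ.toFun ∧
        ∀ e he, EqOn Φ.toFun (Φe e he).toFun (E.seg e)) :
    ∃ h3 : ConHomeo Ω Λ, Out3P G M E h1 h2 (κ₁ ∘ κ₀)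
      (GEP E h2 (AkP G M h1 univ) L.kP L.lv L.loP L.hiP L.omP La mu) GF h3 := by
  have P := pact_P L HR HO (β := false) i₀ i₁
  refine exists_stage2P hΩ (ppre_of HT hends hn) (BandP.band hband) HR HO i₀ i₁ hI _ GF
    (fun k _ l hl e _ hel => gep_shared HT HR HO hband hl hel (hLaT e)) ?_
    (fun k hk => by
      obtain ⟨s, hs⟩ := hk
      exact hface s k hs)
  rintro k ⟨s, hs⟩ e he -
  exact P.hedge hmu hLa hWe s k hs e he

/-- **ROUND P, the insertion step**, with the face maps `GFP` -/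
theorem exists_insP_gfp (hΩ : IsOpen Ω) {ω : TBx K → ℝ} {O : M.κ → V} {LaT : E.ε → ℝ}
    {Lf : M.κ → E.ε → ℝ} {Lam1 : M.κ → ℝ} {sl : TBx K → Finset (ℝ × ℝ)} {Pr : Set M.ι}
    (HT : T3Out G M E h h1 ω O LaT Lf Lam1 sl) (hends : Ends G sl)
    (hn : ∀ k, ∀ x ∈ M.F k, ∀ s, h1.toFun x ∈ PK G s →
      |h1.toFun x (K.nrm s) - K.slo s (K.nrm s)| ≤ B.τ s / 4)
    (HR : RIn G M h1 Pr univ L.lv E) (HO : ROut G M h1 h2 Pr univ L.lv E)
    (hband : H155.BandP L sl) {κ₀ κ₁ : V → V} (i₀ : IsQ (L.bx false) κ₀)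
    (i₁ : IsQ (L.bx true) κ₁) (hI : InsMap (κ₁ ∘ κ₀) Λ Λ) {La We mu : E.ε → ℝ}
    (hmu : ∀ e, mu e ∈ Ioc (0:ℝ) (1 / 4)) (hLa0 : ∀ e, 0 ≤ La e) (hLa : ∀ e, laE E We e ≤ La e)
    (hLaT : ∀ e s β t, L.omP s (tg s β) t * LaT e ≤ L.c s β * La e)
    (hWe : ∀ s e, EAct E (AkP G M h1 univ) s e → ∀ Y : Finset V,
      (∀ x ∈ Y, CrsPt (E.a e) (E.b e) h2.toFun (L.lv s) x) →
        ∑ x ∈ Y, omX h2.toFun (L.lv s) (L.omP s) x ≤ We e)
    (Cy : ∀ k, Cyc E k) {r0 Rr : M.κ → ℝ}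
    (hS : ∀ k, P073.H155.Star ((Cy k).n + 1) (vv (Cy k)) (O k) (r0 k) (Rr k) (M.F k)) :
    ∃ h3 : ConHomeo Ω Λ, Out3P G M E h1 h2 (κ₁ ∘ κ₀)
      (GEP E h2 (AkP G M h1 univ) L.kP L.lv L.loP L.hiP L.omP La mu)
      (GFP E (AkP G M h1 univ) L.lv L.loP L.hiP L.omP La We O r0 Rr) h3 :=
  exists_insP hΩ HT hends hn HR HO hband i₀ i₁ hI hmu hLa hLaT hWe _
    ((pact_P L HR HO (β := false) i₀ i₁).hface Cy hS hLa0 hWe)

end

/-- position of the faces near the plates -/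
theorem nrm_PK {Ω Λ : Set V} {v : V} {K : BoxCx Λ v} {η₀ : ℝ} {ρ : V → ℝ} {M : Mesh Ω}
    {h h1 : ConHomeo Ω Λ} {P : Set M.ι} (D : KIn η₀ v ρ M h P) (C : Cells ρ v K)
    (hn : ∀ k, ∀ x ∈ M.F k, ∀ q, h.toFun x ∈ K.cube q →
      ‖h1.toFun x - h.toFun x‖ ≤ (D.G C).om q) {k : M.κ} {x : V} (hx : x ∈ M.F k) {s : K.S}
    (hxs : h1.toFun x ∈ PK (D.G C) s) :
    |h1.toFun x (K.nrm s) - K.slo s (K.nrm s)| ≤ (D.B C).τ s / 4 := by
  have hxΩ := Vale.Agent.P073.H238.mesh_sub M k hx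
  obtain ⟨q0, hq0⟩ := K.cover _ (h.mapsTo hxΩ)
  obtain ⟨q1, hq1⟩ := K.cover _ (h1.mapsTo hxΩ)
  have hle := hn k x hx q0 hq0
  have hp := Geo.p_pos (G := D.G C) s
  have hτ := (D.B C).τ_pos s
  have hoτ := (D.G C).oS_τ s
  have hop := Vale.Agent.P073.H805.oS_p (D.G C) s
  have hτp := (D.G C).τ_p s
  obtain ⟨ht, hn1⟩ := hxs
  have hN1 : Near K s (h1.toFun x) := near_self (PK_sub_ss s ⟨ht, hn1⟩)
  have hq1s : q1 = K.sm s ∨ q1 = K.sp s := hN1.tile hq1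
  have hsub : K.sq s ⊆ K.cube q1 := by
    rcases hq1s with rfl | rfl
    · exact (TM.sq_subset K s).1
    · exact (TM.sq_subset K s).2
  have ho8 := Vale.Agent.P073.H805.oN_small D C
  have ho0 := Vale.Agent.P073.H267.oN_pos D.pos
  have hT0 := C.sT_pos q0
  have h4 : C.sT q0 ≤ 4 * C.sT q1 := by
    refine Vale.Agent.P073.H805.sT_near' C D.hρ hq1 hq0 ?_
    rw [Vale.Agent.P073.H805.om_eq D C] at hle
    nlinarith
  have h5 := (C.sS_sT D.hρ hsub).2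
  have hweak : ‖h1.toFun x - h.toFun x‖ ≤ 4 * (D.G C).oS s := by
    rw [Vale.Agent.P073.H805.oS_eq D C]
    rw [Vale.Agent.P073.H805.om_eq D C] at hle
    nlinarith
  have hco : ∀ l, |h1.toFun x l - h.toFun x l| ≤ 4 * (D.G C).oS s := fun l =>
    (norm_le_pi_norm (h1.toFun x - h.toFun x) l).trans hweak
  have ht' : ∀ l, l ≠ K.nrm s → K.slo s l + 1 / 4 * (D.G C).p s ≤ h.toFun x l ∧
      h.toFun x l ≤ K.shi s l - 1 / 4 * (D.G C).p s := by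
    intro l hl
    have j1 := ht l hl
    have j2 := abs_le.1 (hco l)
    constructor <;> linarith
  have hn2 : |h.toFun x (K.nrm s) - K.slo s (K.nrm s)| ≤ 2 * (D.B C).τ s := by
    have j1 := abs_le.1 hn1
    have j2 := abs_le.1 (hco (K.nrm s))
    rw [abs_le]; constructor <;> linarith
  obtain ⟨h6, h7⟩ := Vale.Agent.P073.H805.shell_near hq0 ht' hn2 (D.shell C hx q0)
  have h8 := (D.G C).κ_τ q0 s h7
  have h9 := hle.trans ((D.G C).om_oS q0 s h7)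
  have h10 := (norm_le_pi_norm (h1.toFun x - h.toFun x) (K.nrm s)).trans h9
  simp only [Pi.sub_apply, Real.norm_eq_abs] at h10
  have h11 := abs_sub_le (h1.toFun x (K.nrm s)) (h.toFun x (K.nrm s)) (K.slo s (K.nrm s))
  linarith

end P073.H345
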