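import Vale.Agent.P073.H345.RoundP
import Vale.Agent.P073.H267.GeoAx
import Vale.Agent.P073.H267.RoundDefs
import Vale.Agent.P073.H581.T5d

/-!
# P073, H345, ROUND P: the weights of the edges, in terms of the map before round T

The output of round T controls the variation of the coordinate `j` of `h1` on an edge only if `j` is
the direction of all boxes of round T which the edge meets.  This is the case if the edge meets a
level of round P in the direction `j` (`ax_of_PK`, H267's `ax_of_window`).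
-/

open Set Metric Topology Filter
open scoped ENNReal

set_option linter.unusedSectionVars false

namespace P073.H345

open _root_.P073 _root_.P073.Net _root_.P073.PA691 _root_.P073.H236 _root_.P073.H579
open _root_.P073.Croft (Crs levs onS cross varIn)
open Vale.Agent.P073.St (V)
open Vale.Agent.P073.H471 Vale.Agent.P073.H267 Vale.Agent.P073.H267.Geo
open Vale.Agent.P073.H805 (RIn ROut)
open Vale.Agent.P073.H73 (Mesh onSeg)
open Vale.Agent.P073.H193 (Edges Cyc)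
open Vale.Agent.P073.H669 (PLv)
open _root_.P073.H267 (TOut tvE lenE)

section

variable {η₀ : ℝ} {Ω Λ : Set V} {w : V} {ρ : V → ℝ} {M : Mesh Ω}
  {h h1 : ConHomeo Ω Λ} {P : Set M.ι} {K : BoxCx Λ w} (D : KIn η₀ w ρ M h P)
  (C : Cells ρ w K)
  (hn : ∀ k, ∀ x ∈ M.F k, ∀ q, h.toFun x ∈ K.cube q → ‖h1.toFun x - h.toFun x‖ ≤ (D.G C).om q)

include hn

/-- a point of a face in `PK` is in the plate -/
theorem PB_of_PK {k : M.κ} {x : V} (hx : x ∈ M.F k) {s : K.S}
    (hxs : h1.toFun x ∈ PK (D.G C) s) : h1.toFun x ∈ (D.G C).PB (3 / 4) s := by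
  have h1 := nrm_PK D C hn hx hxs
  have hτ := (D.B C).τ_pos s
  exact Geo.mem_PB.2 ⟨hxs.1, by linarith⟩

/-- **[AXES]** for the map after round T -/
theorem ax_of_PK {k : M.κ} {x₀ x' : V} (hx₀ : x₀ ∈ M.F k) (hx' : x' ∈ M.F k) {s : K.S}
    (hs : h1.toFun x₀ ∈ PK (D.G C) s) {j : Fin 3} (hj : j ≠ K.nrm s)
    (hlo : K.slo s j + (D.G C).a s / 2 ≤ h1.toFun x₀ j)
    (hhi : h1.toFun x₀ j ≤ K.shi s j - (D.G C).a s / 2) {b : TBx K}
    (hb : h.toFun x' ∈ (D.G C).TB false b) : b.ax = j := by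
  refine ax_of_window (D.G C) (by norm_num : (1:ℝ) / 2 ≤ 3 / 4) (PB_of_PK D C hn hx₀ hs) hj hlo hhi
    hb ?_
  have hosc := D.osc_T C b k x' hx' x₀ hx₀ hb
  obtain ⟨q', hq'⟩ := K.cover _ (Geo.TB_sub b hb)
  obtain ⟨q, hq⟩ := K.cover _ (h.mapsTo (Vale.Agent.P073.H238.mesh_sub M k hx₀))
  have h2 := D.ωT_tile C hb hq'
  have h3 := D.ωT_oT C b
  have h4 := hn k x₀ hx₀ q hq
  have hδ := Vale.Agent.P073.H267.δN_pos D.pos
  have hδo := Vale.Agent.P073.H267.δN_eq (η₀ := η₀)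
  have ho8 := Vale.Agent.P073.H805.oN_small D C
  have hT := C.sT_pos q
  have hT' := C.sT_pos q'
  have hω := D.ωT_pos C b
  rw [Vale.Agent.P073.H805.om_eq D C] at h4
  rw [dist_eq_norm] at hosc
  -- comparable tiles
  have h5 : C.sT q' ≤ 4 * C.sT q := by
    refine Vale.Agent.P073.H805.sT_near' C D.hρ hq hq' ?_
    rw [norm_sub_rev]
    nlinarith [h2.2]
  have h6 : C.sT q ≤ 4 * C.sT q' := by
    refine Vale.Agent.P073.H805.sT_near' C D.hρ hq' hq ?_
    nlinarith [h2.2]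
  have h7 : oN η₀ * C.sT q ≤ 4 * (4096 * ωT η₀ C b) := by
    rw [← hδo]
    nlinarith [h2.1]
  rw [dist_eq_norm]
  have h8 : h.toFun x' - h1.toFun x₀ = (h.toFun x' - h.toFun x₀) - (h1.toFun x₀ - h.toFun x₀) := by
    abel
  rw [h8]
  refine (norm_sub_le _ _).trans ?_
  rw [← h3]
  linarith

/-- one square for each edge -/
theorem uniq_of_PK {k : M.κ} {x x' : V} (hx : x ∈ M.F k) (hx' : x' ∈ M.F k) {s s' : K.S}
    (hs : h1.toFun x ∈ PK (D.G C) s) (hs' : h1.toFun x' ∈ PK (D.G C) s') : s = s' := by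
  by_contra hne
  have h2 := PB_of_PK D C hn hx hs
  have h2' := PB_of_PK D C hn hx' hs'
  have h3 := (Vale.Agent.P073.H805.osc_T1 D C hn hx (by norm_num) h2 hx').1
  have h4 := nrm_PK D C hn hx hs
  have hp := Geo.p_pos (G := D.G C) s
  have ho := Vale.Agent.P073.H805.oS_p (D.G C) s
  have ho2 := (D.G C).oS_τ s
  have ho3 := Vale.Agent.P073.H805.oS_pos (D.G C) s
  have hτ := (D.B C).τ_pos s
  have h5 : ∀ j, |h1.toFun x j - h1.toFun x' j| ≤ 4 * (D.G C).oS s := fun j => by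
    have := norm_le_pi_norm (h1.toFun x - h1.toFun x') j
    rw [Real.norm_eq_abs, Pi.sub_apply] at this
    linarith
  have h6 : h1.toFun x' ∈ (D.G C).PB (1 / 2) s := by
    refine Geo.mem_PB.2 ⟨fun j hj => ?_, ?_⟩
    · have h7 := (Geo.mem_PB.1 h2).1 j hj
      have h8 := abs_le.1 (h5 j)
      constructor <;> linarith [h7.1, h7.2, h8.1, h8.2]
    · have h8 := abs_le.1 (h5 (K.nrm s))
      have h9 := abs_le.1 h4
      rw [abs_le]
      constructor <;> linarith [h8.1, h8.2, h9.1, h9.2]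
  exact Set.disjoint_left.1 (Geo.disjoint_PB (G := D.G C) (le_refl ((1:ℝ) / 2)) hne) h6
    (Vale.Agent.P073.H805.PB_mono (by norm_num) s' h2')

end

section

variable {η₀ : ℝ} {Ω Λ : Set V} {w : V} {ρ : V → ℝ} {M : Mesh Ω}
  {h h1 : ConHomeo Ω Λ} {P : Set M.ι} {K : BoxCx Λ w} (D : KIn η₀ w ρ M h P)
  (C : Cells ρ w K) {E : Edges M} {T : ∀ k, P073.H142.FStar E k} {C₀ μ₁ : ℝ} {ε : E.ε → ℝ}
  {LaT : E.ε → ℝ} {Lf : M.κ → E.ε → ℝ} {Lam1 : M.κ → ℝ} {sl : TBx K → Finset (ℝ × ℝ)}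
  (TO : TOut (D.G C) M E ρ w P h h1 (ωT η₀ C) T C₀ μ₁ ε LaT Lf Lam1 sl)
  {η : ℝ} {τ : Type*} {A : τ → Set V} {Cs : Set ℝ} {εE : E.ε → ℝ} {μ δ : K.S → ℝ}
  (L : PLv (D.G C) E h1 P sl η A Cs εE μ δ)

include TO

/-- a crossing point -/
theorem mem_crP {e : E.ε} {s : K.S} {β : Bool} {t : ℝ}
    (ht : t ∈ L.lev.crP E h1 (fun i => PK (D.G C) i.1) e (s, β)) :
    E.a e + t • (E.b e - E.a e) ∈ E.seg e ∧ h1.toFun (E.a e + t • (E.b e - E.a e)) ∈ PK (D.G C) s ∧
      K.slo s (tg s β) + (D.G C).a s / 2 ≤ h1.toFun (E.a e + t • (E.b e - E.a e)) (tg s β) ∧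
      h1.toFun (E.a e + t • (E.b e - E.a e)) (tg s β) ≤ K.shi s (tg s β) - (D.G C).a s / 2 := by
  obtain ⟨h2, h3, n, hn, hna⟩ := ht
  have hw := L.lev.win s β hn
  have hc := (L.lev.lvs s β).c0
  have ha := Geo.a_pos (G := D.G C) s
  have hna' : h1.toFun (E.a e + t • (E.b e - E.a e)) (tg s β) = L.lev.a s β n := hna
  refine ⟨Croft.onS_mem h2, h3, ?_, ?_⟩
  · rw [hna']; linarith [hw.1]
  · rw [hna']; linarith [hw.2]

/-- **the variation of `h1` in the direction of the levels which the edge meets** -/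
theorem tv_of_crP {e : E.ε} {s : K.S} {β : Bool}
    (hne : (L.lev.crP E h1 (fun i => PK (D.G C) i.1) e (s, β)).Nonempty) :
    tvE E h1.toFun e (tg s β) ≤ ENNReal.ofReal C₀ * lenE E h.toFun e + ENNReal.ofReal (ε e) := by
  obtain ⟨t, ht⟩ := hne
  obtain ⟨h2, h3, h4, h5⟩ := mem_crP D C TO L ht
  obtain ⟨k, hk⟩ := E.own e
  refine TO.tv e (tg s β) fun b hb => ?_
  obtain ⟨_, ⟨x', hx', rfl⟩, hb⟩ := hb
  exact ax_of_PK D C TO.near (hk h2) (hk hx') h3 (tg_ne s β) h4 h5 hb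

theorem uniq_crP {e : E.ε} {i i' : K.S × Bool}
    (h2 : (L.lev.crP E h1 (fun i => PK (D.G C) i.1) e i).Nonempty)
    (h3 : (L.lev.crP E h1 (fun i => PK (D.G C) i.1) e i').Nonempty) : i.1 = i'.1 := by
  obtain ⟨t, ht⟩ := h2
  obtain ⟨t', ht'⟩ := h3
  obtain ⟨s, β⟩ := i
  obtain ⟨s', β'⟩ := i'
  obtain ⟨a1, a2, -⟩ := mem_crP D C TO L ht
  obtain ⟨b1, b2, -⟩ := mem_crP D C TO L ht'
  obtain ⟨k, hk⟩ := E.own e
  exact uniq_of_PK D C TO.near (hk a1) (hk b1) a2 b2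

/-- one square and one direction; `K₁` bounds the quotient of step and spacing -/
theorem wtP_le_tv {K₁ : ℝ} (hK : 0 ≤ K₁) (e : E.ε) (i : K.S × Bool)
    (hi : L.om i.1 i.2 ≤ K₁ * δ i.1) :
    L.lev.wtP E h1 (fun i => PK (D.G C) i.1) e i ≤ ENNReal.ofReal K₁ *
      (ENNReal.ofReal (1 - 2 * η)⁻¹ * tvE E h1.toFun e (tg i.1 i.2) + ENNReal.ofReal (εE e)) := by
  refine (L.lev.wtP_le (K₁ := K₁) (δ := fun i => δ i.1) (L.crs e) hK i hi).trans ?_
  refine mul_le_mul_right (add_le_add (mul_le_mul_right ?_ _) le_rfl) _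
  exact Vale.Agent.P073.H581.varIn_le_evar zero_le_one
    (Croft.conicalOn_onS h1.conical (E.seg_sub_Ω e)) _
    (Vale.Agent.P073.H669.PK_convex (D.G C) i.1)

/-- **[P-LEN]**: the weight of an edge in round P is bounded by the length of the image of the edge
under the map before round T -/
theorem ofReal_We3_le (e : E.ε) :
    ENNReal.ofReal (We3 L e) ≤ 8 * (ENNReal.ofReal C₀ * lenE E h.toFun e + ENNReal.ofReal (ε e)) +
      4 * ENNReal.ofReal (εE e) := by
  classical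
  have hsum : ENNReal.ofReal (We3 L e) =
      ∑' i, L.lev.wtP E h1 (fun i => PK (D.G C) i.1) e i := by
    show ENNReal.ofReal (1 * (∑' i, L.lev.wtP E h1 (fun i => PK (D.G C) i.1) e i).toReal) = _
    rw [one_mul, ENNReal.ofReal_toReal (tsum_wtP_plv L e)]
  rw [hsum]
  have hη : (1 - 2 * η)⁻¹ ≤ 2 := by
    have h4 := L.η4
    rw [inv_le_comm₀ (by linarith) (by norm_num)]
    linarith
  have hzero : ∀ i, ¬ (L.lev.crP E h1 (fun i => PK (D.G C) i.1) e i).Nonempty →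
      L.lev.wtP E h1 (fun i => PK (D.G C) i.1) e i = 0 := by
    intro i hi
    rw [Set.not_nonempty_iff_eq_empty] at hi
    unfold PLev.wtP
    rw [hi]
    simp [cnt]
  have hone : ∀ i, L.lev.wtP E h1 (fun i => PK (D.G C) i.1) e i ≤
      4 * (ENNReal.ofReal C₀ * lenE E h.toFun e + ENNReal.ofReal (ε e)) +
        2 * ENNReal.ofReal (εE e) := by
    intro i
    by_cases hi : (L.lev.crP E h1 (fun i => PK (D.G C) i.1) e i).Nonempty
    · refine (wtP_le_tv D C TO L (K₁ := 2) (by norm_num) e i (L.om_le_two i.1 i.2)).trans ?_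
      have h3 := tv_of_crP D C TO L (s := i.1) (β := i.2) hi
      have e2 : ENNReal.ofReal 2 = 2 := by norm_num
      rw [e2]
      have h4 : ENNReal.ofReal (1 - 2 * η)⁻¹ ≤ 2 := by
        rw [← e2]; exact ENNReal.ofReal_le_ofReal hη
      calc 2 * (ENNReal.ofReal (1 - 2 * η)⁻¹ * tvE E h1.toFun e (tg i.1 i.2) +
            ENNReal.ofReal (εE e))
          ≤ 2 * (2 * (ENNReal.ofReal C₀ * lenE E h.toFun e + ENNReal.ofReal (ε e)) +
            ENNReal.ofReal (εE e)) := by gcongr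
        _ = _ := by rw [mul_add, ← mul_assoc]; norm_num
    · rw [hzero i hi]; exact bot_le
  by_cases hex : ∃ i, (L.lev.crP E h1 (fun i => PK (D.G C) i.1) e i).Nonempty
  · obtain ⟨i₀, hi₀⟩ := hex
    rw [tsum_eq_sum (s := ({(i₀.1, true), (i₀.1, false)} : Finset (K.S × Bool))) (by
      rintro ⟨s', β'⟩ hi
      refine hzero _ fun hcon => hi ?_
      have h3 : s' = i₀.1 := uniq_crP D C TO L hcon hi₀
      subst h3
      cases β' <;> simp), Finset.sum_pair (by simp)]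
    refine (add_le_add (hone _) (hone _)).trans (le_of_eq ?_)
    ring
  · push Not at hex
    have h3 : ∀ i, L.lev.wtP E h1 (fun i => PK (D.G C) i.1) e i = 0 := fun i =>
      hzero i (by rw [Set.not_nonempty_iff_eq_empty]; exact hex i)
    simp [h3]

end

end P073.H345
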