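import Vale.Agent.P073.H345.PBox
import Vale.Agent.P073.H267.Geo3

/-!
# P073, H345, ROUND P: the images of the faces which miss the plates are preserved

`Band`: the cells of the levels avoid the slivers of round T.  `pres`: if `X` is contained in a face
which misses all plates `PB 1 s`, then `κ y ∈ h1 '' X ↔ y ∈ h1 '' X`.
-/

open Set Metric Topology Filter

namespace P073.H345

open _root_.P073 _root_.P073.Net _root_.P073.PA691 _root_.P073.H236 _root_.P073.H579
open Vale.Agent.P073.St (V)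
open Vale.Agent.P073.H471 Vale.Agent.P073.H267 Vale.Agent.P073.H267.Geo
open Vale.Agent.P073.H73 (Mesh)
open Vale.Agent.P073.H193 (Edges)

variable {Ω Λ : Set V} {v : V} {K : BoxCx Λ v} {S : Rad K} {W : Wid K S} {B : Boxes W}
  {G : Geo B} {y z : V}

/-- the shell near a plate -/
theorem shell_PK {s : K.S} (hy : y ∈ PK G s) {q : K.T} (hq : y ∈ K.cube q)
    (hyk : ∃ k, y k ≤ K.lo q k + 2 * G.κ q ∨ K.hi q k - 2 * G.κ q ≤ y k) :
    |y (K.nrm s) - K.slo s (K.nrm s)| ≤ B.τ s / 4 := by
  have h1 := τ_as_PK hy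
  have h2 := hy.2
  have hτ := B.τ_pos s
  have h0 : 0 < W.as s y := hτ.trans_le h1
  have hqs := (near_self (PK_sub_ss s hy)).tile hq
  have hκτ := G.κ_τ q s hqs
  have hκ := G.κ_pos q
  have h2' := abs_le.1 h2
  have hws := B.τ_le s
  obtain ⟨hl1, hl2⟩ := K.s_lev s
  obtain ⟨k, hk⟩ := hyk
  by_cases hkn : k = K.nrm s
  · subst hkn
    rcases hqs with rfl | rfl
    · have h3 := W.ws_le s
      have h5 := hq.2 (K.nrm s)
      rcases hk with hk | hk
      · linarith
      · rw [abs_le]
        constructor <;> linarith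
    · have h3 := W.ws_le' s
      have h5 := hq.1 (K.nrm s)
      rcases hk with hk | hk
      · rw [abs_le]
        constructor <;> linarith
      · linarith
  · exfalso
    have ht := marg_taper h0 (k := k) (by simpa using hkn)
    have e : marg {K.nrm s} (K.slo s) (K.shi s) (W.ws s) y = W.as s y := rfl
    rw [e] at ht
    have hsub : K.sq s ⊆ K.cube q := by
      rcases hqs with rfl | rfl
      · exact (TM.sq_subset K s).1
      · exact (TM.sq_subset K s).2
    have h3 := (hsub (slo_mem s)).1 k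
    have h4 := (hsub (shi_mem s)).2 k
    rcases hk with hk | hk <;> linarith [ht.1, ht.2]

/-- the boxes of round T along the sides of `s` in the direction `l` -/
def Rel (s : K.S) (l : Fin 3) : TBx K → Prop
  | .inl e => K.edge e ⊆ K.sq s ∧ K.dir e = l
  | .inr H => H.s = s ∧ H.l = l

theorem Rel.ax {s : K.S} {l : Fin 3} {b : TBx K} (h : Rel s l b) : b.ax = l := by
  rcases b with e | H
  · exact h.2
  · exact h.2

/-- the cells of the levels avoid the slivers -/
def Band (L : PLev G) (sl : TBx K → Finset (ℝ × ℝ)) : Prop :=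
  ∀ s β, ∀ n < L.N s β, ∀ b, Rel s (tg s β) b → ∀ r, |r - L.a s β n| ≤ 2 * L.c s β →
    NoSl (sl b) r

/-- the ends of the boxes are in slivers -/
def Ends (G : Geo B) (sl : TBx K → Finset (ℝ × ℝ)) : Prop :=
  ∀ b : TBx K, ¬ NoSl (sl b) (G.tlo true b b.ax) ∧ ¬ NoSl (sl b) (G.thi true b b.ax)

/-- the set `A` is invariant under moves between the slivers -/
def VI (G : Geo B) (sl : TBx K → Finset (ℝ × ℝ)) (A : Set V) : Prop :=
  ∀ b : TBx K, ∀ y ∈ A, y ∈ G.TB true b →
    ∀ t ∈ Icc (G.tlo true b b.ax) (G.thi true b b.ax),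
    (∀ r ∈ uIcc (y b.ax) t, NoSl (sl b) r) → Function.update y b.ax t ∈ A

/-- a set of points which are near the middle planes of the plates, and miss the `PB 1 s` -/
structure OffP (G : Geo B) (A : Set V) : Prop where
  nrm : ∀ y ∈ A, ∀ s, y ∈ PK G s → |y (K.nrm s) - K.slo s (K.nrm s)| ≤ B.τ s / 4
  off : ∀ y ∈ A, ∀ s, y ∉ G.PB 1 s

theorem OffP.mono {A A' : Set V} (h : OffP G A) (hA : A' ⊆ A) : OffP G A' :=
  ⟨fun y hy => h.nrm y (hA hy), fun y hy => h.off y (hA hy)⟩

/-- a point which misses the plate, in a cell of a level: it is in the full zone of a box of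
round T -/
theorem exists_box {L : PLev G} {A : Set V} (hA : OffP G A) {s : K.S} {β : Bool} {n : ℕ}
    (hn : n < L.N s β) (hz : z ∈ A) (hzK : z ∈ PK G s)
    (hzn : |z (tg s β) - L.a s β n| ≤ 2 * L.c s β) :
    ∃ b, Rel s (tg s β) b ∧ z ∈ G.TB true b := by
  have hp := p_pos (G := G) s
  have hpa := p_a (G := G) s
  have hτ := B.τ_pos s
  have hw := hA.nrm z hz s hzK
  obtain ⟨w1, w2⟩ := L.win s β hn
  obtain ⟨c1, c2⟩ := abs_le.1 hzn
  have hoff := hA.off z hz s
  rw [mem_PB] at hoff
  have hj : ∃ j, j ≠ K.nrm s ∧ (z j < K.slo s j + G.p s ∨ K.shi s j - G.p s < z j) := by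
    by_contra hcon
    push Not at hcon
    refine hoff ⟨fun k hk => ?_, by linarith⟩
    have := hcon k hk
    rw [one_mul]
    exact this
  obtain ⟨j, hjn, hj⟩ := hj
  have hjl : j ≠ tg s β := by
    rintro rfl
    rcases hj with h | h <;> linarith
  have hK := hzK.1 j hjn
  have hside : ∃ β' : Bool, 3 / 4 * G.p s ≤ (if β' then K.shi s j - z j else z j - K.slo s j) ∧
      (if β' then K.shi s j - z j else z j - K.slo s j) ≤ 3 / 2 * G.p s := by
    rcases hj with h | h
    · refine ⟨false, ?_⟩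
      simp only [Bool.false_eq_true, if_false]
      constructor <;> linarith [hK.1, hK.2]
    · refine ⟨true, ?_⟩
      simp only [if_true]
      constructor <;> linarith [hK.1, hK.2]
  obtain ⟨β', hside⟩ := hside
  have hwall : G.Wall s j (tg s β) β' z :=
    { k_n := hjn
      l_n := tg_ne s β
      k_l := hjl
      n := by linarith
      u := hside
      lo := by linarith
      hi := by linarith }
  rcases Vale.Agent.P073.H267.Geo.wall hwall with ⟨e, he, hd, -, hze⟩ | ⟨b, hb, -, hl, -, hzb⟩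
  · exact ⟨.inl e, ⟨he, hd⟩, hze⟩
  · exact ⟨.inr b, ⟨hb, hl⟩, hzb⟩

/-- moves inside of a cell -/
theorem move {L : PLev G} {A : Set V} {sl : TBx K → Finset (ℝ × ℝ)} (hA : OffP G A)
    (hvi : VI G sl A) (hends : Ends G sl) (hband : Band L sl) {s : K.S} {β : Bool} {n : ℕ}
    (hn : n < L.N s β) (hz : z ∈ A) (hzK : z ∈ PK G s)
    (hzn : |z (tg s β) - L.a s β n| ≤ 2 * L.c s β) {t : ℝ} (ht : |t - L.a s β n| ≤ 2 * L.c s β) :
    Function.update z (tg s β) t ∈ A := by
  obtain ⟨b, hb, hzb⟩ := exists_box hA hn hz hzK hzn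
  have hax := hb.ax
  have hcell : ∀ r ∈ uIcc (z (tg s β)) t, NoSl (sl b) r := by
    intro r hr
    refine hband s β n hn b hb r ?_
    rw [mem_uIcc] at hr
    rw [abs_le] at hzn ht ⊢
    rcases hr with hr | hr <;> constructor <;> linarith [hr.1, hr.2]
  have h1 := hzb.1 b.ax
  have h2 := hzb.2 b.ax
  rw [hax] at h1 h2
  have hwin : t ∈ Icc (G.tlo true b b.ax) (G.thi true b b.ax) := by
    rw [hax]
    constructor
    · by_contra hcon
      push Not at hcon
      refine (hends b).1 ?_
      rw [hax]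
      exact hcell _ (by rw [mem_uIcc]; right; exact ⟨hcon.le, h1⟩)
    · by_contra hcon
      push Not at hcon
      refine (hends b).2 ?_
      rw [hax]
      exact hcell _ (by rw [mem_uIcc]; left; exact ⟨h2, hcon.le⟩)
  have h3 := hvi b z hz hzb t hwin (by rw [hax]; exact hcell)
  rwa [hax] at h3

/-- **one family preserves the set** -/
theorem pres1 {L : PLev G} {A : Set V} {sl : TBx K → Finset (ℝ × ℝ)} (hA : OffP G A)
    (hvi : VI G sl A) (hends : Ends G sl) (hband : Band L sl) {β : Bool} {κ : V → V}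
    (hκ : IsQ (L.bx β) κ) (y : V) : κ y ∈ A ↔ y ∈ A := by
  by_cases h : ∃ s, y ∈ (L.bx β s).K
  · obtain ⟨s, hs⟩ := h
    have hsK : y ∈ PK G s := (PLev.mem_bxK.1 hs).1
    have h0 : κ y = (L.bx β s).Q y := hκ.on s y hs
    have h1 : κ y = Function.update y (tg s β) (κ y (tg s β)) := by
      ext i
      by_cases hi : i = tg s β
      · rw [hi, Function.update_self]
      · rw [Function.update_of_ne hi, PLev.κ_ne hκ hsK hi]
    by_cases hc : ∃ n < L.N s β, |y (tg s β) - L.a s β n| < 2 * L.c s β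
    · obtain ⟨n, hn, hyn⟩ := hc
      have h2 : |κ y (tg s β) - L.a s β n| < 2 * L.c s β := by
        rw [h0]
        exact Q_mem_cell (L.bx β s) hn hyn
      constructor
      · intro h3
        have h4 := move hA hvi hends hband hn h3 (PLev.mem_PK_iff hκ |>.2 hsK) h2.le hyn.le
        rw [h1, Function.update_idem, Function.update_eq_self] at h4
        exact h4
      · intro h3
        rw [h1]
        exact move hA hvi hends hband hn h3 hsK hyn.le h2.le
    · push Not at hc
      have h2 : (L.bx β s).Q y = y := Q_eq_self (L.bx β s) hc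
      rw [h0, h2]
  · push Not at h
    rw [hκ.off y h]

/-- **[PRES]** -/
theorem pres {L : PLev G} {A : Set V} {sl : TBx K → Finset (ℝ × ℝ)} (hA : OffP G A)
    (hvi : VI G sl A) (hends : Ends G sl) (hband : Band L sl) {κ₀ κ₁ : V → V}
    (h₀ : IsQ (L.bx false) κ₀) (h₁ : IsQ (L.bx true) κ₁) (y : V) : (κ₁ ∘ κ₀) y ∈ A ↔ y ∈ A :=
  (pres1 hA hvi hends hband h₁ (κ₀ y)).trans (pres1 hA hvi hends hband h₀ y)

/-- the preimage is the image -/
theorem pre_eq_of_pres {h : ConHomeo Ω Λ} {X : Set V} {κ : V → V} (hX : X ⊆ Ω)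
    (hp : ∀ y, κ y ∈ h.toFun '' X ↔ y ∈ h.toFun '' X) : Pre κ Λ h X = h.toFun '' X := by
  ext y
  constructor
  · rintro ⟨-, h2⟩
    exact (hp y).1 h2
  · intro h2
    refine ⟨?_, (hp y).2 h2⟩
    obtain ⟨x, hx, rfl⟩ := h2
    exact h.mapsTo (hX hx)

end P073.H345
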