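import Vale.Agent.P073.H345.PassB

/-!
# P073, H345, **[PASSW]**: ambient insertion of a band of variable thickness at a regular level

`h : C → Fin n → ℝ` is injective and conical on the compact set `C`, with flow boxes for the
coordinate `i` and the family `M` along the level `b`.  For small `η` and every thickness `μ` there
is a conical homeomorphism `Φ` of `C` onto `κ⁻¹ (h C)`, `κ = kap i b η μ`, with
`Φ (M j) = κ⁻¹ (h (M j))` for all sets of the family, and `κ ∘ Φ = h ∘ γ`, where the collapse `γ`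
of `C` preserves the sets of the family.
-/

open Set Metric Topology Filter

namespace P073.H345

open P073 P073.TR P073.H936

variable {E : Type*} [NormedAddCommGroup E] [NormedSpace ℝ E] {n : ℕ}

/-- the output of the insertion theorem -/
structure Passed {ι : Type*} (C : Set E) (h : E → Fin n → ℝ) (i : Fin n) (b η c : ℝ)
    (μ : (Fin n → ℝ) → ℝ) (M : ι → Set E)
    (Φ : ConHomeo C (kap i b η μ ⁻¹' (h '' C))) (γ : E → E) : Prop where
  maps : MapsTo γ C C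
  cc : CC γ C
  eq : ∀ x ∈ C, kap i b η μ (Φ.toFun x) = h (γ x)
  iff : ∀ j, ∀ x ∈ C, (γ x ∈ M j ↔ x ∈ M j)
  img : ∀ j, Φ.toFun '' (M j ∩ C) = kap i b η μ ⁻¹' (h '' (M j ∩ C))
  far : ∀ x ∈ C, η ≤ |h x i - b| → Φ.toFun x = h x ∧ γ x = x
  near : ∀ x ∈ C, ‖γ x - x‖ ≤ c * η
  off : ∀ x ∈ C, (∀ z ∈ C, ‖z - x‖ ≤ c * η → μ (h z) = 0) → Φ.toFun x = h x ∧ γ x = x

theorem exists_passed_of_cht {ι : Type*} {C : Set E} {h : E → Fin n → ℝ} {i : Fin n} {b η c : ℝ}
    {μ : (Fin n → ℝ) → ℝ} {M : ι → Set E} (hC : IsCompact C) (hh : CC h C) (hinj : InjOn h C)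
    (hη : 0 < η) (hc0 : 0 ≤ c) (hμ : Thk i η μ) {Γ : ConHomeo (Pr C h i b) (Bn C h i b η)}
    (hΓ : Cht C h i b η Γ)
    (hM : ∀ j, ∀ z ∈ Lv C h i b, ∀ s ∈ Icc (-1:ℝ) 1, (Γ.toFun (z, s) ∈ M j ↔ z ∈ M j))
    (hc : ∀ z ∈ Lv C h i b, ∀ s ∈ Icc (-1:ℝ) 1, ‖Γ.toFun (z, s) - z‖ ≤ c / 2 * η) :
    ∃ (Φ : ConHomeo C (kap i b η μ ⁻¹' (h '' C))) (γ : E → E), Passed C h i b η c μ M Φ γ := by
  classical
  have hu : CC (fun x => h x i) C := hh.apply i
  have hLcon : ConicalSet (Lv C h i b) := conicalSet_lev hu.con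
  have hLc : IsCompact (Lv C h i b) := isCompact_lev hC hu.cont
  have hPc : IsCompact (Pr C h i b) := hLc.prod isCompact_Icc
  have hBc : IsCompact (Bn C h i b η) := Γ.isCompact_right hPc
  have hBcon : ConicalSet (Bn C h i b η) := Γ.conicalSet_right
  set A : Set E := {x | x ∈ C ∧ η ≤ |h x i - b|} with hA
  have habs : CC (fun x => max (h x i - b) (-(h x i - b))) C :=
    (hu.sub (CC.const b hu.con.conicalSet)).max (hu.sub (CC.const b hu.con.conicalSet)).neg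
  have hAeq : A = {x | x ∈ C ∧ 0 ≤ max (h x i - b) (-(h x i - b)) - η} := by
    ext x
    simp only [hA, mem_ofPred_eq, sub_nonneg]
    rfl
  have hAcl : IsClosed A := by
    have : A = C ∩ (fun x => |h x i - b|) ⁻¹' Ici η := rfl
    rw [this]
    exact ((hu.cont.sub continuousOn_const).abs).preimage_isClosed_of_isClosed hC.isClosed
      isClosed_Ici
  have hAC : A ⊆ C := fun x hx => hx.1
  have hAcpt : IsCompact A := hC.of_isClosed_subset hAcl hAC
  have hAcon : ConicalSet A := by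
    intro x hx
    -- both values are compared linearly near `x`
    obtain ⟨r, hr, H⟩ := habs.con x hx.1
    have hx2 : η ≤ max (h x i - b) (-(h x i - b)) := hx.2
    refine ⟨r, hr, fun v hv hxv t ht => ?_⟩
    obtain ⟨a1, a2⟩ := H v hv hxv.1 t ht
    refine ⟨a1, ?_⟩
    have h3 : η ≤ max (h (x + v) i - b) (-(h (x + v) i - b)) := hxv.2
    show η ≤ max (h (x + t • v) i - b) (-(h (x + t • v) i - b))
    simp only at a2
    rw [a2, smul_eq_mul]
    nlinarith [ht.1, ht.2]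
  -- the two pieces
  obtain ⟨Y, hY⟩ : ∃ Y : ConHomeo (Pr C h i b) (yy h i b η μ Γ.toFun '' Pr C h i b),
      Y.toFun = yy h i b η μ Γ.toFun :=
    ⟨ConHomeo.ofCompact hPc _ (yy_cc hη hh hμ).cont (yy_injOn hη hμ hΓ hinj)
      (yy_cc hη hh hμ).con rfl, ConHomeo.ofCompact_toFun _ _ _ _ _ _⟩
  obtain ⟨H, hH⟩ : ∃ H : ConHomeo A (h '' A), H.toFun = h :=
    ⟨ConHomeo.ofCompact hAcpt h (hh.cont.mono hAC) (hinj.mono hAC) (hh.con.mono hAcon hAC) rfl,
      ConHomeo.ofCompact_toFun _ _ _ _ _ _⟩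
  set B : ConHomeo (Bn C h i b η) (yy h i b η μ Γ.toFun '' Pr C h i b) := Γ.symm.trans Y with hB
  have hBf : ∀ q ∈ Pr C h i b, B.toFun (Γ.toFun q) = yy h i b η μ Γ.toFun q := by
    intro q hq
    show Y.toFun (Γ.invFun (Γ.toFun q)) = _
    rw [Γ.left_inv hq, hY]
  -- ends of the band
  have hend : ∀ q ∈ Pr C h i b, η ≤ |h (Γ.toFun q) i - b| →
      yy h i b η μ Γ.toFun q = h (Γ.toFun q) ∧ cc h η μ Γ.toFun q = Γ.toFun q := by
    rintro ⟨z, s⟩ ⟨hz, hs⟩ hx
    simp only at hz hs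
    rw [hΓ.lev z hz s hs, add_sub_cancel_left] at hx
    have h1 : rr h η μ (z, s) = η * s := ph_of_abs_ge hη hx
    have h2 : cc h η μ Γ.toFun (z, s) = Γ.toFun (z, s) := by
      rw [cc, h1, mul_div_cancel_left₀ _ hη.ne']
    refine ⟨?_, h2⟩
    have h3 := kap_yy hη hμ hΓ (q := (z, s)) ⟨hz, hs⟩
    rw [h2] at h3
    have h4 : η ≤ |yy h i b η μ Γ.toFun (z, s) i - b| := by
      have h5 := congrFun h3 i
      rw [kap_self, hΓ.lev z hz s hs] at h5
      have h6 : ph η (μ (yy h i b η μ Γ.toFun (z, s))) (yy h i b η μ Γ.toFun (z, s) i - b) =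
        η * s := by linarith
      rw [← h6] at hx
      exact hx.trans abs_ph_le
    rw [kap_eq_self_of_far hη h4] at h3
    exact h3
  have hag : EqOn H.toFun B.toFun (A ∩ Bn C h i b η) := by
    rintro x ⟨hxA, hxB⟩
    obtain ⟨q, hq, rfl⟩ : x ∈ Γ.toFun '' Pr C h i b := by rw [Γ.image_eq]; exact hxB
    rw [hH, hBf q hq, (hend q hq hxA.2).1]
  have himg : h '' A ∩ (yy h i b η μ Γ.toFun '' Pr C h i b) ⊆ H.toFun '' (A ∩ Bn C h i b η) := by
    rintro _ ⟨⟨x, hx, rfl⟩, q, hq, he⟩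
    have h1 := kap_yy hη hμ hΓ hq
    rw [he, kap_eq_self_of_far hη hx.2] at h1
    have h2 : x = cc h η μ Γ.toFun q := hinj hx.1 (fct hη hμ hΓ hq).mem h1
    refine ⟨x, ⟨hx, ?_⟩, by rw [hH]⟩
    rw [h2]
    exact Γ.mapsTo (x := (q.1, rr h η μ q / η)) ⟨hq.1, rr_div_mem hη hq.2⟩
  have hYcl : IsClosed (yy h i b η μ Γ.toFun '' Pr C h i b) := (Y.isCompact_right hPc).isClosed
  have hHcl : IsClosed (h '' A) := (H.isCompact_right hAcpt).isClosed
  have hX : A ∪ Bn C h i b η = C := by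
    ext x
    constructor
    · rintro (hx | hx)
      · exact hx.1
      · exact hx.1
    · intro hx
      rcases le_total η |h x i - b| with h1 | h1
      · exact Or.inl ⟨hx, h1⟩
      · exact Or.inr ⟨hx, h1⟩
  have hYY : h '' A ∪ (yy h i b η μ Γ.toFun '' Pr C h i b) = kap i b η μ ⁻¹' (h '' C) := by
    ext y
    constructor
    · rintro (⟨x, hx, rfl⟩ | ⟨q, hq, rfl⟩)
      · exact ⟨x, hx.1, (kap_eq_self_of_far hη hx.2).symm⟩
      · exact ⟨_, (fct hη hμ hΓ hq).mem, (kap_yy hη hμ hΓ hq).symm⟩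
    · rintro ⟨x, hx, hxy⟩
      rcases le_total η |h x i - b| with h1 | h1
      · have h2 : η ≤ |y i - b| := by
          have h3 := congrFun hxy i
          rw [kap_self] at h3
          have h4 : h x i - b = ph η (μ y) (y i - b) := by linarith
          rw [h4] at h1
          exact h1.trans abs_ph_le
        rw [kap_eq_self_of_far hη h2] at hxy
        exact Or.inl ⟨x, ⟨hx, h1⟩, hxy⟩
      · obtain ⟨q, hq, he, -⟩ := exists_yy hη hμ hΓ (x := x) ⟨hx, h1⟩ hxy.symm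
        exact Or.inr ⟨q, hq, he⟩
  set Φ₀ := ConHomeo.glue H B hAcl hBc.isClosed hHcl hYcl hag himg with hΦ₀
  have hΦA : ∀ x ∈ A, (Φ₀.cast hX hYY).toFun x = h x := by
    intro x hx
    rw [ConHomeo.cast_toFun, ConHomeo.glue_left H B hAcl hBc.isClosed hHcl hYcl hag himg hx, hH]
  have hΦB : ∀ q ∈ Pr C h i b, (Φ₀.cast hX hYY).toFun (Γ.toFun q) = yy h i b η μ Γ.toFun q := by
    intro q hq
    rw [ConHomeo.cast_toFun, ConHomeo.glue_right H B hAcl hBc.isClosed hHcl hYcl hag himg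
      (Γ.mapsTo hq), hBf q hq]
  -- the collapse
  set γ : E → E := fun x => if x ∈ Bn C h i b η then cc h η μ Γ.toFun (Γ.invFun x) else x with hγ
  have hγB : ∀ q ∈ Pr C h i b, γ (Γ.toFun q) = cc h η μ Γ.toFun q := by
    intro q hq
    simp only [hγ]
    rw [if_pos (Γ.mapsTo hq), Γ.left_inv hq]
  have hγA : ∀ x ∈ A, γ x = x := by
    intro x hx
    by_cases hxB : x ∈ Bn C h i b η
    · obtain ⟨q, hq, rfl⟩ : x ∈ Γ.toFun '' Pr C h i b := by rw [Γ.image_eq]; exact hxB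
      rw [hγB q hq, (hend q hq hx.2).2]
    · simp only [hγ]; rw [if_neg hxB]
  have hcase : ∀ x ∈ C, x ∈ A ∨ ∃ q ∈ Pr C h i b, Γ.toFun q = x := by
    intro x hx
    rw [← hX] at hx
    rcases hx with hx | hx
    · exact Or.inl hx
    · right
      have : x ∈ Γ.toFun '' Pr C h i b := by rw [Γ.image_eq]; exact hx
      obtain ⟨q, hq, rfl⟩ := this
      exact ⟨q, hq, rfl⟩
  have hγC : MapsTo γ C C := by
    intro x hx
    rcases hcase x hx with hxA | ⟨q, hq, rfl⟩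
    · rw [hγA x hxA]; exact hx
    · rw [hγB q hq]; exact (fct hη hμ hΓ hq).mem
  have heq : ∀ x ∈ C, kap i b η μ ((Φ₀.cast hX hYY).toFun x) = h (γ x) := by
    intro x hx
    rcases hcase x hx with hxA | ⟨q, hq, rfl⟩
    · rw [hγA x hxA, hΦA x hxA, kap_eq_self_of_far hη hxA.2]
    · rw [hγB q hq, hΦB q hq, kap_yy hη hμ hΓ hq]
  have hiff : ∀ j, ∀ x ∈ C, (γ x ∈ M j ↔ x ∈ M j) := by
    intro j x hx
    rcases hcase x hx with hxA | ⟨q, hq, rfl⟩
    · rw [hγA x hxA]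
    · rw [hγB q hq, cc, hM j q.1 hq.1 _ (rr_div_mem hη hq.2), ← hM j q.1 hq.1 q.2 hq.2]
  have hnear : ∀ x ∈ C, ‖γ x - x‖ ≤ c * η := by
    intro x hx
    rcases hcase x hx with hxA | ⟨q, hq, rfl⟩
    · rw [hγA x hxA, sub_self, norm_zero]
      positivity
    · rw [hγB q hq, cc]
      have h1 := hc q.1 hq.1 _ (rr_div_mem (h := h) (μ := μ) hη hq.2)
      have h2 := hc q.1 hq.1 q.2 hq.2
      have h3 := norm_sub_le_norm_sub_add_norm_sub (Γ.toFun (q.1, rr h η μ q / η)) q.1 (Γ.toFun q)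
      rw [norm_sub_rev q.1] at h3
      linarith
  refine ⟨Φ₀.cast hX hYY, γ, hγC, ?_, heq, hiff, ?_, ?_, hnear, ?_⟩
  · have h1 : CC γ A := by
      refine CC.congr ⟨continuousOn_id, conicalOn_id hAcon⟩ fun x hx => hγA x hx
    have h2 : CC γ (Bn C h i b η) := by
      have h3 : CC (fun x => cc h η μ Γ.toFun (Γ.invFun x)) (Bn C h i b η) :=
        CC.comp (Y := Pr C h i b) (cc_cc hη hh hμ) ⟨Γ.cont_inv, Γ.conical_inv⟩ Γ.mapsTo_inv
      refine h3.congr fun x hx => ?_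
      simp only [hγ]
      rw [if_pos hx]
    rw [← hX]
    refine ⟨ContinuousOn.union_of_isClosed h1.cont h2.cont hAcl hBc.isClosed,
      ConicalOn.union h1.con h2.con ?_ ?_⟩
    · intro x _ hcl; rwa [hAcl.closure_eq] at hcl
    · intro x _ hcl; rwa [hBc.isClosed.closure_eq] at hcl
  · intro j
    ext y
    constructor
    · rintro ⟨x, ⟨hxM, hxC⟩, rfl⟩
      exact ⟨γ x, ⟨(hiff j x hxC).2 hxM, hγC hxC⟩, (heq x hxC).symm⟩
    · rintro ⟨x', ⟨hxM, hxC⟩, hxy⟩
      have hy : y ∈ kap i b η μ ⁻¹' (h '' C) := ⟨x', hxC, hxy⟩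
      rw [← (Φ₀.cast hX hYY).image_eq] at hy
      obtain ⟨x, hx, rfl⟩ := hy
      rw [heq x hx] at hxy
      have h1 : x' = γ x := hinj hxC (hγC hx) hxy
      exact ⟨x, ⟨(hiff j x hx).1 (h1 ▸ hxM), hx⟩, rfl⟩
  · intro x hx h1
    exact ⟨hΦA x ⟨hx, h1⟩, hγA x ⟨hx, h1⟩⟩
  · intro x hx h1
    rcases hcase x hx with hxA | ⟨q, hq, rfl⟩
    · exact ⟨hΦA x hxA, hγA x hxA⟩
    · -- the thickness vanishes at the base point and at the point itself
      have h2 : ‖q.1 - Γ.toFun q‖ ≤ c * η := by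
        have := hc q.1 hq.1 q.2 hq.2
        rw [norm_sub_rev] at this
        have h3 := (norm_nonneg _).trans this
        linarith
      have h3 : μ (h q.1) = 0 := h1 q.1 hq.1.1 h2
      have h4 : rr h η μ q = η * q.2 := by
        unfold rr; rw [h3, ph_zero_right]
      have h5 : cc h η μ Γ.toFun q = Γ.toFun q := by
        rw [cc, h4, mul_div_cancel_left₀ _ hη.ne']
      have h6 : μ (h (Γ.toFun q)) = 0 := by
        apply h1 _ hx
        rw [sub_self, norm_zero]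
        linarith [(norm_nonneg _).trans h2]
      refine ⟨?_, by rw [hγB q hq, h5]⟩
      rw [hΦB q hq]
      have h7 := kap_yy hη hμ hΓ hq
      rw [h5, kap_eq_self_of_zero] at h7
      · exact h7
      · rw [mu_yy hμ, h5, h6]

/-- **[PASSW]**: insertion of a band of variable thickness at a regular level.  The constants `η₀`
and `c` depend on the map and the level only, not on the thickness. -/
theorem exists_passed [FiniteDimensional ℝ E] {ι : Type*} {C W : Set E} {h : E → Fin n → ℝ}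
    {i : Fin n} {b : ℝ} {M : ι → Set E} (hC : IsCompact C) (i₀ : ι) (hi₀ : M i₀ = C)
    (hh : ContinuousOn h C) (hhc : ConicalOn h C) (hinj : InjOn h C) (hW : IsOpen W)
    (hLW : Lv C h i b ⊆ W)
    (hbox : ∀ x ∈ Lv C h i b, ∃ (σ : ℝ →ₗ[ℝ] E) (r : ℝ), FlowBox (fun x => h x i) M x σ r) :
    ∃ (η₀ : ℝ) (c : ℝ), 0 < η₀ ∧ 0 ≤ c ∧ ∀ η, 0 < η → η ≤ η₀ → Bn C h i b η ⊆ W ∧
      ∀ μ, Thk i η μ → ∃ (Φ : ConHomeo C (kap i b η μ ⁻¹' (h '' C))) (γ : E → E),
        Passed C h i b η c μ M Φ γ := by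
  have hu : CC (fun x => h x i) C := (CC.mk hh hhc).apply i
  obtain ⟨η₀, c, hη₀, hc, H⟩ := prod_band hC i₀ hi₀ hu.cont hu.con hW hLW hbox
  refine ⟨η₀, 2 * c, hη₀, by positivity, fun η hη hle => ?_⟩
  obtain ⟨Γ, h1, h2, h3, h4, h5⟩ := H η hη hle
  refine ⟨h5, fun μ hμ => ?_⟩
  refine exists_passed_of_cht hC ⟨hh, hhc⟩ hinj hη (by positivity) hμ (Γ := Γ) ⟨h1, h2⟩ h3 ?_
  intro z hz s hs
  have := h4 z hz s hs
  calc _ ≤ c * η := this
    _ = _ := by ring

end P073.H345
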