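import Vale.Agent.P073.H345.PassC

/-!
# P073, H345, **[PASSW], finitely many bands**

A compact set `C` with an injective conical map `h`, finitely many levels `{y | y (i j) = a j}` with
bands of thickness `μ j`, where `μ j = 0` off the closed set `Z j` and the pieces
`h C ∩ Z j ∩ {y (i j) = a j}` are pairwise disjoint.
-/

open Set Metric Topology Filter

namespace P073.H345

open P073 P073.TR P073.H936

variable {E F : Type*} [NormedAddCommGroup E] [NormedSpace ℝ E] [NormedAddCommGroup F]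
  [NormedSpace ℝ F] {n : ℕ}

/-- locality -/
theorem CC.of_local {X : Set E} {f : E → F}
    (h : ∀ x ∈ X, ∃ g : E → F, CC g X ∧ ∀ᶠ y in 𝓝 x, y ∈ X → f y = g y) : CC f X := by
  constructor
  · intro x hx
    obtain ⟨g, hg, he⟩ := h x hx
    refine (hg.cont x hx).congr_of_eventuallyEq ?_ (he.self_of_nhds hx)
    filter_upwards [nhdsWithin_le_nhds he, self_mem_nhdsWithin] with y h1 h2
    exact h1 h2
  · intro x hx
    obtain ⟨g, hg, he⟩ := h x hx
    exact (hg.con x hx).congr_nhds (Eventually.of_forall fun _ => Iff.rfl) he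
      (he.self_of_nhds hx)

/-- the fibre over a far point is trivial -/
theorem kap_eq_far {i : Fin n} {b η : ℝ} {μ : (Fin n → ℝ) → ℝ} (hη : 0 < η)
    {y w : Fin n → ℝ} (hy : kap i b η μ y = w) (hw : η ≤ |w i - b|) : y = w := by
  have h1 : η ≤ |y i - b| := by
    have h3 := congrFun hy i
    rw [kap_self] at h3
    have h4 : w i - b = ph η (μ y) (y i - b) := by linarith
    rw [h4] at hw
    exact hw.trans abs_ph_le
  rw [kap_eq_self_of_far hη h1] at hy
  exact hy

/-- the fibre over a point of thickness zero is trivial -/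
theorem kap_eq_zero {i : Fin n} {b η : ℝ} {μ : (Fin n → ℝ) → ℝ} (hμ : Thk i η μ)
    {y w : Fin n → ℝ} (hy : kap i b η μ y = w) (hw : μ w = 0) : y = w := by
  have h1 : μ y = μ w := by rw [← hy]; exact (hμ.indep _ _).symm
  rw [kap_eq_self_of_zero (h1.trans hw)] at hy
  exact hy

theorem mu_kap {i : Fin n} {b η : ℝ} {μ : (Fin n → ℝ) → ℝ} (hμ : Thk i η μ)
    (y : Fin n → ℝ) : μ (kap i b η μ y) = μ y := hμ.indep _ _

/-- the output -/
structure PassedD {ι : Type*} (C : Set E) (h : E → Fin n → ℝ) (κ : (Fin n → ℝ) → Fin n → ℝ)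
    (M : ι → Set E) (Φ : ConHomeo C (κ ⁻¹' (h '' C))) (γ : E → E) : Prop where
  maps : MapsTo γ C C
  cc : CC γ C
  eq : ∀ x ∈ C, κ (Φ.toFun x) = h (γ x)
  iff : ∀ k, ∀ x ∈ C, (γ x ∈ M k ↔ x ∈ M k)
  img : ∀ k, Φ.toFun '' (M k ∩ C) = κ ⁻¹' (h '' (M k ∩ C))

/-- **[PASSW]** for finitely many bands -/
theorem exists_passedD [FiniteDimensional ℝ E] {J ι : Type*} [Finite J] {C : Set E}
    {h : E → Fin n → ℝ} {M : ι → Set E} (hC : IsCompact C) (i₀ : ι) (hi₀ : M i₀ = C)
    (hh : CC h C) (hinj : InjOn h C) (i : J → Fin n) (a : J → ℝ) (Z : J → Set (Fin n → ℝ))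
    (hZ : ∀ j, IsClosed (Z j))
    (hdis : ∀ j j', j ≠ j' → ∀ x ∈ C, h x (i j) = a j → h x ∈ Z j → h x (i j') = a j' →
      h x ∉ Z j')
    (hbox : ∀ j, ∀ x ∈ Lv C h (i j) (a j), ∃ (σ : ℝ →ₗ[ℝ] E) (r : ℝ),
      FlowBox (fun x => h x (i j)) M x σ r) :
    ∃ η₀ : J → ℝ, (∀ j, 0 < η₀ j) ∧ ∀ η : J → ℝ, (∀ j, 0 < η j ∧ η j ≤ η₀ j) →
      ∀ μ : J → (Fin n → ℝ) → ℝ, (∀ j, Thk (i j) (η j) (μ j)) →
      (∀ j y, y ∉ Z j → μ j y = 0) → ∀ κ : (Fin n → ℝ) → Fin n → ℝ,
      (∀ j y, |y (i j) - a j| < η j → y ∈ Z j → κ y = kap (i j) (a j) (η j) (μ j) y) →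
      (∀ y, κ y ∈ h '' C ∨ y ∈ h '' C → (∀ j, y ∈ Z j → η j ≤ |y (i j) - a j|) → κ y = y) →
      ∃ (Φ : ConHomeo C (κ ⁻¹' (h '' C))) (γ : E → E), PassedD C h κ M Φ γ := by
  classical
  have := Fintype.ofFinite J
  have hhC : IsCompact (h '' C) := hC.image_of_continuousOn hh.cont
  -- the pieces
  set Ks : J → ℝ → Set (Fin n → ℝ) := fun j r => h '' C ∩ Z j ∩ {y | |y (i j) - a j| ≤ r} with hKs
  have hKc : ∀ j r, IsCompact (Ks j r) := fun j r =>
    (hhC.inter_right (hZ j)).inter_right (isClosed_le (by fun_prop) (by fun_prop))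
  -- small slabs are disjoint
  obtain ⟨r, hr, hrd⟩ : ∃ r : ℝ, 0 < r ∧ ∀ j j', j ≠ j' → Disjoint (Ks j r) (Ks j' r) := by
    have key : ∀ j j', ∃ r : ℝ, 0 < r ∧ (j ≠ j' → Disjoint (Ks j r) (Ks j' r)) := by
      intro j j'
      by_cases hjj : j = j'
      · exact ⟨1, one_pos, fun h => absurd hjj h⟩
      by_contra hcon
      push Not at hcon
      have h1 : ∀ m : ℕ, ∃ y, y ∈ Ks j (1 / (m + 1)) ∩ Ks j' (1 / (m + 1)) := by
        intro m
        obtain ⟨-, h2⟩ := hcon (1 / (m + 1)) (by positivity)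
        obtain ⟨y, hy1, hy2⟩ := Set.not_disjoint_iff.1 h2
        exact ⟨y, hy1, hy2⟩
      choose y hy using h1
      obtain ⟨z, -, φ, hφ, hz⟩ := hhC.tendsto_subseq (fun m => (hy m).1.1.1)
      have hzC : z ∈ h '' C ∩ Z j := ((hhC.inter_right (hZ j)).isClosed).mem_of_tendsto hz
        (Eventually.of_forall fun m => (hy (φ m)).1.1)
      have hzC' : z ∈ Z j' := (hZ j').mem_of_tendsto hz
        (Eventually.of_forall fun m => (hy (φ m)).2.1.2)
      have hlim : Tendsto (fun m : ℕ => (1 : ℝ) / ((φ m : ℝ) + 1)) atTop (𝓝 0) :=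
        tendsto_one_div_add_atTop_nhds_zero_nat.comp hφ.tendsto_atTop
      have hz1 : |z (i j) - a j| ≤ 0 := by
        refine le_of_tendsto_of_tendsto (((tendsto_pi_nhds.1 hz (i j)).sub_const (a j)).abs)
          hlim (Eventually.of_forall fun m => ?_)
        have := (hy (φ m)).1.2
        exact this
      have hz2 : |z (i j') - a j'| ≤ 0 := by
        refine le_of_tendsto_of_tendsto (((tendsto_pi_nhds.1 hz (i j')).sub_const (a j')).abs)
          hlim (Eventually.of_forall fun m => ?_)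
        have := (hy (φ m)).2.2
        exact this
      obtain ⟨⟨x, hx, rfl⟩, hxZ⟩ := hzC
      exact hdis j j' hjj x hx (by linarith [abs_nonpos_iff.1 hz1]) hxZ
        (by linarith [abs_nonpos_iff.1 hz2]) hzC'
    choose r hr hrd using key
    obtain ⟨r₀, hr₀, hle⟩ : ∃ r₀ : ℝ, 0 < r₀ ∧ ∀ j j', r₀ ≤ r j j' := by
      by_cases hne : Nonempty J
      · obtain ⟨⟨j₀, j₁⟩, hmin⟩ := Finite.exists_min (fun p : J × J => r p.1 p.2)
        exact ⟨r j₀ j₁, hr _ _, fun j j' => hmin (j, j')⟩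
      · exact ⟨1, one_pos, fun j => absurd ⟨j⟩ hne⟩
    refine ⟨r₀, hr₀, fun j j' hjj => (hrd j j' hjj).mono ?_ ?_⟩
    · exact fun y hy => ⟨hy.1, le_trans hy.2 (hle j j')⟩
    · exact fun y hy => ⟨hy.1, le_trans hy.2 (hle j j')⟩
  -- disjoint neighbourhoods
  obtain ⟨δ, hδ, hδd⟩ : ∃ δ : ℝ, 0 < δ ∧ ∀ j j', j ≠ j' →
      Disjoint (cthickening δ (Ks j r)) (cthickening δ (Ks j' r)) := by
    have key : ∀ j j', ∃ δ : ℝ, 0 < δ ∧ (j ≠ j' →
        Disjoint (cthickening δ (Ks j r)) (cthickening δ (Ks j' r))) := by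
      intro j j'
      by_cases hjj : j = j'
      · exact ⟨1, one_pos, fun h => absurd hjj h⟩
      obtain ⟨δ, hδ, h1⟩ := (hrd j j' hjj).exists_cthickenings (hKc j r) (hKc j' r).isClosed
      exact ⟨δ, hδ, fun _ => h1⟩
    choose δ hδ hδd using key
    obtain ⟨δ₀, hδ₀, hle⟩ : ∃ δ₀ : ℝ, 0 < δ₀ ∧ ∀ j j', δ₀ ≤ δ j j' := by
      by_cases hne : Nonempty J
      · obtain ⟨⟨j₀, j₁⟩, hmin⟩ := Finite.exists_min (fun p : J × J => δ p.1 p.2)
        exact ⟨δ j₀ j₁, hδ _ _, fun j j' => hmin (j, j')⟩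
      · exact ⟨1, one_pos, fun j => absurd ⟨j⟩ hne⟩
    exact ⟨δ₀, hδ₀, fun j j' hjj => (hδd j j' hjj).mono (cthickening_mono (hle j j') _)
      (cthickening_mono (hle j j') _)⟩
  -- uniform continuity
  obtain ⟨ρ, hρ, huc⟩ : ∃ ρ : ℝ, 0 < ρ ∧ ∀ x ∈ C, ∀ z ∈ C, dist x z < ρ →
      dist (h x) (h z) < min δ (r / 2) := by
    have := Metric.uniformContinuousOn_iff.1 (hC.uniformContinuousOn_of_continuous hh.cont)
      (min δ (r / 2)) (by positivity)
    exact this
  have hb := fun j => exists_passed (M := M) (i := i j) (b := a j) hC i₀ hi₀ hh.cont hh.con hinj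
    isOpen_univ (subset_univ _) (hbox j)
  choose η₁ c hη₁ hc hpass using hb
  refine ⟨fun j => min (η₁ j) (min (r / 2) (ρ / (2 * (c j + 1)))), fun j => ?_, ?_⟩
  · have := hη₁ j; have := hc j; positivity
  intro η hη μ hμ hμZ κ hκ1 hκ2
  have hη0 : ∀ j, 0 < η j := fun j => (hη j).1
  have hηr : ∀ j, η j ≤ r / 2 := fun j => (hη j).2.trans ((min_le_right _ _).trans (min_le_left _ _))
  have hηc : ∀ j, c j * η j < ρ := by
    intro j
    have h1 : η j ≤ ρ / (2 * (c j + 1)) :=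
      (hη j).2.trans ((min_le_right _ _).trans (min_le_right _ _))
    have hcj := hc j
    rw [le_div_iff₀ (by positivity)] at h1
    nlinarith [hη0 j]
  choose Φj γj hP using fun j =>
    (hpass j (η j) (hη0 j) ((hη j).2.trans (min_le_left _ _))).2 (μ j) (hμ j)
  -- the open pieces
  set U : J → Set E := fun j => {x | x ∈ C ∧ |h x (i j) - a j| < η j ∧
    h x ∈ thickening δ (Ks j r)} with hU
  have hUmem : ∀ j x, x ∈ C → |h x (i j) - a j| < η j → h x ∈ Z j → x ∈ U j := by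
    intro j x hx h1 h2
    refine ⟨hx, h1, self_subset_thickening hδ _ ⟨⟨⟨x, hx, rfl⟩, h2⟩, ?_⟩⟩
    show |h x (i j) - a j| ≤ r
    linarith [hηr j]
  have hUd : ∀ j j' x, x ∈ U j → x ∈ U j' → j = j' := by
    intro j j' x h1 h2
    by_contra hjj
    exact Set.disjoint_left.1 (hδd j j' hjj) (thickening_subset_cthickening _ _ h1.2.2)
      (thickening_subset_cthickening _ _ h2.2.2)
  have hoff : ∀ j, ∀ x ∈ C, x ∉ U j → (Φj j).toFun x = h x ∧ γj j x = x := by
    intro j x hx hxU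
    rcases le_or_gt (η j) |h x (i j) - a j| with h1 | h1
    · exact (hP j).far x hx h1
    refine (hP j).off x hx fun z hz hzx => ?_
    by_contra hne
    have hzZ : h z ∈ Z j := by
      by_contra h2; exact hne (hμZ j _ h2)
    have hd : dist (h x) (h z) < min δ (r / 2) := by
      refine huc x hx z hz ?_
      rw [dist_comm, dist_eq_norm]
      exact lt_of_le_of_lt hzx (hηc j)
    refine hxU ⟨hx, h1, mem_thickening_iff.2 ⟨h z, ⟨⟨⟨z, hz, rfl⟩, hzZ⟩, ?_⟩,
      hd.trans_le (min_le_left _ _)⟩⟩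
    show |h z (i j) - a j| ≤ r
    have h3 : dist (h x (i j)) (h z (i j)) < r / 2 :=
      (dist_le_pi_dist (h x) (h z) (i j)).trans_lt (hd.trans_le (min_le_right _ _))
    rw [dist_eq_norm, Real.norm_eq_abs] at h3
    have h4 : h z (i j) - a j = (h x (i j) - a j) - (h x (i j) - h z (i j)) := by ring
    rw [h4]
    refine (abs_sub _ _).trans ?_
    linarith [hηr j]
  -- trivial fibres off `U j`
  have hfib : ∀ j, ∀ z ∈ C, z ∉ U j → ∀ y, kap (i j) (a j) (η j) (μ j) y = h z → y = h z := by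
    intro j z hz hzU y hy
    rcases le_or_gt (η j) |h z (i j) - a j| with h1 | h1
    · exact kap_eq_far (hη0 j) hy h1
    · refine kap_eq_zero (hμ j) hy (hμZ j _ fun h2 => hzU (hUmem j z hz h1 h2))
  have hγU : ∀ j, ∀ x ∈ U j, γj j x ∈ U j := by
    intro j x hx
    by_contra h1
    have hzC := (hP j).maps hx.1
    have h2 := hfib j _ hzC h1 _ ((hP j).eq x hx.1)
    obtain ⟨h3, h4⟩ := hoff j _ hzC h1
    have h5 : (Φj j).toFun x = (Φj j).toFun (γj j x) := by rw [h2, h3]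
    have h6 := (Φj j).injOn hx.1 hzC h5
    exact h1 (h6 ▸ hx)
  -- the maps
  set f : E → Fin n → ℝ := fun x => if H : ∃ j, x ∈ U j then (Φj H.choose).toFun x else h x with hf
  set γ : E → E := fun x => if H : ∃ j, x ∈ U j then γj H.choose x else x with hγ
  have hfU : ∀ j, ∀ x ∈ U j, f x = (Φj j).toFun x ∧ γ x = γj j x := by
    intro j x hx
    have H : ∃ j, x ∈ U j := ⟨j, hx⟩
    have e : H.choose = j := hUd _ _ x H.choose_spec hx
    simp only [hf, hγ]
    rw [dif_pos H, dif_pos H, e]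
    exact ⟨rfl, rfl⟩
  have hf0 : ∀ x, (∀ j, x ∉ U j) → f x = h x ∧ γ x = x := by
    intro x hx
    have H : ¬ ∃ j, x ∈ U j := by push Not; exact hx
    simp only [hf, hγ]
    rw [dif_neg H, dif_neg H]
    exact ⟨rfl, rfl⟩
  have hloc : ∀ x ∈ C, (∃ j, ∀ᶠ y in 𝓝 x, y ∈ C → f y = (Φj j).toFun y ∧ γ y = γj j y) ∨
      ∀ᶠ y in 𝓝 x, y ∈ C → f y = h y ∧ γ y = y := by
    intro x hx
    have hcl : ∀ j, h x ∉ cthickening δ (Ks j r) → ∀ᶠ y in 𝓝 x, y ∈ C → y ∉ U j := by
      intro j hj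
      have h1 : ∀ᶠ y in 𝓝[C] x, h y ∉ cthickening δ (Ks j r) :=
        (hh.cont x hx).eventually (isClosed_cthickening.isOpen_compl.mem_nhds hj)
      rw [eventually_nhdsWithin_iff] at h1
      filter_upwards [h1] with y hy hyC hyU
      exact hy hyC (thickening_subset_cthickening _ _ hyU.2.2)
    by_cases H : ∃ j, h x ∈ cthickening δ (Ks j r)
    · obtain ⟨j, hj⟩ := H
      left
      refine ⟨j, ?_⟩
      have h1 : ∀ᶠ y in 𝓝 x, ∀ j', j' ≠ j → y ∈ C → y ∉ U j' := by
        refine eventually_all.2 fun j' => ?_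
        by_cases hjj : j' = j
        · exact Eventually.of_forall fun y h => absurd hjj h
        · filter_upwards [hcl j' fun h2 => Set.disjoint_left.1 (hδd j' j hjj) h2 hj] with y hy _
          exact hy
      filter_upwards [h1] with y hy hyC
      by_cases hyU : y ∈ U j
      · exact hfU j y hyU
      · have h2 := hf0 y fun j' => by
          by_cases hjj : j' = j
          · rw [hjj]; exact hyU
          · exact hy j' hjj hyC
        obtain ⟨h3, h4⟩ := hoff j y hyC hyU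
        rw [h2.1, h2.2, h3, h4]
        exact ⟨rfl, rfl⟩
    · right
      push Not at H
      filter_upwards [eventually_all.2 fun j => hcl j (H j)] with y hy hyC
      exact hf0 y fun j => hy j hyC
  have hccf : CC f C := CC.of_local fun x hx => by
    rcases hloc x hx with ⟨j, hj⟩ | hj
    · exact ⟨(Φj j).toFun, (Φj j).cc, hj.mono fun y hy hyC => (hy hyC).1⟩
    · exact ⟨h, hh, hj.mono fun y hy hyC => (hy hyC).1⟩
  have hccγ : CC γ C := CC.of_local fun x hx => by
    rcases hloc x hx with ⟨j, hj⟩ | hj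
    · exact ⟨γj j, (hP j).cc, hj.mono fun y hy hyC => (hy hyC).2⟩
    · exact ⟨fun y => y, ⟨continuousOn_id, conicalOn_id hh.con.conicalSet⟩,
        hj.mono fun y hy hyC => (hy hyC).2⟩
  have hmaps : MapsTo γ C C := by
    intro x hx
    by_cases H : ∃ j, x ∈ U j
    · obtain ⟨j, hj⟩ := H
      rw [(hfU j x hj).2]; exact (hP j).maps hx
    · push Not at H
      rw [(hf0 x H).2]; exact hx
  have heq : ∀ x ∈ C, κ (f x) = h (γ x) := by
    intro x hx
    by_cases H : ∃ j, x ∈ U j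
    · obtain ⟨j, hj⟩ := H
      rw [(hfU j x hj).1, (hfU j x hj).2, ← (hP j).eq x hx]
      have hγx := hγU j x hj
      have hkap := (hP j).eq x hx
      -- the point is in the band and in `Z j` or the map is the identity there
      by_cases h1 : (Φj j).toFun x ∈ Z j
      · by_cases h2 : |(Φj j).toFun x (i j) - a j| < η j
        · exact hκ1 j _ h2 h1
        · push Not at h2
          exfalso
          rw [kap_eq_self_of_far (hη0 j) h2] at hkap
          rw [hkap] at h2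
          exact absurd hγx.2.1 (not_lt.2 h2)
      · have h3 : kap (i j) (a j) (η j) (μ j) ((Φj j).toFun x) = (Φj j).toFun x :=
          kap_eq_self_of_zero (hμZ j _ h1)
        rw [h3]
        have h4 : (Φj j).toFun x = h (γj j x) := h3.symm.trans hkap
        -- only the band `j` is near this point
        have h5 : (∀ j', (Φj j).toFun x ∈ Z j' → η j' ≤ |(Φj j).toFun x (i j') - a j'|) := by
          intro j' hj'
          by_contra h6
          push Not at h6
          rw [h4] at h6 hj'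
          have h7 := hUmem j' _ ((hP j).maps hx) h6 hj'
          have h8 := hUd _ _ _ h7 hγx
          subst h8
          exact h1 (h4 ▸ hj')
        rw [hκ2 _ (Or.inr ⟨_, (hP j).maps hx, h4.symm⟩) h5, h4]
    · push Not at H
      rw [(hf0 x H).1, (hf0 x H).2]
      refine hκ2 _ (Or.inr ⟨x, hx, rfl⟩) fun j hj => ?_
      by_contra h1
      push Not at h1
      exact H j (hUmem j x hx h1 hj)
  have hUγ : ∀ j, ∀ x ∈ C, γ x ∈ U j → x ∈ U j := by
    intro j x hx h1
    by_cases H : ∃ j, x ∈ U j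
    · obtain ⟨j', hj'⟩ := H
      rw [(hfU j' x hj').2] at h1
      rwa [hUd _ _ _ h1 (hγU j' x hj')]
    · push Not at H
      rwa [(hf0 x H).2] at h1
  have hfinj : InjOn f C := by
    intro x hx x' hx' he
    have h1 : γ x = γ x' := by
      apply hinj (hmaps hx) (hmaps hx')
      rw [← heq x hx, ← heq x' hx', he]
    by_cases H : ∃ j, γ x ∈ U j
    · obtain ⟨j, hj⟩ := H
      have h2 := hUγ j x hx hj
      have h3 := hUγ j x' hx' (h1 ▸ hj)
      rw [(hfU j x h2).1, (hfU j x' h3).1] at he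
      exact (Φj j).injOn hx hx' he
    · push Not at H
      have h2 : ∀ x ∈ C, (∀ j, γ x ∉ U j) → γ x = x := by
        intro x hx hn
        by_cases H' : ∃ j, x ∈ U j
        · obtain ⟨j, hj⟩ := H'
          exfalso
          apply hn j
          rw [(hfU j x hj).2]
          exact hγU j x hj
        · push Not at H'
          exact (hf0 x H').2
      rw [← h2 x hx H, ← h2 x' hx' (h1 ▸ H), h1]
  have hfimg : f '' C = κ ⁻¹' (h '' C) := by
    ext y
    constructor
    · rintro ⟨x, hx, rfl⟩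
      exact ⟨γ x, hmaps hx, (heq x hx).symm⟩
    · rintro ⟨c, hcC, hcy⟩
      have main : ∀ j, kap (i j) (a j) (η j) (μ j) y ∈ h '' C →
          (∀ x ∈ C, (Φj j).toFun x = y → x ∉ U j → ∃ x' ∈ C, f x' = y) → ∃ x ∈ C, f x = y := by
        intro j hj hno
        have h1 : y ∈ (Φj j).toFun '' C := by rw [(Φj j).image_eq]; exact hj
        obtain ⟨x, hx, hxy⟩ := h1
        by_cases hxU : x ∈ U j
        · exact ⟨x, hx, (hfU j x hxU).1.trans hxy⟩
        · exact hno x hx hxy hxU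
      by_cases H : ∃ j, y ∈ Z j ∧ |y (i j) - a j| < η j
      · obtain ⟨j, h1, h2⟩ := H
        refine main j ⟨c, hcC, by rw [hcy, hκ1 j y h2 h1]⟩ fun x hx hxy hxU => ?_
        exfalso
        rw [(hoff j x hx hxU).1] at hxy
        subst hxy
        exact hxU (hUmem j x hx h2 h1)
      · push Not at H
        have h1 : κ y = y := hκ2 y (Or.inl ⟨c, hcC, hcy⟩) H
        rw [h1] at hcy
        by_cases H' : ∃ j, c ∈ U j
        · obtain ⟨j, hj⟩ := H'
          have h2 : y ∉ Z j := by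
            intro h3
            have h4 := H j h3
            rw [← hcy] at h4
            exact absurd hj.2.1 (not_lt.2 h4)
          have h3 : kap (i j) (a j) (η j) (μ j) y = y := kap_eq_self_of_zero (hμZ j _ h2)
          refine main j (by rw [h3]; exact ⟨c, hcC, hcy⟩) fun x hx hxy hxU => ?_
          exfalso
          rw [(hoff j x hx hxU).1, ← hcy] at hxy
          exact hxU ((hinj hx hcC hxy) ▸ hj)
        · push Not at H'
          exact ⟨c, hcC, by rw [(hf0 c H').1, hcy]⟩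
  have hγM : ∀ k, ∀ x ∈ C, (γ x ∈ M k ↔ x ∈ M k) := by
    intro k x hx
    by_cases H : ∃ j, x ∈ U j
    · obtain ⟨j, hj⟩ := H
      rw [(hfU j x hj).2]; exact (hP j).iff k x hx
    · push Not at H
      rw [(hf0 x H).2]
  obtain ⟨Φ, hΦ⟩ : ∃ Φ : ConHomeo C (κ ⁻¹' (h '' C)), Φ.toFun = f :=
    ⟨ConHomeo.ofCompact hC f hccf.cont hfinj hccf.con hfimg, ConHomeo.ofCompact_toFun _ _ _ _ _ _⟩
  refine ⟨Φ, γ, hmaps, hccγ, fun x hx => by rw [hΦ]; exact heq x hx, hγM, fun k => ?_⟩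
  ext y
  constructor
  · rintro ⟨x, ⟨hxM, hxC⟩, rfl⟩
    refine ⟨γ x, ⟨(hγM k x hxC).2 hxM, hmaps hxC⟩, ?_⟩
    rw [hΦ, heq x hxC]
  · rintro ⟨x', ⟨hxM, hxC⟩, hxy⟩
    have hy : y ∈ f '' C := by rw [hfimg]; exact ⟨x', hxC, hxy⟩
    obtain ⟨x, hx, rfl⟩ := hy
    rw [heq x hx] at hxy
    have h1 : x' = γ x := hinj hxC (hmaps hx) hxy
    exact ⟨x, ⟨(hγM k x hx).1 (h1 ▸ hxM), hx⟩, by rw [hΦ]⟩

end P073.H345
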