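import Vale.Agent.P073.H238.VarEv
import Vale.Agent.P073.H238.RT0

/-!
# P073, H345: **[WE3]**, part 1: the variation in a slab is at most the variation of the clamped
coordinate
-/

open Set Metric Topology Filter MeasureTheory
open scoped ENNReal

namespace Vale.Agent.P073.H345W

open _root_.P073 _root_.P073.Net _root_.P073.PA691
open Vale.Agent.P073.St (V)
open _root_.P073.Croft (varIn)
open Vale.Agent.P073.H238.K3 (clm)

theorem clm_lip' {lo hi : ℝ} (s t : ℝ) : |clm lo hi s - clm lo hi t| ≤ |s - t| := by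
  unfold clm
  refine (abs_max_sub_max_le_max _ _ _ _).trans ?_
  rw [sub_self, abs_zero]
  refine max_le (abs_nonneg _) ((abs_min_sub_min_le_max _ _ _ _).trans ?_)
  rw [sub_self, abs_zero]
  exact max_le (abs_nonneg _) le_rfl

/-- an affine function in a slab -/
theorem vol_slab {c w x y lo hi : ℝ} :
    ‖w‖ₑ * volume {s | s ∈ Icc x y ∧ lo ≤ c + (s - x) * w ∧ c + (s - x) * w ≤ hi} ≤
      edist (clm lo hi (c + (y - x) * w)) (clm lo hi c) := by
  set S : Set ℝ := {s | s ∈ Icc x y ∧ lo ≤ c + (s - x) * w ∧ c + (s - x) * w ≤ hi} with hS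
  rcases lt_trichotomy w 0 with hw | hw | hw
  · have h1 : S ⊆ Icc (x + (min hi c - c) / w) (x + (max lo (c + (y - x) * w) - c) / w) := by
      rintro s ⟨⟨h2, h3⟩, h4, h5⟩
      have h6 : c + (s - x) * w ≤ min hi c := le_min h5 (by nlinarith)
      have h7 : max lo (c + (y - x) * w) ≤ c + (s - x) * w := max_le h4 (by nlinarith)
      constructor
      · have : (min hi c - c) / w ≤ s - x := by
          rw [div_le_iff_of_neg hw]; linarith
        linarith
      · have : s - x ≤ (max lo (c + (y - x) * w) - c) / w := by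
          rw [le_div_iff_of_neg hw]; linarith
        linarith
    have h8 : volume S ≤ ENNReal.ofReal ((min hi c - max lo (c + (y - x) * w)) / (-w)) := by
      refine (measure_mono h1).trans ?_
      rw [Real.volume_Icc]
      refine ENNReal.ofReal_le_ofReal (le_of_eq ?_)
      have : w ≠ 0 := hw.ne
      field_simp
      ring
    rw [edist_comm, edist_dist, Real.dist_eq, Real.enorm_eq_ofReal_abs, abs_of_neg hw]
    refine (mul_le_mul_right h8 _).trans ?_
    rw [← ENNReal.ofReal_mul (by linarith), mul_div_cancel₀ _ (by linarith : -w ≠ 0)]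
    refine ENNReal.ofReal_le_ofReal (le_trans ?_ (le_abs_self _))
    unfold clm
    have h9 : min hi c ≤ max lo (min hi c) := le_max_right _ _
    have h10 : max lo (min hi (c + (y - x) * w)) ≤ max lo (c + (y - x) * w) :=
      max_le_max le_rfl (min_le_right _ _)
    linarith
  · rw [hw]; simp
  · have h1 : S ⊆ Icc (x + (max lo c - c) / w) (x + (min hi (c + (y - x) * w) - c) / w) := by
      rintro s ⟨⟨h2, h3⟩, h4, h5⟩
      have h6 : c + (s - x) * w ≤ min hi (c + (y - x) * w) := le_min h5 (by nlinarith)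
      have h7 : max lo c ≤ c + (s - x) * w := max_le h4 (by nlinarith)
      constructor
      · have : (max lo c - c) / w ≤ s - x := by
          rw [div_le_iff₀ hw]; linarith
        linarith
      · have : s - x ≤ (min hi (c + (y - x) * w) - c) / w := by
          rw [le_div_iff₀ hw]; linarith
        linarith
    have h8 : volume S ≤ ENNReal.ofReal ((min hi (c + (y - x) * w) - max lo c) / w) := by
      refine (measure_mono h1).trans ?_
      rw [Real.volume_Icc]
      refine ENNReal.ofReal_le_ofReal (le_of_eq ?_)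
      have : w ≠ 0 := hw.ne'
      field_simp
      ring
    rw [edist_dist, Real.dist_eq, Real.enorm_eq_ofReal_abs, abs_of_pos hw]
    refine (mul_le_mul_right h8 _).trans ?_
    rw [← ENNReal.ofReal_mul hw.le, mul_div_cancel₀ _ hw.ne']
    refine ENNReal.ofReal_le_ofReal (le_trans ?_ (le_abs_self _))
    unfold clm
    have h9 : min hi (c + (y - x) * w) ≤ max lo (min hi (c + (y - x) * w)) := le_max_right _ _
    have h10 : max lo (min hi c) ≤ max lo c := max_le_max le_rfl (min_le_right _ _)
    linarith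

/-- **the variation in a slab** is at most the variation of the clamped coordinate -/
theorem varIn_le_clm {q : ℝ → V} {a b : ℝ} (hab : a ≤ b) (hq : ConicalOn q (Icc a b)) (i : Fin 3)
    {P : Set V} (hP : Convex ℝ P) (lo hi : ℝ) :
    varIn q i (P ∩ {y | lo ≤ y i ∧ y i ≤ hi}) a b ≤
      eVariationOn (fun t => clm lo hi (q t i)) (Icc a b) := by
  have hP' : Convex ℝ (P ∩ {y : V | lo ≤ y i ∧ y i ≤ hi}) := by
    refine hP.inter ?_
    intro y hy z hz α β hα hβ hαβ
    have e : (α • y + β • z) i = α * y i + β * z i := by simp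
    constructor
    · rw [e]
      calc lo = α * lo + β * lo := by rw [← add_mul, hαβ, one_mul]
        _ ≤ _ := add_le_add (mul_le_mul_of_nonneg_left hy.1 hα)
            (mul_le_mul_of_nonneg_left hz.1 hβ)
    · rw [e]
      calc α * y i + β * z i ≤ α * hi + β * hi :=
            add_le_add (mul_le_mul_of_nonneg_left hy.2 hα) (mul_le_mul_of_nonneg_left hz.2 hβ)
        _ = hi := by rw [← add_mul, hαβ, one_mul]
  have piece : ∀ x y : ℝ, x ≤ y → ∀ w : V, (∀ s ∈ Icc x y, q s = q x + (s - x) • w) →
      varIn q i (P ∩ {y | lo ≤ y i ∧ y i ≤ hi}) x y ≤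
        eVariationOn (fun t => clm lo hi (q t i)) (Icc x y) := by
    intro x y hxy w hw
    rw [Croft.piece_varIn hw hP']
    have e : ∀ s ∈ Icc x y, q s i = q x i + (s - x) * w i := fun s hs => by
      rw [hw s hs, Pi.add_apply, Pi.smul_apply, smul_eq_mul]
    have h1 : volume ((q ⁻¹' (P ∩ {y | lo ≤ y i ∧ y i ≤ hi})) ∩ Ioc x y) ≤
        volume {s | s ∈ Icc x y ∧ lo ≤ q x i + (s - x) * w i ∧ q x i + (s - x) * w i ≤ hi} := by
      refine measure_mono ?_
      rintro s ⟨⟨-, h2, h3⟩, h4⟩
      have h5 : s ∈ Icc x y := ⟨h4.1.le, h4.2⟩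
      rw [e s h5] at h2 h3
      exact ⟨h5, h2, h3⟩
    refine (mul_le_mul_right h1 _).trans (vol_slab.trans ?_)
    rw [← e y (right_mem_Icc.2 hxy)]
    exact eVariationOn.edist_le (fun t => clm lo hi (q t i)) (right_mem_Icc.2 hxy)
      (left_mem_Icc.2 hxy)
  refine icc_chain (P := fun x y => varIn q i (P ∩ {y | lo ≤ y i ∧ y i ≤ hi}) x y ≤
    eVariationOn (fun t => clm lo hi (q t i)) (Icc x y)) hab ?_ ?_ ?_ ?_
  · refine piece a a le_rfl 0 ?_
    intro s hs
    rw [Icc_self, mem_singleton_iff] at hs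
    subst hs; simp
  · intro x y z _ hxy hyz _ h1 h2
    have h3 := eVariationOn.Icc_add_Icc (fun t => clm lo hi (q t i)) hxy hyz (s := univ)
      (mem_univ y)
    simp only [univ_inter] at h3
    rw [Croft.varIn_add q i _ hxy hyz, ← h3]
    exact add_le_add h1 h2
  · intro x hx hxb
    obtain ⟨r, hr, hrb, w, hw⟩ := conical_right' hq hx hxb
    exact ⟨r, hr, hrb, piece _ _ (by linarith) w hw⟩
  · intro x hx hax
    obtain ⟨r, hr, hra, w, hw⟩ := conical_left' hq hx hax
    refine ⟨r, hr, hra, fun y hy => piece y x hy.2.le w ?_⟩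
    intro s hs
    rw [hw s ⟨hy.1.le.trans hs.1, hs.2⟩, hw y ⟨hy.1.le, hy.2.le⟩]
    module

end Vale.Agent.P073.H345W
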