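import Vale.Agent.P073.H345.We3A
import Vale.Agent.P073.H345.JnM
import Vale.Agent.P073.H190.NumP3

/-!
# P073, H345: **[WE3]**, part 2: the crossings of all edges with the levels of ROUND P

`met_rel`: the boxes of round T which are met by an edge at a plate are related to the plate;
`cnt_all`: the number of crossings of `h1` on any edge with the levels of one direction.
-/

set_option linter.unusedSectionVars false

open Set Metric Topology Filter MeasureTheory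
open scoped ENNReal

namespace Vale.Agent.P073.H345W

open _root_.P073 _root_.P073.Net _root_.P073.PA691
open Vale.Agent.P073.St (V)
open Vale.Agent.P073.H471 Vale.Agent.P073.H267
open Vale.Agent.P073.H73 (Mesh onSeg)
open Vale.Agent.P073.H193 (Edges)
open Vale.Agent.P073.H926 Vale.Agent.P073.H926.KIn3
open _root_.P073.Croft (varIn onS cross levs)
open _root_.P073.H267 (tvE lenE)
open _root_.P073.H345 (tg tg_ne PK PB_sub_PK PLev)
open Vale.Agent.P073.H190.Tvp (crK)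
open Vale.Agent.P073.H190.Num3
open Vale.Agent.P073.H669 (Rel)
open Vale.Agent.P073.H687 (Marks)
open Vale.Agent.P073.H238.K3 (clm)

section geo

variable {Λ : Set V} {v : V} {K : BoxCx Λ v} {S₀ : Rad K} {W : Wid K S₀} {B : Boxes W} {G : Geo B}

/-- the boxes of round T near a square -/
theorem rel_of_ss {s : K.S} {y : V} (hy : y ∈ W.ss s) {b : TBx K} (hb : y ∈ G.TB false b) :
    Rel s b.ax b := by
  rcases b with e | H
  · have hZe := Geo.TB_subset_Ze e hb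
    exact ⟨edge_subset_sq hy hZe.1 (Ze_nJ hZe), rfl⟩
  · have hH : H.s = s := by
      by_contra hne
      exact (disjoint_ss (W := W) hne).notMem_of_mem_left (Zs_subset (Geo.TB_subset_Zs H hb)) hy
    exact ⟨hH, rfl⟩

end geo

/-- the number of elements of a union -/
theorem cnt_biUnion_le {α : Type*} (F : Finset α) (A : α → Set ℝ) :
    cnt (⋃ p ∈ F, A p) ≤ ∑ p ∈ F, cnt (A p) := by
  classical
  induction F using Finset.induction_on with
  | empty => simp [cnt]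
  | insert a F ha ih =>
    rw [Finset.sum_insert ha]
    refine le_trans (le_of_eq ?_) ((Croft.cnt_union_le (A a) (⋃ p ∈ F, A p)).trans
      (add_le_add le_rfl ih))
    congr 1
    simp

/-- `clm` is constant below `lo` and above `hi` -/
theorem clm_const {lo hi : ℝ} {A : Set ℝ} {t : ℝ} (ht : t ∈ A)
    (h : (∀ s ∈ A, s ≤ lo) ∨ ∀ s ∈ A, hi ≤ s) : ∀ s ∈ A, clm lo hi s = clm lo hi t := by
  intro s hs
  unfold clm
  rcases h with h | h
  · rw [max_eq_left ((min_le_right _ _).trans (h s hs)),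
      max_eq_left ((min_le_right _ _).trans (h t ht))]
  · rw [min_eq_left (h s hs), min_eq_left (h t ht)]

variable {c₀ n δ : ℝ} {j : ℕ} {Ω Λ : Set V} {v w : V} {ρ : V → ℝ} {M : Mesh Ω} {h h1 : ConHomeo Ω Λ}
  {J₀ J : Set (ℕ × (Fin 3 → ℤ))} {P Z : Set M.ι} {K : BoxCx Λ w} {E : Edges M}

variable (D : KIn3 c₀ n j δ v w ρ M h J₀ J P Z) (C : Cells ρ w K)
include D C

variable (hn : ∀ x ∈ Ω, ∀ q, h.toFun x ∈ K.cube q → ‖h1.toFun x - h.toFun x‖ ≤ (D.G C).om q)
include hn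

/-- **the boxes which are met by an edge at a plate** -/
theorem met_rel {e : E.ε} {s : K.S} (hs : s ∈ pS C J₀) {x₁ : V} (hx₁ : x₁ ∈ E.seg e)
    (hx₁s : h1.toFun x₁ ∈ PK (D.G C) s) {b : TBx K}
    (hm : (h.toFun '' E.seg e ∩ (D.G C).TB false b).Nonempty) : Rel s b.ax b := by
  obtain ⟨_, ⟨x₀, hx₀, rfl⟩, hxb⟩ := hm
  have hτ := (D.B C).τ_pos s
  have hoτ := (D.G C).oS_τ s
  have h2 := (at_PK3 D C hn hs hx₁ hx₁s hx₀).1
  have hX : h.toFun x₀ ∈ PX (D.G C) s := PX_of_near hx₁s (by linarith)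
  exact rel_of_ss (PX_sub_ss s hX) hxb

omit hn in
/-- **the clamped coordinate** in a sub-window without marked points -/
theorem tv_sub {e : E.ε} {s : K.S} {β : Bool} {Jm R : K.S → ℝ}
    {Q : K.S → Bool → Finset ℝ} (HQ : Marks (D.G C) Jm R Q) {r : K.S → ℝ} (hrJ : r s ≤ Jm s)
    (hr : ∀ b ∈ pB C J₀, Rel s (tg s β) b → 50 * ω3T δ C b ≤ r s)
    (hrel : ∀ b ∈ pB C J₀, (h.toFun '' E.seg e ∩ (D.G C).TB false b).Nonempty →
      Rel s (tg s β) b) {T : ℝ≥0∞}
    (htv : ∀ f : ℝ → ℝ, (∀ s t, |f s - f t| ≤ |s - t|) →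
      (∀ b ∈ pB C J₀, (h.toFun '' E.seg e ∩ (D.G C).TB false b).Nonempty →
        (∀ s ∈ Icc ((D.G C).tlo true b b.ax) ((D.G C).tlo true b b.ax + 50 * ω3T δ C b),
          f s = f ((D.G C).tlo true b b.ax)) ∧
        ∀ s ∈ Icc ((D.G C).thi true b b.ax - 50 * ω3T δ C b) ((D.G C).thi true b b.ax),
          f s = f ((D.G C).thi true b b.ax)) →
      eVariationOn (fun t : ℝ => f (h1.toFun (E.a e + t • (E.b e - E.a e)) (tg s β)))
        (Icc 0 1) ≤ T)
    {p : ℝ × ℝ} (h1p : K.slo s (tg s β) + (D.G C).a s ≤ p.1)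
    (h2p : p.2 ≤ K.shi s (tg s β) - (D.G C).a s)
    (h3p : ∀ q ∈ Q s β, q + r s ≤ p.1 ∨ p.2 ≤ q - r s) :
    eVariationOn (fun t : ℝ => clm p.1 p.2 (h1.toFun (E.a e + t • (E.b e - E.a e)) (tg s β)))
      (Icc 0 1) ≤ T := by
  refine htv (clm p.1 p.2) (fun _ _ => clm_lip' _ _) fun b hb hm => ?_
  have hbr := hrel b hb hm
  have hω := D.ω3T_pos C b
  have h50 := hr b hb hbr
  constructor
  · refine clm_const (left_mem_Icc.2 (by linarith)) ?_
    rcases HQ.ends s β b hbr _ (Or.inl rfl) with h4 | h4 | h4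
    · exact Or.inl fun s' hs' => by linarith [hs'.2]
    · exact Or.inr fun s' hs' => by linarith [hs'.1]
    · rcases h3p _ h4 with h5 | h5
      · exact Or.inl fun s' hs' => by linarith [hs'.2]
      · exact Or.inr fun s' hs' => by linarith [hs'.1]
  · refine clm_const (right_mem_Icc.2 (by linarith)) ?_
    rcases HQ.ends s β b hbr _ (Or.inr rfl) with h4 | h4 | h4
    · exact Or.inl fun s' hs' => by linarith [hs'.2]
    · exact Or.inr fun s' hs' => by linarith [hs'.1]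
    · rcases h3p _ h4 with h5 | h5
      · exact Or.inl fun s' hs' => by linarith [hs'.2]
      · exact Or.inr fun s' hs' => by linarith [hs'.1]

/-- **the number of crossings of any edge** with the levels of one direction -/
theorem cnt_all {L : PLev (D.G C)} {e : E.ε} {s : K.S} (hs : s ∈ pS C J₀) {β : Bool}
    {Jm R : K.S → ℝ} {Q : K.S → Bool → Finset ℝ} (HQ : Marks (D.G C) Jm R Q) {r : K.S → ℝ}
    (hrJ : r s ≤ Jm s) (hr : ∀ b ∈ pB C J₀, Rel s (tg s β) b → 50 * ω3T δ C b ≤ r s)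
    (hav : ∀ n < L.N s β, ∀ q ∈ Q s β, L.a s β n ≤ q - r s ∨ q + r s ≤ L.a s β n)
    {A εe : ℝ}
    (hcnt : ∀ p ∈ jnM (D.G C) r Q s β, ENNReal.ofReal (L.om s β) *
      cnt (cross (onS h1.toFun (E.a e) (E.b e)) (tg s β) (levs (L.N s β) (L.a s β))
        (PK (D.G C) s ∩ {y | p.1 ≤ y (tg s β) ∧ y (tg s β) ≤ p.2})) ≤
      ENNReal.ofReal A * varIn (onS h1.toFun (E.a e) (E.b e)) (tg s β)
        (PK (D.G C) s ∩ {y | p.1 ≤ y (tg s β) ∧ y (tg s β) ≤ p.2}) 0 1 + ENNReal.ofReal εe)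
    {T : ℝ≥0∞}
    (htv : ∀ l, (∀ b ∈ pB C J₀, (h.toFun '' E.seg e ∩ (D.G C).TB false b).Nonempty →
        b.ax = l) → ∀ f : ℝ → ℝ, (∀ s t, |f s - f t| ≤ |s - t|) →
      (∀ b ∈ pB C J₀, (h.toFun '' E.seg e ∩ (D.G C).TB false b).Nonempty →
        (∀ s ∈ Icc ((D.G C).tlo true b b.ax) ((D.G C).tlo true b b.ax + 50 * ω3T δ C b),
          f s = f ((D.G C).tlo true b b.ax)) ∧
        ∀ s ∈ Icc ((D.G C).thi true b b.ax - 50 * ω3T δ C b) ((D.G C).thi true b b.ax),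
          f s = f ((D.G C).thi true b b.ax)) →
      eVariationOn (fun t : ℝ => f (h1.toFun (E.a e + t • (E.b e - E.a e)) l)) (Icc 0 1) ≤ T) :
    ENNReal.ofReal (L.om s β) * cnt (crK L h1 (E.a e) (E.b e) s β) ≤
      25 * (ENNReal.ofReal A * T + ENNReal.ofReal εe) := by
  classical
  rcases (crK L h1 (E.a e) (E.b e) s β).eq_empty_or_nonempty with h0 | ⟨t₁, ht₁⟩
  · rw [h0]; simp [cnt]
  have hx₁ : E.a e + t₁ • (E.b e - E.a e) ∈ E.seg e := by
    rw [Edges.seg, segment_eq_image']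
    exact ⟨t₁, ht₁.1, rfl⟩
  have hx₁s : h1.toFun (E.a e + t₁ • (E.b e - E.a e)) ∈ PK (D.G C) s := ht₁.2.1
  have hwin : ∀ k < L.N s β, K.slo s (tg s β) + (D.G C).a s ≤ L.a s β k ∧
      L.a s β k ≤ K.shi s (tg s β) - (D.G C).a s := by
    intro k hk
    have h3 := (L.lvs s β).c0
    have h4 := (L.lvs s β).first_le hk
    have h5 := (L.lvs s β).le_last hk
    constructor <;> linarith
  rcases dichK3 D C hn hs hx₁ hx₁s β with h2 | h2
  swap
  · exfalso
    obtain ⟨k, hk, htl⟩ := ht₁.2.2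
    refine h2 _ hx₁ ?_
    have htl' : h1.toFun (E.a e + t₁ • (E.b e - E.a e)) (tg s β) = L.a s β k := htl
    rw [htl']
    exact hwin k hk
  have hrel : ∀ b ∈ pB C J₀, (h.toFun '' E.seg e ∩ (D.G C).TB false b).Nonempty →
      Rel s (tg s β) b := fun b hb hm => by
    rw [← h2 b hb hm]
    exact met_rel D C hn hs hx₁ hx₁s hm
  set F := (jnM (D.G C) r Q s β).filter (fun p => K.slo s (tg s β) + (D.G C).a s ≤ p.1 ∧
    p.2 ≤ K.shi s (tg s β) - (D.G C).a s ∧ ∀ q ∈ Q s β, q + r s ≤ p.1 ∨ p.2 ≤ q - r s) with hF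
  have hcov : crK L h1 (E.a e) (E.b e) s β ⊆ ⋃ p ∈ F, cross (onS h1.toFun (E.a e) (E.b e))
      (tg s β) (levs (L.N s β) (L.a s β))
      (PK (D.G C) s ∩ {y | p.1 ≤ y (tg s β) ∧ y (tg s β) ≤ p.2}) := by
    rintro t ⟨ht, htP, k, hk, htl⟩
    obtain ⟨hk1, hk2⟩ := hwin k hk
    obtain ⟨p, hp, h3, h4, h5, h6, h7⟩ := exists_jnM (G := D.G C) (r := r) hk1 hk2 (hav k hk)
    refine mem_iUnion₂.2 ⟨p, Finset.mem_filter.2 ⟨hp, h5, h6, h7⟩, ht, ⟨htP, ?_⟩, k, hk, htl⟩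
    have htl' : onS h1.toFun (E.a e) (E.b e) t (tg s β) = L.a s β k := htl
    show p.1 ≤ onS h1.toFun (E.a e) (E.b e) t (tg s β) ∧
      onS h1.toFun (E.a e) (E.b e) t (tg s β) ≤ p.2
    rw [htl']
    exact ⟨h3, h4⟩
  have hone : ∀ p ∈ F, ENNReal.ofReal (L.om s β) *
      cnt (cross (onS h1.toFun (E.a e) (E.b e)) (tg s β) (levs (L.N s β) (L.a s β))
        (PK (D.G C) s ∩ {y | p.1 ≤ y (tg s β) ∧ y (tg s β) ≤ p.2})) ≤
      ENNReal.ofReal A * T + ENNReal.ofReal εe := by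
    intro p hp
    obtain ⟨hpJ, h5, h6, h7⟩ := Finset.mem_filter.1 hp
    refine (hcnt p hpJ).trans (add_le_add (mul_le_mul' le_rfl ?_) le_rfl)
    refine (varIn_le_clm zero_le_one (Croft.conicalOn_onS h1.conical (E.seg_sub_Ω e)) (tg s β)
      (H669.PK_convex (D.G C) s) p.1 p.2).trans ?_
    exact tv_sub D C HQ hrJ hr hrel (htv _ h2) h5 h6 h7
  have hcard : (F.card : ℝ≥0∞) ≤ 25 := by
    have h3 : F.card ≤ 25 := (Finset.card_filter_le _ _).trans
      ((card_jnM (HQ.card s β)).trans (by norm_num))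
    exact_mod_cast h3
  calc ENNReal.ofReal (L.om s β) * cnt (crK L h1 (E.a e) (E.b e) s β)
      ≤ ENNReal.ofReal (L.om s β) * ∑ p ∈ F, cnt (cross (onS h1.toFun (E.a e) (E.b e)) (tg s β)
        (levs (L.N s β) (L.a s β))
        (PK (D.G C) s ∩ {y | p.1 ≤ y (tg s β) ∧ y (tg s β) ≤ p.2})) :=
        mul_le_mul_right ((Croft.cnt_mono hcov).trans (cnt_biUnion_le _ _)) _
    _ = ∑ p ∈ F, ENNReal.ofReal (L.om s β) * cnt (cross (onS h1.toFun (E.a e) (E.b e)) (tg s β)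
        (levs (L.N s β) (L.a s β))
        (PK (D.G C) s ∩ {y | p.1 ≤ y (tg s β) ∧ y (tg s β) ≤ p.2})) := Finset.mul_sum _ _ _
    _ ≤ ∑ p ∈ F, (ENNReal.ofReal A * T + ENNReal.ofReal εe) := Finset.sum_le_sum hone
    _ = F.card * (ENNReal.ofReal A * T + ENNReal.ofReal εe) := by
        rw [Finset.sum_const, nsmul_eq_mul]
    _ ≤ _ := mul_le_mul_left hcard _

end Vale.Agent.P073.H345W
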