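import Vale.Agent.P073.H345.QT
import Vale.Agent.P073.H805.FB

/-!
# P073, H345, ROUND T: preimages of compact sets for small thickness; wild faces and edges
-/

open Set Metric Topology Filter

namespace P073.H345

open P073 P073.TR P073.H936 P073.H236 P073.H579

variable {γ K τ : Type*} {Ω Λ : Set (Fin 3 → ℝ)} {B : γ → BX 3} {κ : (Fin 3 → ℝ) → Fin 3 → ℝ}

/-- the boxes which meet a compact set -/
theorem Fam.finite (H : Fam Λ B) {X : Set (Fin 3 → ℝ)} (hX : IsCompact X) (hXΛ : X ⊆ Λ) :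
    {g | ((B g).K ∩ X).Nonempty}.Finite := by
  classical
  choose! U hU hfin using H.lf
  obtain ⟨t, hcov⟩ := hX.elim_nhds_subcover' (fun z _ => U z) fun z hz => hU z (hXΛ hz)
  have hf := t.finite_toSet.biUnion (s := (t : Set X))
    (t := fun z => {g | ((B g).K ∩ U z).Nonempty}) fun z _ => hfin z (hXΛ z.2)
  refine hf.subset ?_
  rintro g ⟨y, hyK, hyX⟩
  obtain ⟨z, hz, hyz⟩ := mem_iUnion₂.1 (hcov hyX)
  exact mem_biUnion (show z ∈ (t : Set X) from hz) ⟨y, hyK, hyz⟩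

theorem exists_pos_le {J : Type*} [Finite J] (f : J → ℝ) (hf : ∀ j, 0 < f j) :
    ∃ c : ℝ, 0 < c ∧ ∀ j, c ≤ f j := by
  by_cases hne : Nonempty J
  · obtain ⟨j₀, hmin⟩ := Finite.exists_min f
    exact ⟨f j₀, hf _, hmin⟩
  · exact ⟨1, one_pos, fun j => absurd ⟨j⟩ hne⟩

/-- **one compact set**: a threshold for the thickness of the boxes which meet `h C` -/
theorem exists_passed_family (H : Fam Λ B) (h : ConHomeo Ω Λ) {C : Set (Fin 3 → ℝ)}
    (hC : IsCompact C) (hcon : ConicalSet C) (hCΩ : C ⊆ Ω) {M : τ → Set (Fin 3 → ℝ)} (i₀ : τ)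
    (hi₀ : M i₀ = C)
    (hreg : ∀ g, ((B g).K ∩ h.toFun '' C).Nonempty → ∀ k < (B g).N, ∀ x ∈ C,
      h.toFun x (B g).j = (B g).a k → H805.Reg (fun x => h.toFun x (B g).j) M x) :
    ∃ c₀ : ℝ, 0 < c₀ ∧ ∀ (c : γ → ℝ) (h0 : ∀ g, 0 < c g) (h1 : ∀ g, c g ≤ (B g).c),
      (∀ g, ((B g).K ∩ h.toFun '' C).Nonempty → c g ≤ c₀) →
      ∀ κ, IsQ (fun g => thin (B g) (c g) (h0 g) (h1 g)) κ →
        ∃ (Φ : ConHomeo C (κ ⁻¹' (h.toFun '' C))) (γ' : (Fin 3 → ℝ) → Fin 3 → ℝ),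
          PassedD C h.toFun κ M Φ γ' := by
  classical
  have hhC : IsCompact (h.toFun '' C) := hC.image_of_continuousOn (h.cont.mono hCΩ)
  have hhΛ : h.toFun '' C ⊆ Λ := by rintro _ ⟨x, hx, rfl⟩; exact h.mapsTo (hCΩ hx)
  have hfin := H.finite hhC hhΛ
  -- the bands
  let J : Type _ := {p : γ × ℕ // p.2 < (B p.1).N ∧ ((B p.1).K ∩ h.toFun '' C).Nonempty}
  have hJ : Finite J := by
    have : {p : γ × ℕ | p.2 < (B p.1).N ∧ ((B p.1).K ∩ h.toFun '' C).Nonempty}.Finite := by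
      have h2 : (⋃ g ∈ {g | ((B g).K ∩ h.toFun '' C).Nonempty},
          (fun k => (g, k)) '' {k : ℕ | k < (B g).N}).Finite :=
        hfin.biUnion fun g _ => (Set.finite_lt_nat _).image _
      refine h2.subset ?_
      rintro ⟨g, k⟩ ⟨h3, h4⟩
      exact mem_biUnion (show g ∈ {g | ((B g).K ∩ h.toFun '' C).Nonempty} from h4) ⟨k, h3, rfl⟩
    exact this.to_subtype
  obtain ⟨η₀, hη₀, hmain⟩ := exists_passedD (J := J) (M := M) hC i₀ hi₀
    (⟨h.cont.mono hCΩ, h.conical.mono hcon hCΩ⟩ : CC h.toFun C) (h.injOn.mono hCΩ)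
    (fun p => (B p.1.1).j) (fun p => (B p.1.1).a p.1.2) (fun p => cyl (B p.1.1))
    (fun p => isClosed_cyl _)
    (by
      rintro ⟨⟨g, k⟩, hk, hg⟩ ⟨⟨g', k'⟩, hk', hg'⟩ hne x hx h1 h2 h3 h4
      simp only at hk hk' hg hg' h1 h2 h3 h4
      have e1 : h.toFun x ∈ (B g).K := (mem_K _).2
        ⟨⟨by rw [h1]; linarith [(B g).lvs.first_le hk, (B g).lvs.c0],
          by rw [h1]; linarith [(B g).lvs.le_last hk, (B g).lvs.c0]⟩, h2⟩
      have e2 : h.toFun x ∈ (B g').K := (mem_K _).2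
        ⟨⟨by rw [h3]; linarith [(B g').lvs.first_le hk', (B g').lvs.c0],
          by rw [h3]; linarith [(B g').lvs.le_last hk', (B g').lvs.c0]⟩, h4⟩
      by_cases hgg : g = g'
      · subst hgg
        have hkk : k = k' := by
          by_contra hkk
          rcases lt_or_gt_of_ne hkk with h5 | h5
          · have := (B g).lvs.strictMono h5 hk'
            linarith
          · have := (B g).lvs.strictMono h5 hk
            linarith
        subst hkk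
        exact hne rfl
      · have e3 := (B g).lvs.first_le hk
        have e4 := (B g).lvs.le_last hk
        have e5 := (B g).lvs.c0
        rcases H.dis g g' hgg _ e1 e2 with e6 | e6 <;> linarith)
    (fun p x hx => hreg p.1.1 p.2.2 p.1.2 p.2.1 x hx.1 hx.2)
  obtain ⟨c₀, hc₀, hle⟩ := exists_pos_le (fun p => η₀ p / 2) fun p => half_pos (hη₀ p)
  refine ⟨c₀, hc₀, fun c h0 h1 hc κ hκ => ?_⟩
  refine hmain (fun p => 2 * c p.1.1) (fun p => ⟨by have := h0 p.1.1; positivity, ?_⟩)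
    (fun p => mu (thin (B p.1.1) (c p.1.1) (h0 _) (h1 _)))
    (fun p => thk_mu (thin (B p.1.1) (c p.1.1) (h0 _) (h1 _)))
    (fun p y hy => mu_zero (thin (B p.1.1) (c p.1.1) (h0 _) (h1 _)) hy) κ ?_ ?_
  · have e1 := hle p
    have e2 := hc p.1.1 p.2.2
    linarith
  · rintro ⟨⟨g, k⟩, hk, hg⟩ y hy hyZ
    simp only at hk hg hy hyZ
    have e1 : y ∈ (thin (B g) (c g) (h0 g) (h1 g)).K := by
      obtain ⟨a1, a2⟩ := abs_lt.1 hy
      have e2 := (B g).lvs.first_le hk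
      have e3 := (B g).lvs.le_last hk
      have e4 := h1 g
      exact (mem_K _).2 ⟨⟨by show (B g).al ≤ y (B g).j; linarith,
        by show y (B g).j ≤ (B g).be; linarith⟩, hyZ⟩
    rw [hκ.on g y e1]
    exact Q_eq_kap (thin (B g) (c g) (h0 g) (h1 g)) hk hy.le
  · intro y hy hyJ
    by_cases h2 : ∃ g, y ∈ (thin (B g) (c g) (h0 g) (h1 g)).K
    · obtain ⟨g, hg⟩ := h2
      have hne : ((B g).K ∩ h.toFun '' C).Nonempty := by
        rcases hy with hy | hy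
        · exact ⟨κ y, hκ.mapsK hg, hy⟩
        · exact ⟨y, hg, hy⟩
      rw [hκ.on g y hg]
      refine Q_eq_self _ fun k hk => ?_
      exact hyJ ⟨(g, k), hk, hne⟩ ((mem_K _).1 hg).2
    · push Not at h2
      exact hκ.off y h2

/-- **a locally finite family of compact sets** -/
theorem exists_passed_all (H : Fam Λ B) (h : ConHomeo Ω Λ) {F : K → Set (Fin 3 → ℝ)}
    (hF : ∀ k, IsCompact (F k)) (hcon : ∀ k, ConicalSet (F k))
    (hFΩ : ∀ k, F k ⊆ Ω) (hlf : ∀ X ⊆ Ω, IsCompact X → {k | (F k ∩ X).Nonempty}.Finite)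
    {M : τ → Set (Fin 3 → ℝ)} (i₀ : K → τ) (hi₀ : ∀ k, M (i₀ k) = F k)
    (hreg : ∀ k g, ((B g).K ∩ h.toFun '' F k).Nonempty → ∀ m < (B g).N, ∀ x ∈ F k,
      h.toFun x (B g).j = (B g).a m → H805.Reg (fun x => h.toFun x (B g).j) M x) :
    ∃ c₀ : γ → ℝ, (∀ g, 0 < c₀ g) ∧ ∀ (c : γ → ℝ) (h0 : ∀ g, 0 < c g) (h1 : ∀ g, c g ≤ (B g).c),
      (∀ g, c g ≤ c₀ g) → ∀ κ, IsQ (fun g => thin (B g) (c g) (h0 g) (h1 g)) κ →
        ∀ k, ∃ (Φ : ConHomeo (F k) (κ ⁻¹' (h.toFun '' F k))) (γ' : (Fin 3 → ℝ) → Fin 3 → ℝ),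
          PassedD (F k) h.toFun κ M Φ γ' := by
  choose c₀ hc₀ hmain using fun k => exists_passed_family H h (hF k) (hcon k) (hFΩ k) (i₀ k)
    (hi₀ k) (fun g hg m hm x hx hxa => hreg k g hg m hm x hx hxa)
  have hbox : ∀ g, {k | ((B g).K ∩ h.toFun '' F k).Nonempty}.Finite := by
    intro g
    have h1 : IsCompact (h.invFun '' (B g).K) :=
      (B g).isCompact_K.image_of_continuousOn (h.cont_inv.mono (H.sub g))
    have h2 : h.invFun '' (B g).K ⊆ Ω := by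
      rintro _ ⟨y, hy, rfl⟩; exact h.mapsTo_inv (H.sub g hy)
    refine (hlf _ h2 h1).subset ?_
    rintro k ⟨_, hy, x, hx, rfl⟩
    exact ⟨x, hx, h.toFun x, hy, h.left_inv (hFΩ k hx)⟩
  have hth : ∀ g, ∃ c : ℝ, 0 < c ∧ ∀ k, ((B g).K ∩ h.toFun '' F k).Nonempty → c ≤ c₀ k := by
    intro g
    have := (hbox g).to_subtype
    obtain ⟨c, h1, h2⟩ := exists_pos_le
      (fun k : {k | ((B g).K ∩ h.toFun '' F k).Nonempty} => c₀ k.1) fun k => hc₀ k.1
    exact ⟨c, h1, fun k hk => h2 ⟨k, hk⟩⟩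
  choose c₁ h1 h2 using hth
  refine ⟨c₁, h1, fun c h0 hB hc κ hκ k => ?_⟩
  exact hmain k c h0 hB (fun g hg => (hc g).trans (h2 g k hg)) κ hκ

end P073.H345
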