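import Vale.Agent.P073.H345.Wild

/-!
# P073, H345, ROUND T: the wild faces and edges in the form of `H212.exists_round`
-/

open Set Metric Topology Filter

namespace P073.H345

open P073 P073.TR P073.H936 P073.H236 P073.H579 P073.H212

variable {K ε τ : Type*} {Ω Λ : Set (Fin 3 → ℝ)} {κ : (Fin 3 → ℝ) → Fin 3 → ℝ}

/-- a flow box for a family with `{x}` is impossible at `x` -/
theorem not_reg_singleton {u : (Fin 3 → ℝ) → ℝ} {M : τ → Set (Fin 3 → ℝ)} {x : Fin 3 → ℝ} {t : τ}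
    (ht : M t = {x}) : ¬ H805.Reg u M x := by
  rintro ⟨σ, r, hb⟩
  have hr := hb.pos
  have h1 := (hb.iff t 0 (r / 2) (by rw [norm_zero]; exact hr) (by
    rw [Real.norm_of_nonneg (by positivity)]; linarith)).2 (by rw [ht, add_zero]; rfl)
  rw [ht, add_zero] at h1
  have h2 : x + σ (r / 2) = x := h1
  have h3 := hb.add 0 (r / 2) (by rw [norm_zero]; exact hr) (by
    rw [Real.norm_of_nonneg (by positivity)]; linarith)
  rw [add_zero, h2] at h3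
  linarith

/-- the boundary map of a face from the edge maps -/
theorem exists_bd_map {s : ε → Set (Fin 3 → ℝ)} {N : Set (Fin 3 → ℝ)} {k : K}
    {F : K → Set (Fin 3 → ℝ)} (hE : EdgeCx F s N) (h : ConHomeo Ω Λ) (hκ : InsMap κ Λ Λ)
    (hs : ∀ e, IsCompact (s e)) (hsΩ : ∀ e, s e ⊆ Ω) (hfin : {e | s e ⊆ F k}.Finite)
    (hN : ∀ x ∈ N, (Pre κ Λ h {x}).Subsingleton)
    (Φe : ∀ e, s e ⊆ F k → ConHomeo (s e) (Pre κ Λ h (s e)))
    (hag : ∀ e he e' he', EqOn (Φe e he).toFun (Φe e' he').toFun (s e ∩ s e'))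
    (hv : ∀ e he, ∀ x ∈ s e, x ∈ N → κ ((Φe e he).toFun x) = h.toFun x) :
    ∃ G : ConHomeo (⋃ e ∈ {e | s e ⊆ F k}, s e) (Pre κ Λ h (⋃ e ∈ {e | s e ⊆ F k}, s e)),
      ∀ e he, EqOn G.toFun (Φe e he).toFun (s e) := by
  have hf := hfin.to_subtype
  have hX : RelLF fun e : {e | s e ⊆ F k} => s e.1 :=
    RelLF.of_finite fun e => (hs e.1).isClosed
  have hY : RelLF fun e : {e | s e ⊆ F k} => Pre κ Λ h (s e.1) :=
    RelLF.of_finite fun e => (hκ.isCompact_pre (hsΩ e.1) (hs e.1)).isClosed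
  obtain ⟨G, hG⟩ := ConHomeo.exists_glue_family hX hY (fun e => Φe e.1 e.2)
    (fun e e' => hag e.1 e.2 e'.1 e'.2) (by
      rintro ⟨e, he⟩ ⟨e', he'⟩ y hy
      by_cases hee : e = e'
      · subst hee
        rw [inter_self] at hy ⊢
        rwa [(Φe e he).image_eq]
      · rw [Pre.inter (hsΩ e) (hsΩ e')] at hy
        obtain ⟨hyΛ, x, hx, hxy⟩ := hy
        have hxN : x ∈ N := hE.meet e e' hee hx
        refine ⟨x, hx, ?_⟩
        refine hN x hxN ⟨((Φe e he).mapsTo hx.1).1, x, rfl, (hv e he x hx.1 hxN).symm⟩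
          ⟨hyΛ, x, rfl, hxy⟩)
  have e1 : (⋃ e : {e | s e ⊆ F k}, s e.1) = ⋃ e ∈ {e | s e ⊆ F k}, s e := by
    rw [biUnion_eq_iUnion]
  have e2 : (⋃ e : {e | s e ⊆ F k}, Pre κ Λ h (s e.1)) =
      Pre κ Λ h (⋃ e ∈ {e | s e ⊆ F k}, s e) := by
    rw [← e1, Pre.iUnion]
  exact ⟨G.cast e1 e2, fun e he x hx => (hG ⟨e, he⟩).1 hx⟩

/-- **wild faces**: any edge maps extend -/
theorem exists_wild_face {s : ε → Set (Fin 3 → ℝ)} {N : Set (Fin 3 → ℝ)} {k : K}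
    {F : K → Set (Fin 3 → ℝ)} (hE : EdgeCx F s N) (h : ConHomeo Ω Λ) (hκ : InsMap κ Λ Λ)
    (hs : ∀ e, IsCompact (s e)) (hsΩ : ∀ e, s e ⊆ Ω) (hfin : {e | s e ⊆ F k}.Finite)
    (hN : ∀ x ∈ N, (Pre κ Λ h {x}).Subsingleton)
    (hball : ConBall 2 (F k) (⋃ e ∈ {e | s e ⊆ F k}, s e))
    (Ψ : ConHomeo (F k) (Pre κ Λ h (F k)))
    (hΨ : ∀ e, s e ⊆ F k → Ψ.toFun '' s e = Pre κ Λ h (s e))
    (Φe : ∀ e, s e ⊆ F k → ConHomeo (s e) (Pre κ Λ h (s e)))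
    (hag : ∀ e he e' he', EqOn (Φe e he).toFun (Φe e' he').toFun (s e ∩ s e'))
    (hv : ∀ e he, ∀ x ∈ s e, x ∈ N → κ ((Φe e he).toFun x) = h.toFun x) :
    ∃ Φ : ConHomeo (F k) (Pre κ Λ h (F k)), ∀ e he, EqOn Φ.toFun (Φe e he).toFun (s e) := by
  obtain ⟨G, hG⟩ := exists_bd_map hE h hκ hs hsΩ hfin hN Φe hag hv
  have h1 := hball.image Ψ Subset.rfl
  have e1 : Ψ.toFun '' (⋃ e ∈ {e | s e ⊆ F k}, s e) =
      Pre κ Λ h (⋃ e ∈ {e | s e ⊆ F k}, s e) := by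
    rw [biUnion_eq_iUnion, Pre.iUnion, image_iUnion]
    exact iUnion_congr fun e => hΨ e.1 e.2
  rw [Ψ.image_eq, e1] at h1
  obtain ⟨Φ, hΦ, -⟩ := hball.exists_extend h1 G
  refine ⟨Φ, fun e he x hx => ?_⟩
  rw [hΦ (mem_biUnion (show e ∈ {e | s e ⊆ F k} from he) hx), hG e he hx]

end P073.H345
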